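import Vale.Agent.P159.H883.Sco
import Vale.Agent.P159.H864.Fou0

/-!
P159 / P#3 (helper883), part 4 (G3): the kernel `RK Γ` on the torus, its symbol.

For `Γ` translation invariant, `sym (RK Γ) k = e^{-4π²Γ(0)} ∑_z cos(kz) (sinh (4π²Γ(z)) - 4π²Γ(z))`, and
`E rU B u ^ 2 = sym (RK Γ) k * ∑ u²` for the cosine and sine modes.
-/

namespace Vale.Agent.P159.H883

open MeasureTheory ProbabilityTheory Finset Matrix
open Vale.Agent.P159.H37 (gau qf bf)
open Vale.Agent.P159.H864 (TI sym)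
open Vale.Agent.P159.TM.H764 (Gh cN sN dt ch EE frm grd)
open Vale.Agent.P159.TM.Spec (V)
open scoped Real

noncomputable section

variable {N : ℕ} [NeZero N] {I : Type*} [Fintype I]

lemma ti_RK {Γ : Matrix (V N) (V N) ℝ} (h : TI Γ) : TI (RK Γ) where
  tr a x y := by
    simp only [RK, Matrix.of_apply, h.tr]
  sy x y := by
    simp only [RK, Matrix.of_apply, h.diag x, h.diag y, h.sy x y]

/-- the profile `sinh (4π² G) - 4π² G` -/
def shl (r : ℝ) : ℝ := Real.sinh (4 * π ^ 2 * r) - 4 * π ^ 2 * r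

lemma RK_apply {Γ : Matrix (V N) (V N) ℝ} (h : TI Γ) (x y : V N) :
    RK Γ x y = Real.exp (-(4 * π ^ 2 * Γ 0 0)) * shl (Γ 0 (y - x)) := by
  simp only [RK, Matrix.of_apply, rk, shl]
  rw [h.diag x, h.diag y, h.eq x y]
  congr 2
  ring

/-- **(G3)** -/
theorem sym_RK {Γ : Matrix (V N) (V N) ℝ} (h : TI Γ) (k : V N) :
    sym (RK Γ) k = Real.exp (-(4 * π ^ 2 * Γ 0 0)) * ∑ z, shl (Γ 0 z) * cN (dt k z) := by
  rw [H864.sym_def, Finset.mul_sum]
  refine Finset.sum_congr rfl fun z _ => ?_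
  rw [RK_apply h, sub_zero, mul_assoc]

lemma qf_eigen {A : Matrix (V N) (V N) ℝ} {u : V N → ℝ} {c : ℝ} (hu : A *ᵥ u = c • u) :
    qf A u = c * ∑ x, u x ^ 2 := by
  have h1 : qf A u = ∑ x, u x * (A *ᵥ u) x := by
    unfold qf
    refine Finset.sum_congr rfl fun x _ => ?_
    rw [Matrix.mulVec, dotProduct, Finset.mul_sum]
    exact Finset.sum_congr rfl fun y _ => by ring
  rw [h1, hu, Finset.mul_sum]
  refine Finset.sum_congr rfl fun x _ => ?_
  rw [Pi.smul_apply, smul_eq_mul]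
  ring

/-- cosine modes -/
theorem rU_cos (B : Matrix (V N) I ℝ) (h : TI (B * Bᵀ)) (k : V N) :
    ∫ g, rU B (fun x => cN (dt k x)) g ^ 2 ∂(gau I)
      = sym (RK (B * Bᵀ)) k * ∑ x : V N, cN (dt k x) ^ 2 := by
  rw [rU_sq]
  exact qf_eigen ((ti_RK h).mulVec_cN k)

/-- sine modes -/
theorem rU_sin (B : Matrix (V N) I ℝ) (h : TI (B * Bᵀ)) (k : V N) :
    ∫ g, rU B (fun x => sN (dt k x)) g ^ 2 ∂(gau I)
      = sym (RK (B * Bᵀ)) k * ∑ x : V N, sN (dt k x) ^ 2 := by
  rw [rU_sq]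
  exact qf_eigen ((ti_RK h).mulVec_sN k)

/-- `J_G(0) - J_G(k)` (per unit, without the amplitude) -/
theorem sym_RK_diff {Γ : Matrix (V N) (V N) ℝ} (h : TI Γ) (k : V N) :
    sym (RK Γ) 0 - sym (RK Γ) k
      = Real.exp (-(4 * π ^ 2 * Γ 0 0)) * ∑ z, shl (Γ 0 z) * (1 - cN (dt k z)) := by
  rw [sym_RK h, sym_RK h, ← mul_sub, ← Finset.sum_sub_distrib]
  congr 1
  refine Finset.sum_congr rfl fun z _ => ?_
  rw [H864.dt_zero_left, TM.H764.cN_zero]
  ring

/-! ### size of the profile -/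

/-- `sinh x - x` is increasing -/
lemma shl_mono {a b : ℝ} (h : a ≤ b) : shl a ≤ shl b := by
  have hm : Monotone fun x : ℝ => Real.sinh x - x := by
    apply monotone_of_deriv_nonneg
    · exact Real.differentiable_sinh.sub differentiable_id
    · intro x
      have h1 : HasDerivAt (fun x : ℝ => Real.sinh x - x) (Real.cosh x - 1) x :=
        (Real.hasDerivAt_sinh x).sub (hasDerivAt_id x)
      rw [h1.deriv]
      linarith [Real.one_le_cosh x]
  have h2 : 4 * π ^ 2 * a ≤ 4 * π ^ 2 * b := mul_le_mul_of_nonneg_left h (by positivity)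
  exact hm h2

lemma shl_zero : shl 0 = 0 := by simp [shl]

lemma shl_nonneg {r : ℝ} (h : 0 ≤ r) : 0 ≤ shl r := by
  rw [← shl_zero]
  exact shl_mono h

lemma sinh_le_mul_cosh {x : ℝ} (hx : 0 ≤ x) : Real.sinh x ≤ x * Real.cosh x := by
  refine hasSum_le (fun n => ?_) (Real.hasSum_sinh x) ((Real.hasSum_cosh x).mul_left x)
  have h1 : x * (x ^ (2 * n) / ((2 * n).factorial : ℝ)) = x ^ (2 * n + 1) / ((2 * n).factorial : ℝ) := by
    rw [pow_succ]; ring
  rw [h1]
  refine div_le_div_of_nonneg_left (pow_nonneg hx _) ?_ ?_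
  · exact_mod_cast Nat.factorial_pos _
  · exact_mod_cast Nat.factorial_le (Nat.le_succ _)

/-- cubic for small arguments, exponential for large ones -/
lemma shl_le {r : ℝ} (h : 0 ≤ r) :
    shl r ≤ Real.exp (4 * π ^ 2 * r) / 2 ∧ shl r ≤ (4 * π ^ 2 * r) ^ 3 * Real.exp (4 * π ^ 2 * r) := by
  have h0 : 0 ≤ 4 * π ^ 2 * r := by positivity
  set x := 4 * π ^ 2 * r with hx
  constructor
  · unfold shl
    rw [← hx, Real.sinh_eq]
    have := Real.exp_pos (-x)
    linarith
  · unfold shl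
    rw [← hx]
    -- `sinh x - x ≤ x³ e^x`
    have h1 : Real.sinh x ≤ x * Real.cosh x := sinh_le_mul_cosh h0
    have h2 : Real.cosh x - 1 ≤ x ^ 2 * Real.exp x := by
      have h3 : Real.cosh x - 1 = 2 * Real.sinh (x / 2) ^ 2 := by
        have h4 := Real.cosh_two_mul (x / 2)
        have h5 := Real.cosh_sq (x / 2)
        have h6 : 2 * (x / 2) = x := by ring
        rw [h6] at h4
        rw [h4, h5]
        ring
      have h4 : Real.sinh (x / 2) ≤ (x / 2) * Real.exp (x / 2) := by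
        refine (sinh_le_mul_cosh (by positivity)).trans ?_
        refine mul_le_mul_of_nonneg_left ?_ (by positivity)
        rw [Real.cosh_eq]
        have : Real.exp (-(x / 2)) ≤ Real.exp (x / 2) := Real.exp_le_exp.2 (by linarith)
        linarith
      have h5 : 0 ≤ Real.sinh (x / 2) := Real.sinh_nonneg_iff.2 (by positivity)
      have h6 : Real.sinh (x / 2) ^ 2 ≤ ((x / 2) * Real.exp (x / 2)) ^ 2 :=
        pow_le_pow_left₀ h5 h4 2
      have h7 : ((x / 2) * Real.exp (x / 2)) ^ 2 = x ^ 2 / 4 * Real.exp x := by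
        rw [mul_pow, ← Real.exp_nat_mul]
        have : ((2 : ℕ) : ℝ) * (x / 2) = x := by push_cast; ring
        rw [this]
        ring
      rw [h3]
      rw [h7] at h6
      have h8 : 0 ≤ x ^ 2 * Real.exp x := by positivity
      linarith
    have h3 : Real.sinh x - x ≤ x * (Real.cosh x - 1) := by linarith
    refine h3.trans ?_
    calc x * (Real.cosh x - 1) ≤ x * (x ^ 2 * Real.exp x) := mul_le_mul_of_nonneg_left h2 h0
      _ = _ := by ring

/-- lower bound `sinh x - x ≥ x³/6` -/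
lemma shl_ge {r : ℝ} (h : 0 ≤ r) : (4 * π ^ 2 * r) ^ 3 / 6 ≤ shl r := by
  have h0 : 0 ≤ 4 * π ^ 2 * r := by positivity
  unfold shl
  have hs := Real.hasSum_sinh (4 * π ^ 2 * r)
  have h1 := hs.summable.sum_le_tsum (Finset.range 2) (fun n _ => by positivity)
  rw [hs.tsum_eq] at h1
  simp only [Finset.sum_range_succ, Finset.sum_range_zero] at h1
  norm_num [Nat.factorial] at h1
  linarith

end

end Vale.Agent.P159.H883
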