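import Vale.Agent.P159.H883.Twr3
import Vale.Agent.P159.H30.Ind2

/-!
P159, S list SL1 (helper883), part 4: exponential moments of pinned massless edge weights on
connected graphs, the torus instance (770's `wTD N b η`), and the SL1 statements in torus letters.
-/

set_option linter.unusedSectionVars false

namespace Vale.Agent.P159.H883

open Finset Matrix MeasureTheory
open Vale.Agent.P159.TM.H104 (EM nh Gr li)
open Vale.Agent.P159.H37 (wM ZM qf bf Zn Zs re gau)
open Vale.Agent.P159.H963 (GrI pin MF ntr)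
open Vale.Agent.P159.H896 (Chn cN)
open Vale.Agent.P159.H145 (cs Per)
open Vale.Agent.P159.H770 (GWF EdW eW Ed eS eT wTD gwf_wTD edW_wI wTD_zero)
open Vale.Agent.P159.H353 (wI)
open Vale.Agent.P159.TM.SpecC (Tor wT)

noncomputable section

section graph

variable {V E : Type} [Fintype V] [DecidableEq V] [Fintype E] {s t : E → V} {I : E → ℤ → ℝ}

/-- quantitative connectivity -/
def Cnn (s t : E → V) (x₀ : V) (K : ℝ) : Prop :=
  ∀ (h : V → ℤ) (x : V), |((h x - h x₀ : ℤ) : ℝ)| ≤ K * ∑ e, |((h (t e) - h (s e) : ℤ) : ℝ)|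

/-- **exponential moments** of the pinned massless weight -/
theorem em_pin_eW (hI : EdW I)
    (hs : ∀ e (C : ℝ), Summable fun n : ℤ => I e n * Real.exp (C * |(n : ℝ)|)) (η : E → ℤ)
    {x₀ : V} {K : ℝ} (hK : 0 ≤ K) (hc : Cnn s t x₀ K) : EM (pin (eW s t I η) x₀) where
  nn := H963.pin_nonneg (fun h => (hI.eW_pos η h).le) x₀
  pos := by
    refine ⟨0, ?_⟩
    have h0 : pin (eW s t I η) x₀ 0 = eW s t I η 0 := H963.pin_of_zero (h := (0 : V → ℤ)) rfl
    rw [h0]
    exact hI.eW_pos η 0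
  sum C := by
    set D : ℝ := |C| * (Fintype.card V * K) with hD
    have hD0 : 0 ≤ D := by positivity
    have hsum := TM.H871.summable_pi_prod (V := E) (g := fun e n => I e n * Real.exp (D * |(n : ℝ)|))
      (fun e n => mul_nonneg (hI.pos e n).le (Real.exp_pos _).le) fun e => hs e D
    -- the injection of the pinned heights
    set ι : {h : V → ℤ // h x₀ = 0} → (E → ℤ) := fun h e => h.1 (t e) - h.1 (s e) + η e with hι
    have hinj : Function.Injective ι := by
      intro h k hk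
      apply Subtype.ext
      funext x
      have h1 := hc (h.1 - k.1) x
      have h2 : ∀ e, ((h.1 - k.1) (t e) - (h.1 - k.1) (s e) : ℤ) = 0 := by
        intro e
        have := congrFun hk e
        simp only [hι] at this
        simp only [Pi.sub_apply]
        omega
      simp only [h2] at h1
      simp only [Int.cast_zero, abs_zero, Finset.sum_const_zero, mul_zero] at h1
      have h3 := abs_nonpos_iff.1 h1
      have h4 : (h.1 - k.1) x - (h.1 - k.1) x₀ = 0 := by exact_mod_cast h3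
      simp only [Pi.sub_apply, h.2, k.2] at h4
      omega
    have hcomp := (hsum.comp_injective hinj).mul_left (Real.exp (D * ∑ e, |(η e : ℝ)|))
    have hinjv : Function.Injective (Subtype.val : {h : V → ℤ // h x₀ = 0} → (V → ℤ)) :=
      Subtype.val_injective
    rw [← hinjv.summable_iff (fun h hh => ?_)]
    · refine Summable.of_nonneg_of_le (fun h => ?_) (fun h => ?_) hcomp
      · exact mul_nonneg (H963.pin_nonneg (fun h => (hI.eW_pos η h).le) x₀ _) (Real.exp_pos _).le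
      · have hn : nh h.1 ≤ (Fintype.card V * K) *
            (∑ e, |(ι h e : ℝ)| + ∑ e, |(η e : ℝ)|) := by
          unfold nh
          have h1 : ∀ x, |(h.1 x : ℝ)| ≤ K * (∑ e, |(ι h e : ℝ)| + ∑ e, |(η e : ℝ)|) := by
            intro x
            have h2 := hc h.1 x
            rw [h.2, sub_zero] at h2
            refine h2.trans (mul_le_mul_of_nonneg_left ?_ hK)
            rw [← Finset.sum_add_distrib]
            refine Finset.sum_le_sum fun e _ => ?_
            have h3 : ((h.1 (t e) - h.1 (s e) : ℤ) : ℝ) = (ι h e : ℝ) - (η e : ℝ) := by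
              simp only [hι]
              push_cast
              ring
            rw [h3]
            exact abs_sub _ _
          refine (Finset.sum_le_sum fun x _ => h1 x).trans ?_
          rw [Finset.sum_const, Finset.card_univ, nsmul_eq_mul]
          exact le_of_eq (by ring)
        have h5 : C * nh h.1 ≤ D * ∑ e, |(η e : ℝ)| + ∑ e, D * |(ι h e : ℝ)| := by
          have h6 : 0 ≤ nh h.1 := Finset.sum_nonneg fun _ _ => abs_nonneg _
          calc C * nh h.1 ≤ |C| * nh h.1 := mul_le_mul_of_nonneg_right (le_abs_self C) h6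
            _ ≤ |C| * ((Fintype.card V * K) * (∑ e, |(ι h e : ℝ)| + ∑ e, |(η e : ℝ)|)) :=
                mul_le_mul_of_nonneg_left hn (abs_nonneg _)
            _ = _ := by rw [← Finset.mul_sum]; simp only [hD]; ring
        have hp : pin (eW s t I η) x₀ h.1 = ∏ e, I e (ι h e) := by
          rw [H963.pin_of_zero h.2]
          rfl
        simp only [Function.comp_apply]
        rw [hp]
        calc (∏ e, I e (ι h e)) * Real.exp (C * nh h.1)
            ≤ (∏ e, I e (ι h e)) * Real.exp (D * ∑ e, |(η e : ℝ)| + ∑ e, D * |(ι h e : ℝ)|) :=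
              mul_le_mul_of_nonneg_left (Real.exp_le_exp.2 h5)
                (Finset.prod_nonneg fun e _ => (hI.pos e _).le)
          _ = _ := by
              rw [Real.exp_add, Real.exp_sum, Finset.prod_mul_distrib]
              ring
    · have h1 : ¬ h x₀ = 0 := fun h0 => hh ⟨⟨h, h0⟩, rfl⟩
      rw [H963.pin_of_ne h1, zero_mul]

end graph

/-! ### the torus -/

section torus

variable {N : ℕ} [NeZero N] {b : ℝ}

lemma tor_step (h : Tor N → ℤ) (y : Tor N) (c : Bool) :
    |((h (if c then y + (0, 1) else y + (1, 0)) - h y : ℤ) : ℝ)| ≤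
      ∑ e : Ed N, |((h (eT N e) - h (eS N e) : ℤ) : ℝ)| :=
  Finset.single_le_sum (f := fun e : Ed N => |((h (eT N e) - h (eS N e) : ℤ) : ℝ)|)
    (fun _ _ => abs_nonneg _) (Finset.mem_univ (y, c))

lemma tor_run (h : Tor N → ℤ) (y : Tor N) (d : Tor N) (hd : d = (1, 0) ∨ d = (0, 1)) (k : ℕ) :
    |((h (y + k • d) - h y : ℤ) : ℝ)| ≤
      k * ∑ e : Ed N, |((h (eT N e) - h (eS N e) : ℤ) : ℝ)| := by
  induction k with
  | zero => simp
  | succ k ih =>
    have h1 : |((h (y + k • d + d) - h (y + k • d) : ℤ) : ℝ)| ≤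
        ∑ e : Ed N, |((h (eT N e) - h (eS N e) : ℤ) : ℝ)| := by
      rcases hd with hd | hd
      · have := tor_step h (y + k • d) false
        simpa [hd] using this
      · have := tor_step h (y + k • d) true
        simpa [hd] using this
    have e1 : y + (k + 1) • d = y + k • d + d := by rw [succ_nsmul, add_assoc]
    have e2 : ((h (y + (k + 1) • d) - h y : ℤ) : ℝ) =
        ((h (y + k • d + d) - h (y + k • d) : ℤ) : ℝ) + ((h (y + k • d) - h y : ℤ) : ℝ) := by
      rw [e1]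
      push_cast
      ring
    rw [e2]
    refine (abs_add_le _ _).trans ?_
    have e3 : ((k + 1 : ℕ) : ℝ) = k + 1 := by push_cast; ring
    rw [e3]
    linarith

lemma cnn_tor (x₀ : Tor N) : Cnn (eS N) (eT N) x₀ (2 * N) := by
  intro h x
  set S : ℝ := ∑ e : Ed N, |((h (eT N e) - h (eS N e) : ℤ) : ℝ)| with hS
  have hS0 : 0 ≤ S := Finset.sum_nonneg fun _ _ => abs_nonneg _
  set a := (x.1 - x₀.1).val with ha
  set c := (x.2 - x₀.2).val with hc
  have h1 := tor_run h x₀ (1, 0) (Or.inl rfl) a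
  have h2 := tor_run h (x₀ + a • (1, 0)) (0, 1) (Or.inr rfl) c
  have e : x₀ + a • ((1, 0) : Tor N) + c • ((0, 1) : Tor N) = x := by
    refine Prod.ext ?_ ?_
    · simp [ha]
    · simp [hc]
  rw [e] at h2
  have haN : (a : ℝ) ≤ N := by exact_mod_cast (ZMod.val_lt (x.1 - x₀.1)).le
  have hcN : (c : ℝ) ≤ N := by exact_mod_cast (ZMod.val_lt (x.2 - x₀.2)).le
  have e2 : ((h x - h x₀ : ℤ) : ℝ) =
      ((h x - h (x₀ + a • ((1, 0) : Tor N)) : ℤ) : ℝ) +
        ((h (x₀ + a • ((1, 0) : Tor N)) - h x₀ : ℤ) : ℝ) := by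
    push_cast
    ring
  rw [e2]
  refine (abs_add_le _ _).trans ((add_le_add h2 h1).trans ?_)
  rw [← hS]
  nlinarith [mul_le_mul_of_nonneg_right haN hS0, mul_le_mul_of_nonneg_right hcN hS0]

/-- exponential moments of the pinned massless torus weights with dislocations -/
theorem em_pin_wTD (hb : 0 < b) (η : Ed N → ℤ) (x₀ : Tor N) : EM (pin (wTD N b η) x₀) :=
  em_pin_eW (edW_wI hb) (fun _ C => H30.summable_wI_exp hb.le C) η (by positivity) (cnn_tor x₀)

theorem bw_wTD (hb : 0 < b) (η : Ed N → ℤ) : BW (wTD N b η) :=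
  gwf_bw (gwf_wTD hb) (fun η x₀ => em_pin_wTD hb η x₀) η

theorem bw_wT (hb : 0 < b) : BW (wT b N) := by
  have := bw_wTD (N := N) hb 0
  rwa [wTD_zero] at this

/-- scalar mass -/
theorem mf_scalar {t : ℝ} (ht : 0 < t) : MF (t • (1 : Matrix (Tor N) (Tor N) ℝ)) t where
  symm := by rw [transpose_smul, transpose_one]
  row x := by
    simp only [Matrix.smul_apply, Matrix.one_apply, smul_eq_mul, mul_ite, mul_one, mul_zero]
    simp
  coer := ⟨t, ht, fun u => by
    have h1 : qf (t • (1 : Matrix (Tor N) (Tor N) ℝ)) u = t * ∑ x, u x ^ 2 := by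
      rw [H37.qf_eq, Matrix.smul_mulVec, Matrix.one_mulVec, dotProduct_smul, smul_eq_mul]
      congr 1
      exact Finset.sum_congr rfl fun x _ => (pow_two (u x)).symm
    rw [h1]⟩

/-- the two point function of the neutral torus: ratio of the massless partition functions -/
def CT (N : ℕ) [NeZero N] (b : ℝ) (η : Ed N → ℤ) : ℝ := Zp (wTD N b η) 0 / Zp (wTD N b 0) 0

theorem CT_pos (hb : 0 < b) (η : Ed N → ℤ) : 0 < CT N b η :=
  div_pos ((bw_wTD hb η).Zp_pos 0) ((bw_wTD hb 0).Zp_pos 0)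

/-- as a sum over the heights with `h 0 = 0` -/
theorem Zp_eq {V : Type} [Fintype V] [DecidableEq V] (w : (V → ℤ) → ℝ) (x₀ : V) :
    Zp w x₀ = ∑' h : {h : V → ℤ // h x₀ = 0}, w h.1 := by
  have h1 := tsum_subtype {h : V → ℤ | h x₀ = 0} w
  have e : pin w x₀ = Set.indicator {h : V → ℤ | h x₀ = 0} w := by
    funext h
    by_cases h0 : h x₀ = 0
    · rw [H963.pin_of_zero h0, Set.indicator_of_mem (show h ∈ {h : V → ℤ | h x₀ = 0} from h0)]
    · rw [H963.pin_of_ne h0, Set.indicator_of_notMem (show h ∉ {h : V → ℤ | h x₀ = 0} from h0)]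
  unfold Zp
  rw [e, ← h1]
  rfl

variable {M M' : Matrix (Tor N) (Tor N) ℝ} {m m' : ℝ}
variable {I : Type} [Fintype I] {B : Matrix (Tor N) I ℝ} {K : Matrix I (Tor N) ℝ}

/-- the ratio in torus letters: `Ψ(F) = Zn (wTD η) (φ + F) / Zn wT F` -/
def PT (N : ℕ) [NeZero N] (b : ℝ) (M : Matrix (Tor N) (Tor N) ℝ) (η : Ed N → ℤ)
    (φ F : Tor N → ℝ) : ℝ := Psi (wTD N b 0) (wTD N b η) M φ F

theorem PT_eq (M : Matrix (Tor N) (Tor N) ℝ) (η : Ed N → ℤ) (φ F : Tor N → ℝ) :
    PT N b M η φ F = Zn (wTD N b η) M (φ + F) / Zn (wT b N) M F := by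
  unfold PT Psi
  rw [wTD_zero]

/-- **SL1** in one statement: along every channel `M → M'` of admissible mass forms, for every
dislocation `η` and every real shift `φ`,
* `E_f Ψ = Ψ'`, `E_ν Ψ = C`,
* `E_f log Ψ ≤ log Ψ'`, `E_ν log Ψ ≤ E_ν' log Ψ' ≤ log C`,
* `Ψ'² ≤ E_f Ψ²`, `0 ≤ χ' ≤ χ`,
* `Ψ(0) ≤ Ψ'(0) ≤ C`, `E_{s'} = E_s - log E_0 [Ψ/Ψ(0)]`,
* `log C ≤ E_Q' log Ψ' ≤ E_Q log Ψ`. -/
theorem SL1 (hb : 0 < b) (h : Chn M M' B K) (hM : MF M m) (hM' : MF M' m') (η : Ed N → ℤ)
    (φ : Tor N → ℝ) :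
    (∀ f, EF (wTD N b 0) M B (PT N b M η φ) f = PT N b M' η φ f) ∧
    Enu (wTD N b 0) M 0 (PT N b M η φ) = CT N b η ∧
    (∀ f, EF (wTD N b 0) M B (fun F => Real.log (PT N b M η φ F)) f ≤
      Real.log (PT N b M' η φ f)) ∧
    Enu (wTD N b 0) M 0 (fun F => Real.log (PT N b M η φ F)) ≤
      Enu (wTD N b 0) M' 0 (fun F => Real.log (PT N b M' η φ F)) ∧
    Enu (wTD N b 0) M' 0 (fun F => Real.log (PT N b M' η φ F)) ≤ Real.log (CT N b η) ∧
    (∀ f, PT N b M' η φ f ^ 2 ≤ EF (wTD N b 0) M B (fun F => PT N b M η φ F ^ 2) f) ∧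
    0 ≤ chi (wTD N b) M' 0 η φ ∧ chi (wTD N b) M' 0 η φ ≤ chi (wTD N b) M 0 η φ ∧
    PT N b M η φ 0 ≤ PT N b M' η φ 0 ∧ PT N b M' η φ 0 ≤ CT N b η ∧
    Es (wTD N b) M' η φ = Es (wTD N b) M η φ - Real.log (EF (wTD N b 0) M B
      (fun F => PT N b M η φ F / PT N b M η φ 0) 0) ∧
    Real.log (CT N b η) ≤ EQ (wTD N b η) M' 0 φ (fun F => Real.log (PT N b M' η φ F)) ∧
    EQ (wTD N b η) M' 0 φ (fun F => Real.log (PT N b M' η φ F)) ≤
      EQ (wTD N b η) M 0 φ (fun F => Real.log (PT N b M η φ F)) := by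
  have hW := gwf_wTD (N := N) hb
  have hE : ∀ η (x₀ : Tor N), EM (pin (wTD N b η) x₀) := em_pin_wTD hb
  have hw := bw_wTD (N := N) hb 0
  have hD := bw_wTD hb η
  exact ⟨fun f => Psi_tower h hw hD hM hM' φ f, Enu_Psi hw hD hM 0 φ,
    fun f => EF_log_le h hw hD hM hM' φ f, Enu_log_mono h hw hD hM hM' 0 φ,
    Enu_log_le hw hD hM' 0 φ,
    fun f => EF_sq_ge h hw hD hM hM' φ f (if_Psi_sq h hW hE hM hM' η φ f),
    chi_nonneg hW hE hM' 0 η φ, chi_mono h hW hE hM hM' 0 η φ,
    Psi_zero_mono h hW hE hM hM' η φ, Psi_zero_le hW hE hM' 0 η φ,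
    Es_step h hW hE hM hM' η φ, EQ_log_ge hw hD hM' 0 φ, EQ_log_mono h hw hD hM hM' 0 φ⟩

end torus

end

end Vale.Agent.P159.H883
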