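import Vale.Agent.P159.H883.Trl2
import Vale.Agent.P159.H883.Twr4
import Vale.Agent.P159.H817.St12

/-!
P159, helper883, module Trl3: translations and sign on the torus.

Letters: `trS a F = fun x => F (x + a)`, `trE a η = fun e => η (e.1 + a, e.2)`.

* `wTD_trE`, `Zn_trE`, `Zn_wT_tr`, `Zn_wT_neg` : covariance of the weights,
* `nuM_tr`, `nuM_ng` : invariance of the law `nuM (wT b N) (t • 1) x₀`,
  with `_int`, `_set` forms,
* `PT_tr`, `PT_ng`, `CT_tr`, `CT_ng` : covariance of `Ψ` and of its mean,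
* `nu_PT_set` : `∫_{F | trS a F ∈ S} Ψ_D = ∫_S Ψ_{tr a D}`,
* `PT_avg` : for a set invariant under the translations `U`, `∫_S Ψ_D` is the integral of the
  average over the shifts, `PT_shift` : for a general set one common shift does.
-/

open MeasureTheory Finset Matrix
open scoped ENNReal

set_option linter.unusedSectionVars false

namespace Vale.Agent.P159.H883

open Vale.Agent.P159.H37 Vale.Agent.P159.H963 Vale.Agent.P159.H789
open Vale.Agent.P159.TM.Spec (V)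
open Vale.Agent.P159.TM.SpecC (wT)
open Vale.Agent.P159.H770 (Ed wTD wTD_zero)

noncomputable section

variable {N : ℕ} [NeZero N] {b t : ℝ}

/-- translated field -/
def trS (a : V N) (F : V N → ℝ) : V N → ℝ := fun x => F (x + a)

/-- translated dislocation -/
def trE (a : V N) (η : Ed N → ℤ) : Ed N → ℤ := fun e => η (e.1 + a, e.2)

lemma trS_perm (a : V N) (F : V N → ℝ) : trS a F = F ∘ Equiv.addRight a := rfl

lemma trS_add (a : V N) (F G : V N → ℝ) : trS a (F + G) = trS a F + trS a G := rfl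

lemma trS_smul (a : V N) (s : ℝ) (F : V N → ℝ) : trS a (s • F) = s • trS a F := rfl

lemma trS_neg (a : V N) (F : V N → ℝ) : trS a (-F) = -trS a F := rfl

lemma trS_zero (F : V N → ℝ) : trS 0 F = F := by
  funext x
  simp [trS]

lemma trS_trS (a c : V N) (F : V N → ℝ) : trS a (trS c F) = trS (a + c) F := by
  funext x
  simp only [trS]
  rw [add_assoc]

lemma trE_zero (η : Ed N → ℤ) : trE 0 η = η := by
  funext e
  simp [trE]

lemma trE_trE (a c : V N) (η : Ed N → ℤ) : trE a (trE c η) = trE (a + c) η := by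
  funext e
  simp only [trE]
  rw [add_assoc]

lemma trE_zero' (a : V N) : trE a (0 : Ed N → ℤ) = 0 := rfl

lemma trE_add (a : V N) (η ζ : Ed N → ℤ) : trE a (η + ζ) = trE a η + trE a ζ := rfl

lemma trE_neg (a : V N) (η : Ed N → ℤ) : trE a (-η) = -trE a η := rfl

lemma measurable_trS (a : V N) : Measurable (trS a : (V N → ℝ) → (V N → ℝ)) :=
  measurable_pi_lambda _ fun x => measurable_pi_apply (x + a)

/-- covariance of the weights -/
theorem wTD_trE (b : ℝ) (a : V N) (η : Ed N → ℤ) (k : V N → ℤ) :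
    wTD N b (trE a η) (k ∘ Equiv.addRight a) = wTD N b η k := by
  rw [H770.wTD_eq, H770.wTD_eq]
  refine Fintype.prod_equiv (Equiv.addRight a) _ _ fun x => ?_
  simp only [trE, Function.comp_apply, Equiv.coe_addRight]
  have c1 : x + (1, 0) + a = x + a + (1, 0) := by abel
  have c2 : x + (0, 1) + a = x + a + (0, 1) := by abel
  rw [c1, c2]

theorem Zn_trE (b : ℝ) (a : V N) (η : Ed N → ℤ) (F : V N → ℝ) :
    Zn (wTD N b (trE a η)) (t • (1 : Matrix (V N) (V N) ℝ)) (trS a F) =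
      Zn (wTD N b η) (t • (1 : Matrix (V N) (V N) ℝ)) F :=
  H817.Zn_perm b (Equiv.addRight a) (fun k => wTD_trE b a η k) F

theorem Zn_wT_tr (b : ℝ) (a : V N) (F : V N → ℝ) :
    Zn (wT b N) (t • (1 : Matrix (V N) (V N) ℝ)) (F ∘ Equiv.addRight a) =
      Zn (wT b N) (t • (1 : Matrix (V N) (V N) ℝ)) F := by
  have h := Zn_trE (t := t) b a 0 F
  rw [trE_zero', wTD_zero] at h
  exact h

theorem Zn_wT_neg (hb : 0 < b) (ht : 0 < t) (F : V N → ℝ) :
    Zn (wT b N) (t • (1 : Matrix (V N) (V N) ℝ)) (-F) =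
      Zn (wT b N) (t • (1 : Matrix (V N) (V N) ℝ)) F := by
  have h := H817.Zn_negD (N := N) hb ht 0 F
  rw [neg_zero, wTD_zero] at h
  exact h

/-! ### the law -/

section nu

variable (x₀ x₁ : V N) (a : V N)

/-- **translation invariance of the law** -/
theorem nuM_tr (hb : 0 < b) (ht : 0 < t) :
    (nuM (wT b N) (t • 1) x₁).map (fun F => q0 x₀ (trS a F)) = nuM (wT b N) (t • 1) x₀ :=
  nuM_perm (gw_wT hb.le) (bw_wT hb) (mf_scalar ht) x₀ x₁ (Equiv.addRight a)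
    fun F => Zn_wT_tr b a F

/-- **invariance under the change of sign** -/
theorem nuM_ng (hb : 0 < b) (ht : 0 < t) :
    (nuM (wT b N) (t • 1) x₁).map (fun F => q0 x₀ (-F)) = nuM (wT b N) (t • 1) x₀ :=
  nuM_neg (gw_wT hb.le) (bw_wT hb) (mf_scalar ht) x₀ x₁ fun F => Zn_wT_neg hb ht F

theorem nuM_tr_int (hb : 0 < b) (ht : 0 < t) {E : Type*} [NormedAddCommGroup E]
    [NormedSpace ℝ E] {Φ : (V N → ℝ) → E} (hc : CI Φ) (hΦ : StronglyMeasurable Φ) :
    (Integrable (fun F => Φ (trS a F)) (nuM (wT b N) (t • 1) x₁) ↔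
      Integrable Φ (nuM (wT b N) (t • 1) x₀)) ∧
    ∫ F, Φ (trS a F) ∂(nuM (wT b N) (t • 1) x₁) = ∫ F, Φ F ∂(nuM (wT b N) (t • 1) x₀) :=
  nuM_gen_int (measurable_trS a) (nuM_tr x₀ x₁ a hb ht) hc hΦ

theorem nuM_ng_int (hb : 0 < b) (ht : 0 < t) {E : Type*} [NormedAddCommGroup E]
    [NormedSpace ℝ E] {Φ : (V N → ℝ) → E} (hc : CI Φ) (hΦ : StronglyMeasurable Φ) :
    (Integrable (fun F => Φ (-F)) (nuM (wT b N) (t • 1) x₁) ↔
      Integrable Φ (nuM (wT b N) (t • 1) x₀)) ∧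
    ∫ F, Φ (-F) ∂(nuM (wT b N) (t • 1) x₁) = ∫ F, Φ F ∂(nuM (wT b N) (t • 1) x₀) :=
  nuM_gen_int measurable_neg (nuM_ng x₀ x₁ hb ht) hc hΦ

theorem nuM_tr_set (hb : 0 < b) (ht : 0 < t) {S : Set (V N → ℝ)} (hc : CI fun F => F ∈ S)
    (hS : MeasurableSet S) :
    nuM (wT b N) (t • 1) x₁ {F | trS a F ∈ S} = nuM (wT b N) (t • 1) x₀ S :=
  nuM_gen_set (measurable_trS a) (nuM_tr x₀ x₁ a hb ht) hc hS

theorem nuM_ng_set (hb : 0 < b) (ht : 0 < t) {S : Set (V N → ℝ)} (hc : CI fun F => F ∈ S)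
    (hS : MeasurableSet S) :
    nuM (wT b N) (t • 1) x₁ {F | -F ∈ S} = nuM (wT b N) (t • 1) x₀ S :=
  nuM_gen_set measurable_neg (nuM_ng x₀ x₁ hb ht) hc hS

end nu

/-! ### the functional -/

theorem PT_tr (b : ℝ) (a : V N) (η : Ed N → ℤ) (φ F : V N → ℝ) :
    PT N b (t • 1) (trE a η) (trS a φ) (trS a F) = PT N b (t • 1) η φ F := by
  rw [PT_eq, PT_eq, ← trS_add, Zn_trE]
  congr 1
  exact Zn_wT_tr b a F

theorem PT_ng (hb : 0 < b) (ht : 0 < t) (η : Ed N → ℤ) (φ F : V N → ℝ) :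
    PT N b (t • 1) (-η) (-φ) (-F) = PT N b (t • 1) η φ F := by
  rw [PT_eq, PT_eq, ← neg_add, H817.Zn_negD hb ht, Zn_wT_neg hb ht]

/-- `Ψ` at the translated field -/
theorem PT_tr' (b : ℝ) (a : V N) (η : Ed N → ℤ) (φ F : V N → ℝ) :
    PT N b (t • 1) η φ (trS a F) = PT N b (t • 1) (trE (-a) η) (trS (-a) φ) F := by
  have h := PT_tr (t := t) b a (trE (-a) η) (trS (-a) φ) F
  rw [trE_trE, trS_trS, add_neg_cancel, trE_zero, trS_zero] at h
  exact h

section fields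

variable (x₀ : V N)

lemma PT_meas (hb : 0 < b) (ht : 0 < t) (η : Ed N → ℤ) (φ : V N → ℝ) :
    Measurable (PT N b (t • 1) η φ) :=
  (continuous_Psi (bw_wTD hb 0) (bw_wTD hb η) (mf_scalar ht) φ).measurable

lemma PT_ci (hb : 0 < b) (η : Ed N → ℤ) (φ : V N → ℝ) : CI (PT N b (t • 1) η φ) :=
  ci_Psi (bw_wTD hb 0) (bw_wTD hb η) φ

lemma PT_pos (hb : 0 < b) (ht : 0 < t) (η : Ed N → ℤ) (φ F : V N → ℝ) :
    0 < PT N b (t • 1) η φ F :=
  Psi_pos (bw_wTD hb 0) (bw_wTD hb η) (mf_scalar ht) φ F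

/-- integrability and mean for any pinned site -/
theorem PT_mean (hb : 0 < b) (ht : 0 < t) (η : Ed N → ℤ) (φ : V N → ℝ) :
    Integrable (PT N b (t • 1) η φ) (nuM (wT b N) (t • 1) x₀) ∧
    ∫ F, PT N b (t • 1) η φ F ∂(nuM (wT b N) (t • 1) x₀) = CT N b η := by
  have hw := gw_wT (N := N) hb.le
  have h1 := nuM_ci hw (bw_wT hb) (mf_scalar ht) 0 (PT_ci (t := t) hb η φ) (PT_meas hb ht η φ)
  have h2 := in_Psi (bw_wTD hb 0) (bw_wTD hb η) (mf_scalar ht) 0 φ
  have h3 := Enu_Psi (bw_wTD hb 0) (bw_wTD hb η) (mf_scalar ht) 0 φ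
  rw [wTD_zero] at h2 h3
  have e1 : (PT N b (t • 1) η φ) = Psi (wT b N) (wTD N b η) (t • 1) φ := by
    funext F
    unfold PT
    rw [wTD_zero]
  have h4 := nuM_tr_int (b := b) (t := t) 0 x₀ 0 hb ht (PT_ci (t := t) hb η φ)
    (PT_meas hb ht η φ).stronglyMeasurable
  simp only [trS_zero] at h4
  refine ⟨h4.1.2 (h1.1.2 ?_), h4.2.trans (h1.2.trans ?_)⟩
  · rw [e1]
    exact h2
  · rw [e1]
    unfold CT
    rw [wTD_zero]
    exact h3

end fields

theorem CT_tr (hb : 0 < b) (a : V N) (η : Ed N → ℤ) : CT N b (trE a η) = CT N b η := by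
  have h1 := (PT_mean (b := b) (t := 1) 0 hb one_pos (trE a η) 0).2
  have h2 := (PT_mean (b := b) (t := 1) 0 hb one_pos η 0).2
  rw [← h1, ← h2]
  have h3 := (nuM_tr_int (b := b) (t := 1) 0 0 a hb one_pos (PT_ci (t := 1) hb (trE a η) 0)
    (PT_meas hb one_pos (trE a η) 0).stronglyMeasurable).2
  rw [← h3]
  refine integral_congr_ae (Filter.Eventually.of_forall fun F => ?_)
  have h4 := PT_tr (t := 1) b a η 0 F
  exact h4

theorem CT_ng (hb : 0 < b) (η : Ed N → ℤ) : CT N b (-η) = CT N b η := by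
  have h1 := (PT_mean (b := b) (t := 1) 0 hb one_pos (-η) 0).2
  have h2 := (PT_mean (b := b) (t := 1) 0 hb one_pos η 0).2
  rw [← h1, ← h2]
  have h3 := (nuM_ng_int (b := b) (t := 1) 0 0 hb one_pos (PT_ci (t := 1) hb (-η) 0)
    (PT_meas hb one_pos (-η) 0).stronglyMeasurable).2
  rw [← h3]
  refine integral_congr_ae (Filter.Eventually.of_forall fun F => ?_)
  have h4 := PT_ng (t := 1) hb one_pos η 0 F
  rw [neg_zero] at h4
  exact h4

/-! ### averages over shifts -/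

/-- **change of variables on an event** -/
theorem nu_PT_set (x₀ x₁ : V N) (hb : 0 < b) (ht : 0 < t) (a : V N) (η : Ed N → ℤ)
    (φ : V N → ℝ) {S : Set (V N → ℝ)} (hc : CI fun F => F ∈ S) (hS : MeasurableSet S) :
    ∫ F in {F | trS a F ∈ S}, PT N b (t • 1) η φ F ∂(nuM (wT b N) (t • 1) x₁) =
      ∫ F in S, PT N b (t • 1) (trE a η) (trS a φ) F ∂(nuM (wT b N) (t • 1) x₀) := by
  have hm := PT_meas (N := N) hb ht (trE a η) (trS a φ)
  have hS' : MeasurableSet {F | trS a F ∈ S} := measurable_trS a hS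
  rw [← integral_indicator hS, ← integral_indicator hS']
  have hci : CI (S.indicator (PT N b (t • 1) (trE a η) (trS a φ))) := by
    intro F c
    have e1 : ((fun x => F x + c) ∈ S) = (F ∈ S) := hc F c
    by_cases h : F ∈ S
    · have h' : (fun x => F x + c) ∈ S := by rw [e1]; exact h
      rw [Set.indicator_of_mem h, Set.indicator_of_mem h']
      exact PT_ci (t := t) hb _ _ F c
    · have h' : (fun x => F x + c) ∉ S := by rw [e1]; exact h
      rw [Set.indicator_of_notMem h, Set.indicator_of_notMem h']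
  have h3 := (nuM_tr_int (b := b) (t := t) x₀ x₁ a hb ht hci
    (hm.indicator hS).stronglyMeasurable).2
  rw [← h3]
  refine integral_congr_ae (Filter.Eventually.of_forall fun F => ?_)
  simp only
  by_cases h : trS a F ∈ S
  · rw [Set.indicator_of_mem h, Set.indicator_of_mem (show F ∈ {F | trS a F ∈ S} from h)]
    exact (PT_tr (t := t) b a η φ F).symm
  · rw [Set.indicator_of_notMem h,
      Set.indicator_of_notMem (show F ∉ {F | trS a F ∈ S} from h)]

/-- sum over a finite set of shifts -/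
theorem nu_PT_sum (x₀ x₁ : V N) (hb : 0 < b) (ht : 0 < t) (U : Finset (V N)) (η : Ed N → ℤ)
    (φ : V N → ℝ) {S : Set (V N → ℝ)} (hc : CI fun F => F ∈ S) (hS : MeasurableSet S) :
    ∑ a ∈ U, ∫ F in {F | trS a F ∈ S}, PT N b (t • 1) η φ F ∂(nuM (wT b N) (t • 1) x₁) =
      ∫ F in S, ∑ a ∈ U, PT N b (t • 1) (trE a η) (trS a φ) F
        ∂(nuM (wT b N) (t • 1) x₀) := by
  rw [integral_finsetSum]
  · exact Finset.sum_congr rfl fun a _ => nu_PT_set x₀ x₁ hb ht a η φ hc hS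
  · intro a _
    exact (PT_mean x₀ hb ht (trE a η) (trS a φ)).1.integrableOn

/-- **invariant events** see the average over the shifts -/
theorem PT_avg (x₀ x₁ : V N) (hb : 0 < b) (ht : 0 < t) {U : Finset (V N)} (hU : U.Nonempty)
    (η : Ed N → ℤ) (φ : V N → ℝ) {S : Set (V N → ℝ)} (hc : CI fun F => F ∈ S)
    (hS : MeasurableSet S) (hinv : ∀ a ∈ U, ∀ F, trS a F ∈ S ↔ F ∈ S) :
    ∫ F in S, PT N b (t • 1) η φ F ∂(nuM (wT b N) (t • 1) x₁) =
      ∫ F in S, (∑ a ∈ U, PT N b (t • 1) (trE a η) (trS a φ) F) / U.card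
        ∂(nuM (wT b N) (t • 1) x₀) := by
  have hn : (U.card : ℝ) ≠ 0 := by exact_mod_cast hU.card_pos.ne'
  have h := nu_PT_sum x₀ x₁ hb ht U η φ hc hS
  have h1 : ∀ a ∈ U, ∫ F in {F | trS a F ∈ S}, PT N b (t • 1) η φ F
      ∂(nuM (wT b N) (t • 1) x₁) = ∫ F in S, PT N b (t • 1) η φ F
      ∂(nuM (wT b N) (t • 1) x₁) := by
    intro a ha
    have e : {F | trS a F ∈ S} = S := Set.ext fun F => hinv a ha F
    rw [e]
  rw [Finset.sum_congr rfl h1, Finset.sum_const, nsmul_eq_mul] at h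
  rw [integral_div, ← h, mul_div_cancel_left₀ _ hn]

/-- **one common shift** for a general event -/
theorem PT_shift (x₀ x₁ : V N) (hb : 0 < b) (ht : 0 < t) {U : Finset (V N)} (hU : U.Nonempty)
    (η : Ed N → ℤ) (φ : V N → ℝ) {S : Set (V N → ℝ)} (hc : CI fun F => F ∈ S)
    (hS : MeasurableSet S) :
    ∃ a ∈ U, ∫ F in {F | trS a F ∈ S}, PT N b (t • 1) η φ F ∂(nuM (wT b N) (t • 1) x₁) ≤
      ∫ F in S, (∑ a ∈ U, PT N b (t • 1) (trE a η) (trS a φ) F) / U.card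
        ∂(nuM (wT b N) (t • 1) x₀) := by
  have hn : (0 : ℝ) < U.card := by exact_mod_cast hU.card_pos
  have h := nu_PT_sum x₀ x₁ hb ht U η φ hc hS
  by_contra hcon
  push Not at hcon
  have h1 : ∑ a ∈ U, (∫ F in S, (∑ a ∈ U, PT N b (t • 1) (trE a η) (trS a φ) F) / U.card
        ∂(nuM (wT b N) (t • 1) x₀)) < ∑ a ∈ U, ∫ F in {F | trS a F ∈ S},
        PT N b (t • 1) η φ F ∂(nuM (wT b N) (t • 1) x₁) :=
    Finset.sum_lt_sum_of_nonempty hU fun a ha => hcon a ha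
  rw [h, Finset.sum_const, nsmul_eq_mul, integral_div, mul_div_cancel₀ _ hn.ne'] at h1
  exact lt_irrefl _ h1

/-- **averages of covariant functionals** : `∫ Φ u (F)` with `Φ u (trS u F) = Φ₀ F` -/
theorem nu_cov_avg (x₀ x₁ : V N) (hb : 0 < b) (ht : 0 < t) {U : Finset (V N)}
    {Φ₀ : (V N → ℝ) → ℝ} {Φ : V N → (V N → ℝ) → ℝ} (hc : ∀ u ∈ U, CI (Φ u))
    (hm : ∀ u ∈ U, Measurable (Φ u)) (hΦ : ∀ u ∈ U, ∀ F, Φ u (trS u F) = Φ₀ F) :
    (U.card : ℝ) * ∫ F, Φ₀ F ∂(nuM (wT b N) (t • 1) x₁) =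
      ∑ u ∈ U, ∫ F, Φ u F ∂(nuM (wT b N) (t • 1) x₀) := by
  rw [← nsmul_eq_mul, ← Finset.sum_const]
  refine Finset.sum_congr rfl fun u hu => ?_
  rw [← (nuM_tr_int (b := b) (t := t) x₀ x₁ u hb ht (hc u hu) (hm u hu).stronglyMeasurable).2]
  exact integral_congr_ae (Filter.Eventually.of_forall fun F => (hΦ u hu F).symm)

end

end Vale.Agent.P159.H883
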