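import Vale.Agent.P159.H883.Twr2
import Vale.Agent.P159.H770.DisN

/-!
P159, S list SL1 (helper883), part 3: families with dislocations (770's `GWF`): Ginibre bounds of the
ratio `Psi`, second moments, monotonicity of `Psi_s(0)` along the flow, the law `EQ` of the
dislocated model, KL tail, relative entropy.
-/

set_option linter.unusedSectionVars false

namespace Vale.Agent.P159.H883

open Finset Matrix MeasureTheory
open Vale.Agent.P159.TM.H104 (EM nh Gr li)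
open Vale.Agent.P159.H37 (wM ZM qf bf Zn Zs re gau)
open Vale.Agent.P159.H963 (GrI pin MF ntr)
open Vale.Agent.P159.H896 (Chn cN)
open Vale.Agent.P159.H145 (cs Per)
open Vale.Agent.P159.H770 (GWF)

noncomputable section

variable {V : Type} [Fintype V] [DecidableEq V] [Nonempty V]
variable {w wD : (V → ℤ) → ℝ} {M M' : Matrix V V ℝ} {m m' : ℝ}
variable {I : Type} [Fintype I] {B : Matrix V I ℝ} {K : Matrix I V ℝ}

/-! ### second moments, general pair of weights -/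

lemma sq_tangent (x y : ℝ) : (-y ^ 2) + 2 * y * x ≤ x ^ 2 := by nlinarith [sq_nonneg (x - y)]

/-- **(T3a)** `Ψ'² ≤ E_f Ψ²` -/
theorem EF_sq_ge (h : Chn M M' B K) (hw : BW w) (hD : BW wD) (hM : MF M m) (hM' : MF M' m')
    (φ f : V → ℝ) (hi : IF w M B (fun F => Psi w wD M φ F ^ 2) f) :
    Psi w wD M' φ f ^ 2 ≤ EF w M B (fun F => Psi w wD M φ F ^ 2) f := by
  set y := Psi w wD M' φ f with hy
  have hiP := if_Psi h hw hD hM hM' φ f
  have h1 := EF_mono h hw hM hM' (hiP.aff h hw hM hM' (-y ^ 2) (2 * y)) hi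
    fun F => sq_tangent (Psi w wD M φ F) y
  rw [EF_aff h hw hM hM' hiP, Psi_tower h hw hD hM hM', ← hy] at h1
  nlinarith

/-- **(T3b)** `C² ≤ E_ν Ψ²` -/
theorem Enu_sq_ge (hw : BW w) (hD : BW wD) (hM : MF M m) (x₀ : V) (φ : V → ℝ)
    (hi : IN w M x₀ fun F => Psi w wD M φ F ^ 2) :
    (Zp wD x₀ / Zp w x₀) ^ 2 ≤ Enu w M x₀ fun F => Psi w wD M φ F ^ 2 := by
  set y := Zp wD x₀ / Zp w x₀ with hy
  have hiP := in_Psi hw hD hM x₀ φ
  have h1 := Enu_mono hw hM (hiP.aff hw hM (-y ^ 2) (2 * y)) hi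
    fun F => sq_tangent (Psi w wD M φ F) y
  rw [Enu_aff hw hM hiP, Enu_Psi hw hD hM x₀ φ, ← hy] at h1
  nlinarith

/-- **(T3c)** `E_ν Ψ²` decreases along the flow -/
theorem Enu_sq_mono (h : Chn M M' B K) (hw : BW w) (hD : BW wD) (hM : MF M m) (hM' : MF M' m')
    (x₀ : V) (φ : V → ℝ) (hi : IN w M x₀ fun F => Psi w wD M φ F ^ 2)
    (hf : ∀ f, IF w M B (fun F => Psi w wD M φ F ^ 2) f)
    (hi' : IN w M' x₀ fun F => Psi w wD M' φ F ^ 2) :
    Enu w M' x₀ (fun F => Psi w wD M' φ F ^ 2) ≤ Enu w M x₀ fun F => Psi w wD M φ F ^ 2 := by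
  have hci : CI fun F : V → ℝ => Psi w wD M φ F ^ 2 := (ci_Psi hw hD φ).comp fun r => r ^ 2
  have hme : Measurable fun F : V → ℝ => Psi w wD M φ F ^ 2 :=
    ((continuous_Psi hw hD hM φ).pow 2).measurable
  obtain ⟨-, h2, h3⟩ := Enu_tower h hw hM hM' x₀ hci hme hi
  rw [← h3]
  exact Enu_mono hw hM' hi' h2 fun f => EF_sq_ge h hw hD hM hM' φ f (hf f)

/-! ### the law of the dislocated model -/

/-- expectation under the law of the field of level `M` of the dislocated model, `F = obs - φ` -/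
def EQ (wD : (V → ℤ) → ℝ) (M : Matrix V V ℝ) (x₀ : V) (φ : V → ℝ) (Φ : (V → ℝ) → ℝ) : ℝ :=
  Enu wD M x₀ fun F => Φ (F - φ)

/-- change of measure: `Q = Ψ ν / C` -/
theorem EQ_eq (hw : BW w) (hD : BW wD) (hM : MF M m) (x₀ : V) (φ : V → ℝ) {Φ : (V → ℝ) → ℝ}
    (hΦ : CI Φ) :
    Enu w M x₀ (fun F => Psi w wD M φ F * Φ F) = Zp wD x₀ / Zp w x₀ * EQ wD M x₀ φ Φ := by
  have e1 : (fun F : V → ℝ => Psi w wD M φ F * Φ F * Zn w M F) =
      fun F => (fun F' : V → ℝ => Φ (F' - φ) * Zn wD M F') (F + φ) := by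
    funext F
    simp only
    rw [add_sub_cancel_right, add_comm F φ, ← psi_mul hw hM φ F]
    ring
  have hci : CI fun F' : V → ℝ => Φ (F' - φ) * Zn wD M F' := by
    have h1 := (hΦ.shift (-φ)).mul (hD.ci M)
    simpa only [sub_eq_add_neg] using h1
  unfold EQ Enu
  rw [e1, SI_shift hci x₀ φ, (hw.SI_Zn hM x₀).2, (hD.SI_Zn hM x₀).2]
  have h1 := (cI_pos hM x₀).ne'
  have h2 := (hD.Zp_pos x₀).ne'
  have h3 := (hw.Zp_pos x₀).ne'
  field_simp

theorem in_EQ (hw : BW w) (hD : BW wD) (hM : MF M m) (x₀ : V) (φ : V → ℝ) {Φ : (V → ℝ) → ℝ}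
    (hΦ : CI Φ) (hi : IN wD M x₀ fun F => Φ (F - φ)) :
    IN w M x₀ fun F => Psi w wD M φ F * Φ F := by
  have e1 : (fun F : V → ℝ => Psi w wD M φ F * Φ F * Zn w M F) =
      fun F => (fun F' : V → ℝ => Φ (F' - φ) * Zn wD M F') (F + φ) := by
    funext F
    simp only
    rw [add_sub_cancel_right, add_comm F φ, ← psi_mul hw hM φ F]
    ring
  have hci : CI fun F' : V → ℝ => Φ (F' - φ) * Zn wD M F' := by
    have h1 := (hΦ.shift (-φ)).mul (hD.ci M)
    simpa only [sub_eq_add_neg] using h1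
  unfold IN
  rw [e1]
  exact SI_shift_int hci x₀ φ hi

lemma EQ_one (hD : BW wD) (hM : MF M m) (x₀ : V) (φ : V → ℝ) : EQ wD M x₀ φ (fun _ => 1) = 1 := by
  unfold EQ Enu
  simp only [one_mul]
  exact div_self (hD.SI_Zn_pos hM x₀).ne'

/-- **(T4)** tail of the log-likelihood under the dislocated law: `Q (Ψ ≤ e^{-λ} C) ≤ e^{-λ}` -/
theorem KL_tail (hw : BW w) (hD : BW wD) (hM : MF M m) (x₀ : V) (φ : V → ℝ) (lam : ℝ) :
    EQ wD M x₀ φ (Set.indicator {F | Psi w wD M φ F ≤ Real.exp (-lam) * (Zp wD x₀ / Zp w x₀)} 1)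
      ≤ Real.exp (-lam) := by
  set C := Zp wD x₀ / Zp w x₀ with hC
  have hC0 : 0 < C := div_pos (hD.Zp_pos x₀) (hw.Zp_pos x₀)
  set A : Set (V → ℝ) := {F | Psi w wD M φ F ≤ Real.exp (-lam) * C} with hA
  have hmA : MeasurableSet A := measurableSet_le (continuous_Psi hw hD hM φ).measurable
    measurable_const
  have hciA : CI (A.indicator (1 : (V → ℝ) → ℝ)) := by
    intro F c
    have h1 : (fun x => F x + c) ∈ A ↔ F ∈ A := by
      show Psi w wD M φ (fun x => F x + c) ≤ _ ↔ Psi w wD M φ F ≤ _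
      rw [ci_Psi hw hD φ F c]
    by_cases hF : F ∈ A
    · rw [Set.indicator_of_mem hF, Set.indicator_of_mem (h1.2 hF)]
      rfl
    · rw [Set.indicator_of_notMem hF, Set.indicator_of_notMem fun h => hF (h1.1 h)]
  have h1 := EQ_eq hw hD hM x₀ φ hciA
  rw [← hC] at h1
  have hmI : Measurable (A.indicator (1 : (V → ℝ) → ℝ)) := measurable_one.indicator hmA
  have hbI : ∀ F, |A.indicator (1 : (V → ℝ) → ℝ) F| ≤ 1 := by
    intro F
    by_cases hF : F ∈ A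
    · rw [Set.indicator_of_mem hF]; simp
    · rw [Set.indicator_of_notMem hF]; simp
  have hxI : XG (A.indicator (1 : (V → ℝ) → ℝ)) := XG.of_bdd hmI hbI
  have hiD : IN wD M x₀ fun F => A.indicator (1 : (V → ℝ) → ℝ) (F - φ) := by
    have hx : XG fun F : V → ℝ => A.indicator (1 : (V → ℝ) → ℝ) (F - φ) :=
      XG.of_bdd (hmI.comp (measurable_id.sub_const φ)) fun F => hbI (F - φ)
    refine hx.in_ ?_ hD hM x₀
    have h2 := hciA.shift (-φ)
    simpa only [sub_eq_add_neg] using h2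
  have hiL : IN w M x₀ fun F => Psi w wD M φ F * A.indicator (1 : (V → ℝ) → ℝ) F :=
    in_EQ hw hD hM x₀ φ hciA hiD
  have hiR : IN w M x₀ fun _ : V → ℝ => Real.exp (-lam) * C :=
    (XG.const (Real.exp (-lam) * C)).in_ (fun _ _ => rfl) hw hM x₀
  have h3 : Enu w M x₀ (fun F => Psi w wD M φ F * A.indicator (1 : (V → ℝ) → ℝ) F) ≤
      Enu w M x₀ fun _ : V → ℝ => Real.exp (-lam) * C := by
    refine Enu_mono hw hM hiL hiR fun F => ?_
    by_cases hF : F ∈ A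
    · rw [Set.indicator_of_mem hF, Pi.one_apply, mul_one]
      exact hF
    · rw [Set.indicator_of_notMem hF, mul_zero]
      positivity
  have h4 : Enu w M x₀ (fun _ : V → ℝ => Real.exp (-lam) * C) = Real.exp (-lam) * C := by
    unfold Enu SI
    rw [integral_const_mul, mul_div_assoc, div_self, mul_one]
    exact (hw.SI_Zn_pos hM x₀).ne'
  rw [h1, h4, mul_comm C] at h3
  exact le_of_mul_le_mul_right h3 hC0

/-- **(T4')** the same under the conditional law: the part of `E_f Ψ` where `Ψ ≤ e^{-λ} Ψ'` -/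
theorem EF_tail (h : Chn M M' B K) (hw : BW w) (hD : BW wD) (hM : MF M m) (hM' : MF M' m')
    (φ f : V → ℝ) (lam : ℝ) :
    EF w M B (fun F => Psi w wD M φ F *
      Set.indicator {F | Psi w wD M φ F ≤ Real.exp (-lam) * Psi w wD M' φ f} 1 F) f
      ≤ Real.exp (-lam) * Psi w wD M' φ f := by
  set C := Psi w wD M' φ f with hC
  have hC0 : 0 < C := Psi_pos hw hD hM' φ f
  set A : Set (V → ℝ) := {F | Psi w wD M φ F ≤ Real.exp (-lam) * C} with hA
  have hmA : MeasurableSet A := measurableSet_le (continuous_Psi hw hD hM φ).measurable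
    measurable_const
  have hmI : Measurable (A.indicator (1 : (V → ℝ) → ℝ)) := measurable_one.indicator hmA
  have hpt : ∀ F, Psi w wD M φ F * A.indicator (1 : (V → ℝ) → ℝ) F ≤ Real.exp (-lam) * C := by
    intro F
    by_cases hF : F ∈ A
    · rw [Set.indicator_of_mem hF, Pi.one_apply, mul_one]
      exact hF
    · rw [Set.indicator_of_notMem hF, mul_zero]
      positivity
  have hp0 : ∀ F, 0 ≤ Psi w wD M φ F * A.indicator (1 : (V → ℝ) → ℝ) F := fun F =>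
    mul_nonneg (Psi_pos hw hD hM φ F).le (Set.indicator_nonneg (fun _ _ => zero_le_one) F)
  have hxL : XG fun F => Psi w wD M φ F * A.indicator (1 : (V → ℝ) → ℝ) F :=
    XG.of_bdd ((continuous_Psi hw hD hM φ).measurable.mul hmI) (C := Real.exp (-lam) * C)
      fun F => by rw [abs_of_nonneg (hp0 F)]; exact hpt F
  have hxR : XG fun _ : V → ℝ => Real.exp (-lam) * C := XG.const _
  refine (EF_mono h hw hM hM' (hxL.if_ hw hM f B) (hxR.if_ hw hM f B) hpt).trans ?_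
  unfold EF
  rw [integral_const_mul, mul_div_assoc, div_self, mul_one]
  exact (den_pos h hw hM hM' f).ne'

/-! ### relative entropy -/

lemma xlog_tangent {x y : ℝ} (hx : 0 < x) (hy : 0 < y) :
    (-y) + (1 + Real.log y) * x ≤ x * Real.log x := by
  have h1 := Real.log_le_sub_one_of_pos (div_pos hy hx)
  rw [Real.log_div hy.ne' hx.ne'] at h1
  have h2 : x * (Real.log y - Real.log x) ≤ x * (y / x - 1) := mul_le_mul_of_nonneg_left h1 hx.le
  have h3 : x * (y / x - 1) = y - x := by field_simp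
  rw [h3] at h2
  linarith

lemma if_xlog (hw : BW w) (hD : BW wD) (hM : MF M m) (φ f : V → ℝ) :
    IF w M B (fun F => Psi w wD M φ F * Real.log (Psi w wD M φ F)) f := by
  unfold IF
  have h1 := (((hD.xg_Zn hM).shift φ).mul (xg_logPsi hw hD hM φ)).chn f B
  refine h1.int.congr (Filter.Eventually.of_forall fun g => ?_)
  simp only
  rw [← psi_mul hw hM φ]
  ring

lemma in_xlog (hw : BW w) (hD : BW wD) (hM : MF M m) (x₀ : V) (φ : V → ℝ) :
    IN w M x₀ fun F => Psi w wD M φ F * Real.log (Psi w wD M φ F) := by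
  have hci : CI fun F : V → ℝ => Real.log (Psi w wD M φ F) := (ci_Psi hw hD φ).comp Real.log
  refine in_EQ hw hD hM x₀ φ hci ?_
  have h1 := (xg_logPsi hw hD hM φ).shift (-φ)
  have h2 := hci.shift (-φ)
  have e : (fun F : V → ℝ => Real.log (Psi w wD M φ (F - φ))) =
      fun F => Real.log (Psi w wD M φ (-φ + F)) := by
    funext F
    rw [sub_eq_add_neg, add_comm]
  rw [e]
  refine h1.in_ ?_ hD hM x₀
  intro F c
  have := h2 F c
  simp only at this ⊢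
  rw [add_comm, this, add_comm]

/-- `Ψ' log Ψ' ≤ E_f (Ψ log Ψ)` -/
theorem EF_xlog_ge (h : Chn M M' B K) (hw : BW w) (hD : BW wD) (hM : MF M m) (hM' : MF M' m')
    (φ f : V → ℝ) :
    Psi w wD M' φ f * Real.log (Psi w wD M' φ f) ≤
      EF w M B (fun F => Psi w wD M φ F * Real.log (Psi w wD M φ F)) f := by
  set y := Psi w wD M' φ f with hy
  have hy0 : 0 < y := Psi_pos hw hD hM' φ f
  have hiP := if_Psi h hw hD hM hM' φ f
  have h1 := EF_mono h hw hM hM' (hiP.aff h hw hM hM' (-y) (1 + Real.log y))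
    (if_xlog hw hD hM φ f) fun F => xlog_tangent (Psi_pos hw hD hM φ F) hy0
  rw [EF_aff h hw hM hM' hiP, Psi_tower h hw hD hM hM', ← hy] at h1
  linarith

/-- **`log C ≤ E_Q log Ψ`** -/
theorem EQ_log_ge (hw : BW w) (hD : BW wD) (hM : MF M m) (x₀ : V) (φ : V → ℝ) :
    Real.log (Zp wD x₀ / Zp w x₀) ≤ EQ wD M x₀ φ fun F => Real.log (Psi w wD M φ F) := by
  have hci : CI fun F : V → ℝ => Real.log (Psi w wD M φ F) := (ci_Psi hw hD φ).comp Real.log
  have h0 := EQ_eq hw hD hM x₀ φ hci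
  set y := Zp wD x₀ / Zp w x₀ with hy
  have hy0 : 0 < y := div_pos (hD.Zp_pos x₀) (hw.Zp_pos x₀)
  have hiP := in_Psi hw hD hM x₀ φ
  have h1 := Enu_mono hw hM (hiP.aff hw hM (-y) (1 + Real.log y)) (in_xlog hw hD hM x₀ φ)
    fun F => xlog_tangent (Psi_pos hw hD hM φ F) hy0
  rw [Enu_aff hw hM hiP, Enu_Psi hw hD hM x₀ φ, ← hy, h0] at h1
  have h2 : y * Real.log y ≤ y * EQ wD M x₀ φ fun F => Real.log (Psi w wD M φ F) := by linarith
  exact le_of_mul_le_mul_left h2 hy0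

/-- **`E_Q log Ψ` (relative entropy) decreases along the flow** -/
theorem EQ_log_mono (h : Chn M M' B K) (hw : BW w) (hD : BW wD) (hM : MF M m) (hM' : MF M' m')
    (x₀ : V) (φ : V → ℝ) :
    (EQ wD M' x₀ φ fun F => Real.log (Psi w wD M' φ F)) ≤
      EQ wD M x₀ φ fun F => Real.log (Psi w wD M φ F) := by
  have hci : ∀ M : Matrix V V ℝ, CI fun F : V → ℝ => Real.log (Psi w wD M φ F) := fun M =>
    (ci_Psi hw hD φ).comp Real.log
  have hy0 : 0 < Zp wD x₀ / Zp w x₀ := div_pos (hD.Zp_pos x₀) (hw.Zp_pos x₀)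
  have k1 := EQ_eq hw hD hM x₀ φ (hci M)
  have k2 := EQ_eq hw hD hM' x₀ φ (hci M')
  have hme : Measurable fun F : V → ℝ => Psi w wD M φ F * Real.log (Psi w wD M φ F) :=
    (continuous_Psi hw hD hM φ).measurable.mul (xg_logPsi hw hD hM φ).1
  obtain ⟨-, h2, h3⟩ := Enu_tower h hw hM hM' x₀ ((ci_Psi hw hD φ).mul (hci M)) hme
    (in_xlog hw hD hM x₀ φ)
  have h4 := Enu_mono hw hM' (in_xlog hw hD hM' x₀ φ) h2 fun f => EF_xlog_ge h hw hD hM hM' φ f
  rw [h3, k1, k2] at h4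
  exact le_of_mul_le_mul_left h4 hy0

/-! ### Ginibre bounds -/

section gin

variable {β : Type} [AddCommGroup β] {W : β → (V → ℤ) → ℝ}

lemma gwf_bw (hW : GWF W) (hE : ∀ b x₀, EM (pin (W b) x₀)) (b : β) : BW (W b) where
  nn := hW.nn b
  bdd := by obtain ⟨Wb, h⟩ := hW.bdd; exact ⟨Wb, h b⟩
  pos := hW.pos b
  grd := hW.grd b
  em0 := hE b

/-- Ginibre inequality for the ratios: `Ψ_b(F)² Ψ_c(0)² ≤ Ψ_{b+c}(F) Ψ_{b-c}(F)` -/
theorem Psi_gin (hW : GWF W) (hM : MF M m) (b c : β) (φ ψ F : V → ℝ) :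
    Psi (W 0) (W b) M φ F ^ 2 * Psi (W 0) (W c) M ψ 0 ^ 2 ≤
      Psi (W 0) (W (b + c)) M (φ + ψ) F * Psi (W 0) (W (b - c)) M (φ - ψ) F := by
  have h1 := hW.ginZn hM b c (φ + F) ψ
  have z0 := hW.Zn_pos hM 0 (0 : V → ℝ)
  have zF := hW.Zn_pos hM 0 F
  have e1 : φ + F + ψ = φ + ψ + F := by abel
  have e2 : φ + F - ψ = φ - ψ + F := by abel
  rw [e1, e2] at h1
  unfold Psi
  rw [add_zero, div_pow, div_pow, div_mul_div_comm, div_mul_div_comm,
    div_le_div_iff₀ (by positivity) (by positivity)]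
  nlinarith [mul_le_mul_of_nonneg_right h1 (sq_nonneg (Zn (W 0) M F))]

/-- **pointwise bound of the square of the ratio** by the ratio of the doubled dislocation -/
theorem Psi_sq_le (hW : GWF W) (hM : MF M m) (b : β) (φ F : V → ℝ) :
    Psi (W 0) (W b) M φ F ^ 2 ≤
      Psi (W 0) (W (b + b)) M (φ + φ) F / Psi (W 0) (W b) M φ 0 ^ 2 := by
  have h1 := Psi_gin hW hM b b φ φ F
  have hp : 0 < Psi (W 0) (W b) M φ 0 := div_pos (hW.Zn_pos hM _ _) (hW.Zn_pos hM _ _)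
  have e : Psi (W 0) (W (b - b)) M (φ - φ) F = 1 := by
    unfold Psi
    rw [sub_self, sub_self, zero_add]
    exact div_self (hW.Zn_pos hM _ _).ne'
  rw [e, mul_one] at h1
  rw [le_div_iff₀ (by positivity)]
  exact h1

/-- **symmetrised lower bound** -/
theorem Zn_pair (hW : GWF W) (hM : MF M m) (b : β) (φ H : V → ℝ) :
    2 * (Psi (W 0) (W b) M φ 0 * Zn (W 0) M H) ≤ Zn (W b) M (φ + H) + Zn (W b) M (φ + -H) := by
  have h1 := hW.ginZn hM b 0 φ H
  have z0 := hW.Zn_pos hM 0 (0 : V → ℝ)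
  have zH := hW.Zn_pos hM 0 H
  have a1 := hW.Zn_pos hM b (φ + H)
  have a2 := hW.Zn_pos hM b (φ - H)
  have ab := hW.Zn_pos hM b φ
  rw [add_zero, sub_zero] at h1
  rw [← sub_eq_add_neg]
  set x := Zn (W b) M (φ + H)
  set y := Zn (W b) M (φ - H)
  unfold Psi
  rw [add_zero]
  set z := Zn (W 0) M H
  set a := Zn (W b) M φ
  set c := Zn (W 0) M 0
  have h2 : (a / c * z) ^ 2 ≤ x * y := by
    have h3 : (a / c * z) ^ 2 = (a * z) ^ 2 / c ^ 2 := by field_simp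
    rw [h3, div_le_iff₀ (by positivity)]
    linarith
  have h4 : (a / c * z) ^ 2 ≤ ((x + y) / 2) ^ 2 := by nlinarith [sq_nonneg (x - y)]
  have h5 := abs_le_of_sq_le_sq h4 (by positivity)
  have h6 := le_abs_self (a / c * z)
  linarith

/-- **(T5)** the ratio at the zero background increases along the flow -/
theorem Psi_zero_mono (h : Chn M M' B K) (hW : GWF W) (hE : ∀ b x₀, EM (pin (W b) x₀))
    (hM : MF M m) (hM' : MF M' m') (b : β) (φ : V → ℝ) :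
    Psi (W 0) (W b) M φ 0 ≤ Psi (W 0) (W b) M' φ 0 := by
  have hw := gwf_bw hW hE 0
  have hD := gwf_bw hW hE b
  set r := Psi (W 0) (W b) M φ 0 with hr
  have hc := H896.cN_pos (B := B) h.nn
  have i1 := hD.chn_Zn_int h hM hM' φ
  have i0 := hw.chn_Zn_int h hM hM' 0
  have i2 : Integrable (fun g : I → ℝ => Zn (W b) M (φ + B *ᵥ (-g))) (gau I) :=
    (H37.gau_neg.integrable_comp_emb (MeasurableEquiv.neg (I → ℝ)).measurableEmbedding).2 i1
  have e2 : ∫ g, Zn (W b) M (φ + B *ᵥ (-g)) ∂(gau I) = ∫ g, Zn (W b) M (φ + B *ᵥ g) ∂(gau I) :=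
    H37.gau_integral_neg fun g => Zn (W b) M (φ + B *ᵥ g)
  have h1 : ∫ g, 2 * (r * Zn (W 0) M (0 + B *ᵥ g)) ∂(gau I) ≤
      ∫ g, (Zn (W b) M (φ + B *ᵥ g) + Zn (W b) M (φ + B *ᵥ (-g))) ∂(gau I) := by
    refine integral_mono ((i0.const_mul r).const_mul 2) (i1.add i2) fun g => ?_
    have := Zn_pair hW hM b φ (B *ᵥ g)
    simp only [zero_add, Matrix.mulVec_neg]
    exact this
  rw [integral_add i1 i2, e2, integral_const_mul, integral_const_mul, hw.chn_Zn h hM hM',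
    hD.chn_Zn h hM hM'] at h1
  have z0 := hw.Zn_pos hM' (0 : V → ℝ)
  unfold Psi
  rw [add_zero, le_div_iff₀ z0]
  have h3 : cN M B * (r * Zn (W 0) M' 0) ≤ cN M B * Zn (W b) M' φ := by linarith
  exact le_of_mul_le_mul_left h3 hc

/-- **(T5')** the ratio at the zero background is at most `C`, for every real shift `φ` -/
theorem Psi_zero_le (hW : GWF W) (hE : ∀ b x₀, EM (pin (W b) x₀)) (hM : MF M m) (x₀ : V) (b : β)
    (φ : V → ℝ) : Psi (W 0) (W b) M φ 0 ≤ Zp (W b) x₀ / Zp (W 0) x₀ := by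
  have hw := gwf_bw hW hE 0
  have hD := gwf_bw hW hE b
  set r := Psi (W 0) (W b) M φ 0 with hr
  have hci : CI fun F : V → ℝ => Zn (W b) M (φ + F) := by
    have h1 := (hD.ci M).shift φ
    have e : (fun F : V → ℝ => Zn (W b) M (F + φ)) = fun F => Zn (W b) M (φ + F) :=
      funext fun F => by rw [add_comm]
    rwa [e] at h1
  have i1 : IntegrableOn (fun F : V → ℝ => Zn (W b) M (φ + F)) (slab x₀) := by
    have h1 := SI_shift_int (hD.ci M) x₀ φ (hD.SI_Zn hM x₀).1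
    refine h1.congr (Filter.Eventually.of_forall fun F => ?_)
    simp only
    rw [add_comm]
  have e1 : SI x₀ (fun F : V → ℝ => Zn (W b) M (φ + F)) = SI x₀ (Zn (W b) M) := by
    have h1 := SI_shift (hD.ci M) x₀ φ
    have e : (fun F : V → ℝ => Zn (W b) M (F + φ)) = fun F => Zn (W b) M (φ + F) :=
      funext fun F => by rw [add_comm]
    rwa [e] at h1
  have e2 := SI_neg hci x₀
  have i2 : IntegrableOn (fun F : V → ℝ => Zn (W b) M (φ + -F)) (slab x₀) := by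
    by_contra hcon
    have h2 : SI x₀ (fun F : V → ℝ => Zn (W b) M (φ + -F)) = 0 := integral_undef hcon
    rw [h2, e1] at e2
    exact absurd e2 (hD.SI_Zn_pos hM x₀).ne
  have h1 : ∫ F in slab x₀, 2 * (r * Zn (W 0) M F) ≤
      ∫ F in slab x₀, (Zn (W b) M (φ + F) + Zn (W b) M (φ + -F)) :=
    integral_mono (((hw.SI_Zn hM x₀).1.const_mul r).const_mul 2) (i1.add i2) fun F =>
      Zn_pair hW hM b φ F
  rw [integral_add i1 i2, integral_const_mul, integral_const_mul] at h1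
  have h3 : 2 * (r * SI x₀ (Zn (W 0) M)) ≤ SI x₀ (fun F : V → ℝ => Zn (W b) M (φ + F)) +
      SI x₀ (fun F : V → ℝ => Zn (W b) M (φ + -F)) := h1
  rw [e2, e1, (hw.SI_Zn hM x₀).2, (hD.SI_Zn hM x₀).2] at h3
  rw [le_div_iff₀ (hw.Zp_pos x₀)]
  have h4 : cI M m x₀ * (r * Zp (W 0) x₀) ≤ cI M m x₀ * Zp (W b) x₀ := by linarith
  exact le_of_mul_le_mul_left h4 (cI_pos hM x₀)

/-- the energy `E_s = -log Ψ_s(0)` -/
def Es (W : β → (V → ℤ) → ℝ) (M : Matrix V V ℝ) (b : β) (φ : V → ℝ) : ℝ :=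
  -Real.log (Psi (W 0) (W b) M φ 0)

theorem Es_mono (h : Chn M M' B K) (hW : GWF W) (hE : ∀ b x₀, EM (pin (W b) x₀))
    (hM : MF M m) (hM' : MF M' m') (b : β) (φ : V → ℝ) : Es W M' b φ ≤ Es W M b φ := by
  unfold Es
  have hp : 0 < Psi (W 0) (W b) M φ 0 := div_pos (hW.Zn_pos hM _ _) (hW.Zn_pos hM _ _)
  exact neg_le_neg (Real.log_le_log hp (Psi_zero_mono h hW hE hM hM' b φ))

theorem Es_ge (hW : GWF W) (hE : ∀ b x₀, EM (pin (W b) x₀)) (hM : MF M m) (x₀ : V) (b : β)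
    (φ : V → ℝ) : -Real.log (Zp (W b) x₀ / Zp (W 0) x₀) ≤ Es W M b φ := by
  unfold Es
  have hp : 0 < Psi (W 0) (W b) M φ 0 := div_pos (hW.Zn_pos hM _ _) (hW.Zn_pos hM _ _)
  exact neg_le_neg (Real.log_le_log hp (Psi_zero_le hW hE hM x₀ b φ))

/-- **(T6)** `E_{s'} = E_s - log E_0 [Ψ_s(F) / Ψ_s(0)]` -/
theorem Es_step (h : Chn M M' B K) (hW : GWF W) (hE : ∀ b x₀, EM (pin (W b) x₀))
    (hM : MF M m) (hM' : MF M' m') (b : β) (φ : V → ℝ) :
    Es W M' b φ = Es W M b φ - Real.log (EF (W 0) M B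
      (fun F => Psi (W 0) (W b) M φ F / Psi (W 0) (W b) M φ 0) 0) := by
  have hw := gwf_bw hW hE 0
  have hD := gwf_bw hW hE b
  have hp : 0 < Psi (W 0) (W b) M φ 0 := div_pos (hW.Zn_pos hM _ _) (hW.Zn_pos hM _ _)
  have hp' : 0 < Psi (W 0) (W b) M' φ 0 := div_pos (hW.Zn_pos hM' _ _) (hW.Zn_pos hM' _ _)
  have e : (fun F : V → ℝ => Psi (W 0) (W b) M φ F / Psi (W 0) (W b) M φ 0) =
      fun F => 0 + (Psi (W 0) (W b) M φ 0)⁻¹ * Psi (W 0) (W b) M φ F := by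
    funext F
    rw [zero_add, div_eq_inv_mul]
  rw [e, EF_aff h hw hM hM' (if_Psi h hw hD hM hM' φ 0), Psi_tower h hw hD hM hM', zero_add,
    Real.log_mul (inv_pos.2 hp).ne' hp'.ne', Real.log_inv]
  unfold Es
  ring

/-! second moments for families -/

lemma if_Psi_sq (h : Chn M M' B K) (hW : GWF W) (hE : ∀ b x₀, EM (pin (W b) x₀)) (hM : MF M m)
    (hM' : MF M' m') (b : β) (φ f : V → ℝ) :
    IF (W 0) M B (fun F => Psi (W 0) (W b) M φ F ^ 2) f := by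
  have hw := gwf_bw hW hE 0
  have hD := gwf_bw hW hE b
  have h2 := (if_Psi h hw (gwf_bw hW hE (b + b)) hM hM' (φ + φ) f).div_const
    (Psi (W 0) (W b) M φ 0 ^ 2)
  refine h2.mono' ?_ (Filter.Eventually.of_forall fun g => ?_)
  · exact ((((continuous_Psi hw hD hM φ).pow 2).mul (hw.contZn hM)).comp
      (H896.continuous_chn f)).aestronglyMeasurable
  · rw [Real.norm_eq_abs, abs_of_nonneg (mul_nonneg (sq_nonneg _) (hw.Zn_pos hM _).le)]
    have := mul_le_mul_of_nonneg_right (Psi_sq_le hW hM b φ (f + B *ᵥ g)) (hw.Zn_pos hM (f + B *ᵥ g)).le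
    calc _ ≤ _ := this
      _ = _ := by ring

/-- **(T3d)** upper bound of the conditional second moment -/
theorem EF_sq_le (h : Chn M M' B K) (hW : GWF W) (hE : ∀ b x₀, EM (pin (W b) x₀)) (hM : MF M m)
    (hM' : MF M' m') (b : β) (φ f : V → ℝ) :
    EF (W 0) M B (fun F => Psi (W 0) (W b) M φ F ^ 2) f ≤
      Psi (W 0) (W (b + b)) M' (φ + φ) f / Psi (W 0) (W b) M φ 0 ^ 2 := by
  have hw := gwf_bw hW hE 0
  have hDD := gwf_bw hW hE (b + b)
  have hi := if_Psi h hw hDD hM hM' (φ + φ) f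
  have h1 := EF_mono h hw hM hM' (if_Psi_sq h hW hE hM hM' b φ f)
    (hi.aff h hw hM hM' 0 (Psi (W 0) (W b) M φ 0 ^ 2)⁻¹) fun F => by
      have := Psi_sq_le hW hM b φ F
      rw [zero_add, ← div_eq_inv_mul]
      exact this
  rw [EF_aff h hw hM hM' hi, Psi_tower h hw hDD hM hM', zero_add, ← div_eq_inv_mul] at h1
  exact h1

lemma in_Psi_sq (hW : GWF W) (hE : ∀ b x₀, EM (pin (W b) x₀)) (hM : MF M m) (x₀ : V) (b : β)
    (φ : V → ℝ) : IN (W 0) M x₀ fun F => Psi (W 0) (W b) M φ F ^ 2 := by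
  have hw := gwf_bw hW hE 0
  have hD := gwf_bw hW hE b
  have h2 := (in_Psi hw (gwf_bw hW hE (b + b)) hM x₀ (φ + φ)).div_const
    (Psi (W 0) (W b) M φ 0 ^ 2)
  refine h2.mono' ?_ (Filter.Eventually.of_forall fun F => ?_)
  · exact (((continuous_Psi hw hD hM φ).pow 2).mul (hw.contZn hM)).aestronglyMeasurable
  · rw [Real.norm_eq_abs, abs_of_nonneg (mul_nonneg (sq_nonneg _) (hw.Zn_pos hM _).le)]
    have := mul_le_mul_of_nonneg_right (Psi_sq_le hW hM b φ F) (hw.Zn_pos hM F).le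
    calc _ ≤ _ := this
      _ = _ := by ring

/-- **(T3e)** `E_ν Ψ² ≤ C_{2D} / Ψ(0)²` -/
theorem Enu_sq_le (hW : GWF W) (hE : ∀ b x₀, EM (pin (W b) x₀)) (hM : MF M m) (x₀ : V) (b : β)
    (φ : V → ℝ) :
    Enu (W 0) M x₀ (fun F => Psi (W 0) (W b) M φ F ^ 2) ≤
      Zp (W (b + b)) x₀ / Zp (W 0) x₀ / Psi (W 0) (W b) M φ 0 ^ 2 := by
  have hw := gwf_bw hW hE 0
  have hDD := gwf_bw hW hE (b + b)
  have hi := in_Psi hw hDD hM x₀ (φ + φ)
  have h1 := Enu_mono hw hM (in_Psi_sq hW hE hM x₀ b φ)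
    (hi.aff hw hM 0 (Psi (W 0) (W b) M φ 0 ^ 2)⁻¹) fun F => by
      have := Psi_sq_le hW hM b φ F
      rw [zero_add, ← div_eq_inv_mul]
      exact this
  rw [Enu_aff hw hM hi, Enu_Psi hw hDD hM x₀, zero_add, ← div_eq_inv_mul] at h1
  exact h1

/-- the chi-square distance of the dislocated law from the undislocated one -/
def chi (W : β → (V → ℤ) → ℝ) (M : Matrix V V ℝ) (x₀ : V) (b : β) (φ : V → ℝ) : ℝ :=
  Enu (W 0) M x₀ (fun F => Psi (W 0) (W b) M φ F ^ 2) / (Zp (W b) x₀ / Zp (W 0) x₀) ^ 2 - 1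

theorem chi_nonneg (hW : GWF W) (hE : ∀ b x₀, EM (pin (W b) x₀)) (hM : MF M m) (x₀ : V) (b : β)
    (φ : V → ℝ) : 0 ≤ chi W M x₀ b φ := by
  have hw := gwf_bw hW hE 0
  have hD := gwf_bw hW hE b
  have hC : 0 < Zp (W b) x₀ / Zp (W 0) x₀ := div_pos (hD.Zp_pos x₀) (hw.Zp_pos x₀)
  unfold chi
  have h1 := Enu_sq_ge hw hD hM x₀ φ (in_Psi_sq hW hE hM x₀ b φ)
  have h2 : 1 ≤ Enu (W 0) M x₀ (fun F => Psi (W 0) (W b) M φ F ^ 2) /
      (Zp (W b) x₀ / Zp (W 0) x₀) ^ 2 := by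
    rw [le_div_iff₀ (by positivity), one_mul]
    exact h1
  linarith

/-- **`χ_s` decreases along the flow** -/
theorem chi_mono (h : Chn M M' B K) (hW : GWF W) (hE : ∀ b x₀, EM (pin (W b) x₀))
    (hM : MF M m) (hM' : MF M' m') (x₀ : V) (b : β) (φ : V → ℝ) :
    chi W M' x₀ b φ ≤ chi W M x₀ b φ := by
  have hw := gwf_bw hW hE 0
  have hD := gwf_bw hW hE b
  have hC : 0 < Zp (W b) x₀ / Zp (W 0) x₀ := div_pos (hD.Zp_pos x₀) (hw.Zp_pos x₀)
  unfold chi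
  have h1 := Enu_sq_mono h hw hD hM hM' x₀ φ (in_Psi_sq hW hE hM x₀ b φ)
    (fun f => if_Psi_sq h hW hE hM hM' b φ f) (in_Psi_sq hW hE hM' x₀ b φ)
  have h2 := div_le_div_of_nonneg_right h1 (sq_nonneg (Zp (W b) x₀ / Zp (W 0) x₀))
  linarith

/-- `χ_s ≤ C_{2D} / (Ψ_s(0) C)² - 1` -/
theorem chi_le (hW : GWF W) (hE : ∀ b x₀, EM (pin (W b) x₀)) (hM : MF M m) (x₀ : V) (b : β)
    (φ : V → ℝ) :
    chi W M x₀ b φ ≤ Zp (W (b + b)) x₀ / Zp (W 0) x₀ /
      (Psi (W 0) (W b) M φ 0 * (Zp (W b) x₀ / Zp (W 0) x₀)) ^ 2 - 1 := by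
  have hw := gwf_bw hW hE 0
  have hD := gwf_bw hW hE b
  have hC : 0 < Zp (W b) x₀ / Zp (W 0) x₀ := div_pos (hD.Zp_pos x₀) (hw.Zp_pos x₀)
  unfold chi
  have h2 := div_le_div_of_nonneg_right (Enu_sq_le hW hE hM x₀ b φ)
    (sq_nonneg (Zp (W b) x₀ / Zp (W 0) x₀))
  rw [div_div, ← mul_pow] at h2
  linarith

/-- the massless two point ratio is log-concave type: `C_b² C_c² ≤ C_{b+c} C_{b-c}` -/
theorem Zp_gin (hW : GWF W) (hE : ∀ b x₀, EM (pin (W b) x₀)) (hM : MF M m) (x₀ : V) (b c : β)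
    (φ ψ : V → ℝ) :
    Zp (W b) x₀ / Zp (W 0) x₀ * Psi (W 0) (W c) M ψ 0 ≤
      ((Zp (W (b + c)) x₀ + Zp (W (b - c)) x₀) / 2) / Zp (W 0) x₀ := by
  have hw := gwf_bw hW hE 0
  have hD := gwf_bw hW hE b
  have hP := gwf_bw hW hE (b + c)
  have hN := gwf_bw hW hE (b - c)
  have i0 := in_Psi hw hD hM x₀ φ
  have i1 := in_Psi hw hP hM x₀ (φ + ψ)
  have i2 := in_Psi hw hN hM x₀ (φ - ψ)
  set r := Psi (W 0) (W c) M ψ 0 with hr
  have hr0 : 0 < r := div_pos (hW.Zn_pos hM _ _) (hW.Zn_pos hM _ _)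
  have hpt : ∀ F, 0 + r * Psi (W 0) (W b) M φ F ≤
      Psi (W 0) (W (b + c)) M (φ + ψ) F / 2 + Psi (W 0) (W (b - c)) M (φ - ψ) F / 2 := by
    intro F
    have h1 := Psi_gin hW hM b c φ ψ F
    rw [← hr] at h1
    have p1 := Psi_pos hw hD hM φ F
    have p2 := Psi_pos hw hP hM (φ + ψ) F
    have p3 := Psi_pos hw hN hM (φ - ψ) F
    set x := Psi (W 0) (W (b + c)) M (φ + ψ) F
    set y := Psi (W 0) (W (b - c)) M (φ - ψ) F
    have h4 : (r * Psi (W 0) (W b) M φ F) ^ 2 ≤ ((x + y) / 2) ^ 2 := by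
      nlinarith [sq_nonneg (x - y)]
    have h5 := abs_le_of_sq_le_sq h4 (by positivity)
    have h6 := le_abs_self (r * Psi (W 0) (W b) M φ F)
    linarith
  have hs : IN (W 0) M x₀ fun F => Psi (W 0) (W (b + c)) M (φ + ψ) F / 2 +
      Psi (W 0) (W (b - c)) M (φ - ψ) F / 2 := by
    refine ((i1.div_const 2).add (i2.div_const 2)).congr (Filter.Eventually.of_forall fun F => ?_)
    simp only [Pi.add_apply]
    ring
  have h1 := Enu_mono hw hM (i0.aff hw hM 0 r) hs hpt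
  rw [Enu_aff hw hM i0, Enu_Psi hw hD hM x₀, zero_add] at h1
  have h2 : Enu (W 0) M x₀ (fun F => Psi (W 0) (W (b + c)) M (φ + ψ) F / 2 +
      Psi (W 0) (W (b - c)) M (φ - ψ) F / 2) =
      (Zp (W (b + c)) x₀ / Zp (W 0) x₀) / 2 + (Zp (W (b - c)) x₀ / Zp (W 0) x₀) / 2 := by
    rw [← Enu_Psi hw hP hM x₀ (φ + ψ), ← Enu_Psi hw hN hM x₀ (φ - ψ)]
    unfold Enu SI
    have e : ∀ F : V → ℝ, (Psi (W 0) (W (b + c)) M (φ + ψ) F / 2 +
        Psi (W 0) (W (b - c)) M (φ - ψ) F / 2) * Zn (W 0) M F =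
        Psi (W 0) (W (b + c)) M (φ + ψ) F * Zn (W 0) M F / 2 +
        Psi (W 0) (W (b - c)) M (φ - ψ) F * Zn (W 0) M F / 2 := fun F => by ring
    simp only [e]
    rw [integral_add (i1.div_const 2) (i2.div_const 2), integral_div, integral_div]
    ring
  rw [h2] at h1
  have h3 : ((Zp (W (b + c)) x₀ + Zp (W (b - c)) x₀) / 2) / Zp (W 0) x₀ =
      (Zp (W (b + c)) x₀ / Zp (W 0) x₀) / 2 + (Zp (W (b - c)) x₀ / Zp (W 0) x₀) / 2 := by ring
  rw [h3, mul_comm]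
  exact h1

end gin

end

end Vale.Agent.P159.H883
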