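import Vale.Agent.P159.H883.Prc1
import Vale.Agent.P159.H883.Twr3
import Vale.Agent.P159.H612.MeanD
import Vale.Agent.P159.H963.NeuZ

/-!
P159 (helper883), module PRC (2): prices in rough backgrounds, the two instances.

* source letters (any `DisF` family: integer, neutral, pinned): `gE W (b, J)`, `eng_dis`,
  `TpD_eq`, **`TpD_rough`** (612's `TpD` at `(b; J + F)`, `(c; K + F')`), `TD_rough`, `prc_eq`;
* background letters (neutral model of a `GWF` family): `gP w M x₀ ((b, φ), F)` =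
  `log Zn (w b) (φ + F) - log Zn (w 0) 0 + ⟨F, An F⟩ / 2`, `eng_neu`, `log_Psi`.
-/

open scoped Matrix
open Finset

set_option linter.unusedSectionVars false

namespace Vale.Agent.P159.H883

open Vale.Agent.P159.TM.H104 (EM T Ex Cv Lg li nh Gr)
open Vale.Agent.P159.H37
open Vale.Agent.P159.H770
open Vale.Agent.P159.H963 (GrI pin ntr nM MF An)
open Vale.Agent.P159.H612 (TpD prc mx LB NX)

noncomputable section

section src

variable {B V : Type} [AddCommGroup B] [Fintype V] {W : B → (V → ℤ) → ℝ}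

/-- the energy in source letters -/
def gE (W : B → (V → ℤ) → ℝ) (X : B × (V → ℝ)) : ℝ :=
  Lg (W X.1) X.2 - Lg (W 0) 0 - qf (Gm (W 0)) X.2 / 2

/-- the real data in source letters -/
def rI (B V : Type) [AddCommGroup B] : (V → ℝ) →+ B × (V → ℝ) := AddMonoidHom.inr B (V → ℝ)

lemma rI_apply (F : V → ℝ) : rI B V F = (0, F) := rfl

lemma gE_real (hW : DisF W) (J : V → ℝ) : gE W (rI B V J) = Rs (W 0) J := by
  unfold gE Rs
  rw [rI_apply]

/-- the energy as `RsD` plus an affine function -/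
lemma gE_eq (hW : DisF W) (b : B) (J : V → ℝ) :
    gE W (b, J) = RsD W b 0 J + Ex (W b) 0 (li J) + (Lg (W b) 0 - Lg (W 0) 0) := by
  unfold gE RsD
  simp only [zero_add]
  ring

theorem eng_dis (hW : DisF W) : Eng (rI B V) (gE W) where
  gin X Y := by
    have h := H612.TpD_nonneg hW X.1 Y.1 X.2 Y.2
    have h2 := H789.qf_par (Gm (W 0)) X.2 Y.2
    unfold TpD at h
    unfold gE
    simp only [Prod.fst_add, Prod.snd_add, Prod.fst_sub, Prod.snd_sub]
    linarith
  zero := by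
    unfold gE
    simp only [Prod.fst_zero, Prod.snd_zero, qf_zero_vec]
    ring
  cvx X := by
    refine ⟨convex_univ, fun F _ H _ a b ha hb hab => ?_⟩
    have h1 := (RsD_convex hW X.1 0).2 (Set.mem_univ (X.2 + F)) (Set.mem_univ (X.2 + H)) ha hb hab
    have e0 : a • (X.2 + F) + b • (X.2 + H) = X.2 + (a • F + b • H) := by
      have : X.2 = a • X.2 + b • X.2 := by rw [← add_smul, hab, one_smul]
      nth_rewrite 3 [this]
      module
    rw [e0] at h1
    simp only [smul_eq_mul] at h1 ⊢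
    have e : ∀ F : V → ℝ, gE W (X + rI B V F) =
        RsD W X.1 0 (X.2 + F) + (Ex (W X.1) 0 (li X.2) + Ex (W X.1) 0 (li F)) +
          (Lg (W X.1) 0 - Lg (W 0) 0) := by
      intro F
      rw [← Ex_li_add hW, ← gE_eq hW, rI_apply]
      congr 1
      ext <;> simp
    rw [e, e, e, Ex_li_add hW, Ex_li_smul, Ex_li_smul]
    have h3 : b = 1 - a := by linarith
    rw [h3] at h1 ⊢
    nlinarith

/-- 612's price -/
theorem TpD_eq (b c : B) (J K : V → ℝ) : TpD W b c J K = Tp (gE W) (b, J) (c, K) := by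
  have h2 := H789.qf_par (Gm (W 0)) J K
  unfold TpD Tp gE
  simp only [Prod.fst_add, Prod.snd_add, Prod.fst_sub, Prod.snd_sub]
  linarith

/-- **the price in rough backgrounds** (real sources `F`, `F'` arbitrary) -/
theorem TpD_rough (hW : DisF W) (b c : B) (J K F F' : V → ℝ) :
    TpD W b c (J + F) (K + F') ≤
      gE W (b + c + (b + c), J + K + (J + K)) / 2 + gE W (b - c + (b - c), J - K + (J - K)) / 2 -
        4 * gE W (b, J) - 4 * gE W (c, K) +
      (Rs (W 0) (F + F' + (F + F')) / 2 + Rs (W 0) (F - F' + (F - F')) / 2) := by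
  have h := (eng_dis hW).Tp_real (b, J) (c, K) F F'
  rw [gE_real hW, gE_real hW, rI_apply, rI_apply] at h
  rw [TpD_eq]
  simpa using h

/-- the same rough source for both -/
theorem TpD_same (hW : DisF W) (b c : B) (J K F : V → ℝ) :
    TpD W b c (J + F) (K + F) ≤
      gE W (b + c + (b + c), J + K + (J + K)) / 2 + gE W (b - c + (b - c), J - K + (J - K)) / 2 -
        4 * gE W (b, J) - 4 * gE W (c, K) + Rs (W 0) ((4 : ℝ) • F) / 2 := by
  have h := (eng_dis hW).Tp_same (b, J) (c, K) F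
  rw [gE_real hW, rI_apply] at h
  rw [TpD_eq]
  simpa using h

/-- `T^D` of a rough configuration -/
theorem TD_rough (hW : DisF W) (b : B) (J F : V → ℝ) :
    Lg (W (b + b)) (J + F + (J + F)) + 3 * Lg (W 0) 0 - 4 * Lg (W b) (J + F) ≤
      gE W (b + b + (b + b), J + J + (J + J)) / 2 - 8 * gE W (b, J) +
        Rs (W 0) ((4 : ℝ) • F) / 2 := by
  have h := (eng_dis hW).Td_rough (b, J) F
  rw [gE_real hW, rI_apply] at h
  have e : gE W ((b, J) + (0, F) + ((b, J) + (0, F))) - 4 * gE W ((b, J) + (0, F)) =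
      Lg (W (b + b)) (J + F + (J + F)) + 3 * Lg (W 0) 0 - 4 * Lg (W b) (J + F) := by
    unfold gE
    simp only [Prod.mk_add_mk, add_zero]
    rw [← two_smul ℝ (J + F), qf_smul]
    ring
  rw [e] at h
  simpa using h

/-- 612's price of two changes as `TpD` -/
theorem prc_eq (hW : DisF W) (P u w : B × (V → ℝ)) :
    prc W P u w = TpD W (P + u).1 (P + w).1 (P + u).2 (P + w).2 - mx W 0 u (-w) := by
  have e1 : LB W (-w) = LB W w := by
    unfold LB
    have h := (eng_dis hW).neg w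
    unfold gE at h
    simp only [Prod.fst_neg, Prod.snd_neg, qf_neg] at h ⊢
    linarith
  have e2 : P + P + u + w = P + u + (P + w) := by abel
  have e3 : (P + u) - (P + w) = u - w := by abel
  have e4 : TpD W (P + u).1 (P + w).1 (P + u).2 (P + w).2 = LB W (P + u + (P + w)) +
      LB W (u - w) + 2 * LB W 0 - 2 * LB W (P + u) - 2 * LB W (P + w) := by
    rw [← e3]
    rfl
  unfold prc mx
  simp only [zero_add]
  rw [e4, e2, e1, ← sub_eq_add_neg]
  ring

end src

/-! ### background letters, neutral model -/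

section neu

variable {B V : Type} [AddCommGroup B] [Fintype V] [DecidableEq V] [Nonempty V]
  {w : B → (V → ℤ) → ℝ} {M : Matrix V V ℝ} {m : ℝ} {x₀ : V}

/-- the energy in background letters: smooth data `X.1 = (b, φ)`, rough field `X.2` -/
def gP (w : B → (V → ℤ) → ℝ) (M : Matrix V V ℝ) (m : ℝ) (x₀ : V)
    (X : (B × (V → ℝ)) × (V → ℝ)) : ℝ :=
  Real.log (Zn (w X.1.1) M (X.1.2 + X.2)) - Real.log (Zn (w 0) M 0) +
    qf (An (w 0) M m x₀) X.2 / 2

/-- the rough data -/
def rP (B V : Type) [AddCommGroup B] : (V → ℝ) →+ (B × (V → ℝ)) × (V → ℝ) :=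
  AddMonoidHom.inr (B × (V → ℝ)) (V → ℝ)

lemma rP_apply (F : V → ℝ) : rP B V F = (0, F) := rfl

lemma log_Zn (hw : GWF w) (hM : MF M m) (b : B) (Y : V → ℝ) :
    Real.log (Zn (w b) M Y) = Real.log (Real.sqrt (2 * Real.pi / (m * Fintype.card V))) -
      qf (ntr M m) Y / 2 + Lg (nM (w b) M m x₀) (ntr M m *ᵥ Y) := by
  have hN : (0 : ℝ) < Fintype.card V := Nat.cast_pos.2 Fintype.card_pos
  have hm := hM.pos
  have hW := hw.disF_nM hM x₀
  have hs : 0 < Real.sqrt (2 * Real.pi / (m * Fintype.card V)) := Real.sqrt_pos.2 (by positivity)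
  have hZ := hW.pos b (ntr M m *ᵥ Y)
  rw [hw.Zn_eq hM x₀, Real.log_mul hs.ne' (mul_pos (Real.exp_pos _) hZ).ne',
    Real.log_mul (Real.exp_pos _).ne' hZ.ne', Real.log_exp]
  have e : Real.log (Zs (nM (w b) M m x₀) (ntr M m *ᵥ Y)) =
    Lg (nM (w b) M m x₀) (ntr M m *ᵥ Y) := rfl
  rw [e]
  ring

/-- the non-quadratic part of the dislocated neutral partition function -/
lemma log_Zn_RsD (hw : GWF w) (hM : MF M m) (b : B) (Y : V → ℝ) :
    Real.log (Zn (w b) M Y) = Real.log (Real.sqrt (2 * Real.pi / (m * Fintype.card V))) -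
      qf (An (w 0) M m x₀) Y / 2 + RsD (fun b => nM (w b) M m x₀) b 0 (ntr M m *ᵥ Y) +
      Ex (nM (w b) M m x₀) 0 (li (ntr M m *ᵥ Y)) + Lg (nM (w b) M m x₀) 0 := by
  rw [log_Zn hw hM (x₀ := x₀), H963.qf_An hM.symm]
  unfold RsD
  simp only [zero_add]
  have e : Gm (nM (w 0) M m x₀) = Gm (pin (wM (w 0) (ntr M m)) x₀) := rfl
  rw [e]
  ring

theorem eng_neu (hw : GWF w) (hM : MF M m) : Eng (rP B V) (gP w M m x₀) where
  gin X Y := by
    have h := hw.ginZn hM X.1.1 Y.1.1 (X.1.2 + X.2) (Y.1.2 + Y.2)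
    have h2 := H789.qf_par (An (w 0) M m x₀) X.2 Y.2
    have p1 := hw.Zn_pos hM X.1.1 (X.1.2 + X.2)
    have p2 := hw.Zn_pos hM Y.1.1 (Y.1.2 + Y.2)
    have p3 := hw.Zn_pos hM 0 (0 : V → ℝ)
    have p4 := hw.Zn_pos hM (X.1.1 + Y.1.1) (X.1.2 + X.2 + (Y.1.2 + Y.2))
    have p5 := hw.Zn_pos hM (X.1.1 - Y.1.1) (X.1.2 + X.2 - (Y.1.2 + Y.2))
    have h1 := Real.log_le_log (by positivity) h
    rw [Real.log_pow, Real.log_mul p1.ne' p2.ne', Real.log_mul (by positivity) (by positivity),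
      Real.log_pow, Real.log_mul p4.ne' p5.ne'] at h1
    push_cast at h1
    have e1 : X.1.2 + Y.1.2 + (X.2 + Y.2) = X.1.2 + X.2 + (Y.1.2 + Y.2) := by abel
    have e2 : X.1.2 - Y.1.2 + (X.2 - Y.2) = X.1.2 + X.2 - (Y.1.2 + Y.2) := by abel
    unfold gP
    simp only [Prod.fst_add, Prod.snd_add, Prod.fst_sub, Prod.snd_sub, e1, e2]
    linarith
  zero := by
    unfold gP
    simp only [Prod.fst_zero, Prod.snd_zero, qf_zero_vec, add_zero]
    ring
  cvx X := by
    have hW := hw.disF_nM hM x₀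
    refine ⟨convex_univ, fun F _ H _ a b ha hb hab => ?_⟩
    simp only [smul_eq_mul]
    have hb' : b = 1 - a := by linarith
    set S := X.1.2 + X.2 with hS
    have h1 := (RsD_convex hW X.1.1 0).2 (Set.mem_univ (ntr M m *ᵥ (S + F)))
      (Set.mem_univ (ntr M m *ᵥ (S + H))) ha hb hab
    have e0 : a • (ntr M m *ᵥ (S + F)) + b • (ntr M m *ᵥ (S + H)) =
        ntr M m *ᵥ (S + (a • F + b • H)) := by
      rw [← Matrix.mulVec_smul, ← Matrix.mulVec_smul, ← Matrix.mulVec_add]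
      congr 1
      rw [hb']
      module
    rw [e0] at h1
    simp only [smul_eq_mul] at h1
    have e : ∀ F : V → ℝ, gP w M m x₀ (X + rP B V F) =
        RsD (fun b => nM (w b) M m x₀) X.1.1 0 (ntr M m *ᵥ (S + F)) +
          (Ex (nM (w X.1.1) M m x₀) 0 (li (ntr M m *ᵥ F)) -
            (bf (An (w 0) M m x₀) X.1.2 F + bf (An (w 0) M m x₀) F X.1.2) / 2) +
          gP w M m x₀ X - RsD (fun b => nM (w b) M m x₀) X.1.1 0 (ntr M m *ᵥ S) := by
      intro F
      have c1 := log_Zn_RsD (x₀ := x₀) hw hM X.1.1 (S + F)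
      have c2 := log_Zn_RsD (x₀ := x₀) hw hM X.1.1 S
      have c3 : Ex (nM (w X.1.1) M m x₀) 0 (li (ntr M m *ᵥ (S + F))) =
          Ex (nM (w X.1.1) M m x₀) 0 (li (ntr M m *ᵥ S)) +
            Ex (nM (w X.1.1) M m x₀) 0 (li (ntr M m *ᵥ F)) := by
        rw [Matrix.mulVec_add]
        exact Ex_li_add hW X.1.1 0 _ _
      have c4 := H789.qf_line (An (w 0) M m x₀) S F 1
      have c5 := H789.qf_line (An (w 0) M m x₀) X.2 F 1
      rw [one_smul] at c4 c5
      have c6 : bf (An (w 0) M m x₀) S F = bf (An (w 0) M m x₀) X.1.2 F +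
        bf (An (w 0) M m x₀) X.2 F := by rw [hS, bf_add_left]
      have c7 : bf (An (w 0) M m x₀) F S = bf (An (w 0) M m x₀) F X.1.2 +
        bf (An (w 0) M m x₀) F X.2 := by rw [hS, bf_add_right]
      have c8 : X.1.2 + (X.2 + F) = S + F := by rw [hS]; abel
      unfold gP
      rw [rP_apply]
      simp only [Prod.fst_add, Prod.snd_add, Prod.fst_zero, add_zero]
      rw [c8, ← hS, c1, c2, c3, c4, c5, c6, c7]
      ring
    rw [e, e, e]
    have l1 : Ex (nM (w X.1.1) M m x₀) 0 (li (ntr M m *ᵥ (a • F + b • H))) =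
        a * Ex (nM (w X.1.1) M m x₀) 0 (li (ntr M m *ᵥ F)) +
          b * Ex (nM (w X.1.1) M m x₀) 0 (li (ntr M m *ᵥ H)) := by
      rw [Matrix.mulVec_add, Matrix.mulVec_smul, Matrix.mulVec_smul, ← Ex_li_smul, ← Ex_li_smul]
      exact Ex_li_add hW X.1.1 0 _ _
    rw [l1, bf_add_left, bf_add_right, bf_smul_left, bf_smul_left, bf_smul_right, bf_smul_right,
      hb']
    rw [hb'] at h1
    nlinarith

/-- the rough part is 37's `Rs` -/
lemma gP_real (hw : GWF w) (hM : MF M m) (F : V → ℝ) :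
    gP w M m x₀ (rP B V F) = Rs (nM (w 0) M m x₀) (ntr M m *ᵥ F) := by
  unfold gP Rs
  rw [rP_apply]
  simp only [Prod.fst_zero, Prod.snd_zero, zero_add]
  rw [log_Zn hw hM (x₀ := x₀), log_Zn hw hM (x₀ := x₀), H963.qf_An hM.symm, qf_zero_vec,
    Matrix.mulVec_zero]
  have e : Gm (nM (w 0) M m x₀) = Gm (pin (wM (w 0) (ntr M m)) x₀) := rfl
  rw [e]
  ring

/-- **the logarithm of the ratio** -/
theorem log_Psi (hw : GWF w) (hM : MF M m) (b : B) (φ F : V → ℝ) :
    Real.log (Psi (w 0) (w b) M φ F) =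
      gP w M m x₀ ((b, φ), F) - Rs (nM (w 0) M m x₀) (ntr M m *ᵥ F) := by
  have p1 := hw.Zn_pos hM b (φ + F)
  have p2 := hw.Zn_pos hM 0 F
  rw [← gP_real (B := B) hw hM]
  unfold Psi gP
  rw [rP_apply, Real.log_div p1.ne' p2.ne']
  simp only [Prod.fst_zero, Prod.snd_zero, zero_add]
  ring

lemma gP_smooth (hw : GWF w) (hM : MF M m) (b : B) (φ : V → ℝ) :
    gP w M m x₀ ((b, φ), 0) = Real.log (Psi (w 0) (w b) M φ 0) := by
  rw [log_Psi (x₀ := x₀) hw hM, Matrix.mulVec_zero, H789.Rs_zero, sub_zero]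

end neu

end

end Vale.Agent.P159.H883
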