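import Vale.Agent.P159.H663.Kap
import Vale.Agent.P159.H264.Cl5

/-!
P159 / module E4 (helper883): the square sum of the profile `kT` of helper663:
`∑ μ² ≤ 1 / h²` for `μ = muK N ρ (kT h)`.
-/

set_option linter.unusedSectionVars false

namespace Vale.Agent.P159.H883e

open Finset Matrix
open Vale.Agent.P159.TM.Spec (V)
open Vale.Agent.P159.H276 (bxT)
open Vale.Agent.P159.H663.Dr (tT kT mn_kT wts_kT)
open Vale.Agent.P159.H264.Gq (tM smo_tM tM_mulVec)
open Vale.Agent.P159.H145.Sp (muK)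

noncomputable section

variable {N h ρ : ℕ} [NeZero N]

lemma inj_box (hN : h ≤ N) (c : V N) {p p' : ℕ × ℕ} (hp : p ∈ range h ×ˢ range h)
    (hp' : p' ∈ range h ×ˢ range h)
    (e : c + ((p.1 : ZMod N), (p.2 : ZMod N)) = c + ((p'.1 : ZMod N), (p'.2 : ZMod N))) :
    p = p' := by
  rw [mem_product, mem_range, mem_range] at hp hp'
  have e2 := add_left_cancel e
  have e3 := congrArg Prod.fst e2
  have e4 := congrArg Prod.snd e2
  simp only at e3 e4
  have key : ∀ a b : ℕ, a < h → b < h → ((a : ZMod N)) = (b : ZMod N) → a = b := by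
    intro a b ha hb hab
    rw [ZMod.natCast_eq_natCast_iff'] at hab
    rwa [Nat.mod_eq_of_lt (by omega), Nat.mod_eq_of_lt (by omega)] at hab
  exact Prod.ext (key _ _ hp.1 hp'.1 e3) (key _ _ hp.2 hp'.2 e4)

/-- a box mean of a nonnegative function is at most its sum over the area -/
lemma bxT_le_sum (hN : h ≤ N) {F : V N → ℝ} (hF : ∀ x, 0 ≤ F x) (c : V N) :
    bxT N h F c ≤ ((h : ℝ) ^ 2)⁻¹ * ∑ x, F x := by
  classical
  unfold H276.bxT
  refine mul_le_mul_of_nonneg_left ?_ (by positivity)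
  rw [← Finset.sum_product']
  calc ∑ p ∈ range h ×ˢ range h, F (c + ((p.1 : ZMod N), (p.2 : ZMod N)))
      = ∑ x ∈ (range h ×ˢ range h).image
          (fun p : ℕ × ℕ => c + ((p.1 : ZMod N), (p.2 : ZMod N))), F x := by
        rw [Finset.sum_image]
        intro p hp p' hp' e
        exact inj_box hN c hp hp' e
    _ ≤ ∑ x, F x := Finset.sum_le_sum_of_subset_of_nonneg (Finset.subset_univ _)
        fun x _ _ => hF x

lemma sum_tT_one (hh : 0 < h) (y : V N) :
    ∑ x, tT N h (fun z : V N => if z = y then (1 : ℝ) else 0) x = 1 := by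
  have hs := smo_tM (N := N) hh
  refine (Finset.sum_congr rfl fun x _ => ?_).trans (hs.row y)
  rw [← hs.ti.sy x y]
  rfl

/-- the profile is at most `1 / h²` -/
lemma muK_le (hh : 0 < h) (hρ : 2 * h ≤ ρ) (hN : h ≤ N) (v : V N) :
    muK N ρ (kT h) v ≤ ((h : ℝ) ^ 2)⁻¹ := by
  have h1 := mn_kT (N := N) hρ 0 (fun z : V N => if z = v then (1 : ℝ) else 0)
  have h2 : H191.mn (muK N ρ (kT h)) 0 (fun z : V N => if z = v then (1 : ℝ) else 0) =
      muK N ρ (kT h) v := by
    unfold H191.mn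
    simp only [sub_zero, mul_ite, mul_one, mul_zero, Finset.sum_ite_eq', Finset.mem_univ, if_true]
  rw [h2] at h1
  rw [h1]
  have hs := smo_tM (N := N) hh
  refine (bxT_le_sum hN (fun x => ?_) 0).trans (le_of_eq ?_)
  · exact hs.nn x v
  · rw [sum_tT_one hh, mul_one]

/-- **the square sum of the profile** -/
theorem sum_sq_kT (hh : 0 < h) (hρ : 2 * h ≤ ρ) (hN : h ≤ N) :
    ∑ v : V N, muK N ρ (kT h) v ^ 2 ≤ ((h : ℝ) ^ 2)⁻¹ := by
  have hw := wts_kT (N := N) hh hρ
  calc ∑ v : V N, muK N ρ (kT h) v ^ 2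
      ≤ ∑ v : V N, muK N ρ (kT h) v * ((h : ℝ) ^ 2)⁻¹ := by
        refine Finset.sum_le_sum fun v _ => ?_
        rw [pow_two]
        exact mul_le_mul_of_nonneg_left (muK_le hh hρ hN v) (hw.nn v)
    _ = ((h : ℝ) ^ 2)⁻¹ := by rw [← Finset.sum_mul, hw.one, one_mul]

end

end Vale.Agent.P159.H883e
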