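import Vale.Agent.P159.H883.Brg6
import Vale.Agent.P159.H883.Twr4
import Vale.Agent.P159.H686.Two
import Vale.Agent.P159.H963.NeuI
import Vale.Agent.P159.H415.Mono

/-!
P159, module BRG (helper883), part 7: the torus instance of the bridge, scalar masses.
`M = t`, `M' = t'`, noise `√σ` on every site, `σ = 1/t' - 1/t`. The form `An` is translation
invariant with symbol `t Pin / (t + Pin)`; `Win` holds with `gm`, `cgm` (H363) and
`F0m = ahat * cgm`; `H686.loewner` gives the contraction constant.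
-/

set_option linter.unusedSectionVars false

namespace Vale.Agent.P159.H883

open Finset Matrix MeasureTheory ProbabilityTheory
open Vale.Agent.P159.TM.H104 (EM nh Gr li)
open Vale.Agent.P159.H37 (wM ZM qf bf Zn Un Rs Zs re gau Gm)
open Vale.Agent.P159.H963 (GrI pin MF ntr GW nM An Anm Ank Pin)
open Vale.Agent.P159.H896 (Chn cN)
open Vale.Agent.P159.H363 (law_integral_eq law_integral_eq_add measurable_mulVec gm cgm)
open Vale.Agent.P159.H462 (Dom ahat Gam Cpr ti_Gam sym_Gam ti_ahat sym_ahat ti_Cpr sym_Cpr)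
open Vale.Agent.P159.H864 (TI fc sym)
open Vale.Agent.P159.TM.H764 (EE)
open Vale.Agent.P159.TM.Spec (V)
open Vale.Agent.P159.TM.SpecC (wT)
open Vale.Agent.P159.H770 (Ed wTD wTD_zero)
open Vale.Agent.P159.H686 (fl mg tl pu wn InL Stp dst dW Cls Dm rho2 Lcl)

noncomputable section

/-! ### symmetric matrices are determined by their form -/

lemma qf_inj {U : Type*} [Fintype U] [DecidableEq U] {A B : Matrix U U ℝ} (hA : Aᵀ = A)
    (hB : Bᵀ = B) (h : ∀ u : U → ℝ, qf A u = qf B u) : A = B := by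
  have hb : ∀ (D : Matrix U U ℝ) (hD : Dᵀ = D) (u v : U → ℝ),
      qf D (u + v) = qf D u + qf D v + 2 * (u ⬝ᵥ (D *ᵥ v)) := by
    intro D hD u v
    rw [H37.qf_eq, H37.qf_eq, H37.qf_eq, mulVec_add, dotProduct_add, add_dotProduct,
      add_dotProduct]
    have h1 : v ⬝ᵥ (D *ᵥ u) = u ⬝ᵥ (D *ᵥ v) := by
      rw [dotProduct_mulVec, ← mulVec_transpose, hD, dotProduct_comm]
    rw [h1]
    ring
  have h2 : ∀ u v : U → ℝ, u ⬝ᵥ (A *ᵥ v) = u ⬝ᵥ (B *ᵥ v) := by
    intro u v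
    have h3 := hb A hA u v
    have h4 := hb B hB u v
    rw [h, h, h] at h3
    linarith
  ext x y
  have h5 := h2 (Pi.single x 1) (Pi.single y 1)
  simpa using h5

section torus

variable {N : ℕ} [NeZero N] {A₀ : Matrix (V N) (V N) ℝ} {ν c s : ℝ}

/-- the next form -/
def Anx (s : ℝ) (A₀ : Matrix (V N) (V N) ℝ) : Matrix (V N) (V N) ℝ :=
  fc (fun a => a * (1 + s * a)⁻¹) A₀

/-- the gain -/
def Kg (s : ℝ) (A₀ : Matrix (V N) (V N) ℝ) : Matrix (V N) (V N) ℝ :=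
  fc (fun a => √s * (a * (1 + s * a)⁻¹)) A₀

lemma dom_pos (h : Dom A₀ ν c) {k : V N} (hk : k ≠ 0) : 0 < sym A₀ k := by
  have h1 := H462.EE_pos hk
  have h2 := h.hν
  have h3 := h.hc
  exact lt_of_lt_of_le (by positivity) (h.ge k)

/-- **the data of a window on the torus** -/
theorem win_tor (h : Dom A₀ ν c) (hs : 0 < s) :
    Win A₀ (Anx s A₀) (√s • (1 : Matrix (V N) (V N) ℝ)) (Kg s A₀) (gm s A₀) (cgm s A₀) := by
  have hss : √s * √s = s := Real.mul_self_sqrt hs.le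
  have hp : ∀ k, 0 < 1 + s * sym A₀ k := fun k => by
    have := h.nn k
    positivity
  have tB : TI (√s • (1 : Matrix (V N) (V N) ℝ)) := TI.one.smul _
  have tK : TI (Kg s A₀) := H864.ti_fc _ _
  have tA' : TI (Anx s A₀) := H864.ti_fc _ _
  have sB : ∀ k : V N, sym (√s • (1 : Matrix (V N) (V N) ℝ)) k = √s := fun k =>
    H864.sym_smul_one _ _
  have sK : ∀ k, sym (Kg s A₀) k = √s * (sym A₀ k * (1 + s * sym A₀ k)⁻¹) := fun k =>
    H864.sym_fc _ _ _
  have sA' : ∀ k, sym (Anx s A₀) k = sym A₀ k * (1 + s * sym A₀ k)⁻¹ := fun k =>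
    H864.sym_fc _ _ _
  refine ⟨⟨h.ti.transpose, (H864.psd_iff h.ti).2 h.nn, ?_, ?_⟩, ?_, ?_⟩
  · rw [tB.transpose]
    refine H864.sym_inj (tK.add (((tB.mul h.ti).mul tB).mul tK)) (tB.mul h.ti) fun k => ?_
    rw [H864.sym_add, H864.sym_mul ((tB.mul h.ti).mul tB) tK, H864.sym_mul (tB.mul h.ti) tB,
      H864.sym_mul tB h.ti, sB, sK]
    have hi := inv_mul_cancel₀ (hp k).ne'
    linear_combination (√s * sym A₀ k) * hi +
      (√s * sym A₀ k * (1 + s * sym A₀ k)⁻¹ * sym A₀ k) * hss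
  · refine H864.sym_inj tA' (h.ti.sub ((h.ti.mul tB).mul tK)) fun k => ?_
    rw [H864.sym_sub, H864.sym_mul (h.ti.mul tB) tK, H864.sym_mul h.ti tB, sB, sK, sA']
    have hi := inv_mul_cancel₀ (hp k).ne'
    linear_combination sym A₀ k * hi + (sym A₀ k ^ 2 * (1 + s * sym A₀ k)⁻¹) * hss
  · rw [H363.gm_mul h hs, tB.transpose]
    have tQ : TI (QB A₀ (√s • (1 : Matrix (V N) (V N) ℝ))) := by
      unfold QB
      rw [tB.transpose]
      exact (tB.mul h.ti).mul tB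
    have sQ : ∀ k, sym (QB A₀ (√s • (1 : Matrix (V N) (V N) ℝ))) k = s * sym A₀ k := by
      intro k
      unfold QB
      rw [tB.transpose, H864.sym_mul (tB.mul h.ti) tB, H864.sym_mul tB h.ti, sB]
      calc _ = (√s * √s) * sym A₀ k := by ring
        _ = _ := by rw [hss]
    have t1 : TI (1 + QB A₀ (√s • (1 : Matrix (V N) (V N) ℝ))) := TI.one.add tQ
    have s1 : ∀ k, sym (1 + QB A₀ (√s • (1 : Matrix (V N) (V N) ℝ))) k = 1 + s * sym A₀ k := by
      intro k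
      rw [H864.sym_add, H864.sym_one, sQ]
    refine H864.sym_inj (ti_Gam _ _) ((tB.mul t1.inv).mul tB) fun k => ?_
    rw [sym_Gam, H864.sym_mul (tB.mul t1.inv) tB, H864.sym_mul tB t1.inv, sB,
      H864.sym_inv' t1 (fun k => by rw [s1]; exact (hp k).ne'), s1]
    calc s * (1 + s * sym A₀ k)⁻¹ = (√s * √s) * (1 + s * sym A₀ k)⁻¹ := by rw [hss]
      _ = _ := by ring
  · rw [H363.cgm_mul h hs]
    refine H864.sym_inj ((tA'.mul (ti_Cpr _ _)).mul tA') tA' fun k => ?_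
    rw [H864.sym_mul (tA'.mul (ti_Cpr _ _)) tA', H864.sym_mul tA' (ti_Cpr _ _), sA', sym_Cpr]
    have h1 := (hp k).ne'
    by_cases h0 : sym A₀ k = 0
    · rw [h0]
      simp
    · field_simp

/-- the conditional mean -/
theorem F0m_tor (h : Dom A₀ ν c) (hs : 0 < s) :
    F0m (√s • (1 : Matrix (V N) (V N) ℝ)) (Kg s A₀) (cgm s A₀) = ahat s A₀ * cgm s A₀ := by
  have hss : √s * √s = s := Real.mul_self_sqrt hs.le
  have tB : TI (√s • (1 : Matrix (V N) (V N) ℝ)) := TI.one.smul _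
  have tK : TI (Kg s A₀) := H864.ti_fc _ _
  have tC := H363.ti_cgm s A₀
  unfold F0m
  refine H864.sym_inj (tC.sub ((tB.mul tK).mul tC)) ((ti_ahat _ _).mul tC) fun k => ?_
  have hp : 0 < 1 + s * sym A₀ k := by
    have := h.nn k
    positivity
  rw [H864.sym_sub, H864.sym_mul (tB.mul tK) tC, H864.sym_mul tB tK,
    H864.sym_mul (ti_ahat _ _) tC, sym_ahat, H864.sym_smul_one]
  have sK : sym (Kg s A₀) k = √s * (sym A₀ k * (1 + s * sym A₀ k)⁻¹) := H864.sym_fc _ _ _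
  rw [sK]
  have e : √s * (√s * (sym A₀ k * (1 + s * sym A₀ k)⁻¹)) * sym (cgm s A₀) k =
      (√s * √s) * (sym A₀ k * (1 + s * sym A₀ k)⁻¹) * sym (cgm s A₀) k := by ring
  rw [e, hss]
  have h1 := hp.ne'
  field_simp
  ring

variable {b t t' : ℝ}

/-- the form of the torus -/
theorem An_tor (b : ℝ) (hb : 0 ≤ b) (ht : 0 < t) :
    An (wT b N) (t • (1 : Matrix (V N) (V N) ℝ)) t 0 = Anm N b t :=
  qf_inj (An_symm _ (mf_scalar ht) 0) (H963.ti_Anm hb ht).transpose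
    fun u => H963.qf_An_torus b ht u

/-- `Dom` for the form of the torus -/
theorem dom_Anm (hb : 0 < b) (ht : 0 < t) (hc : 0 < c)
    (h : ∀ k : V N, k ≠ 0 → c * EE k ≤ Pin N b t k) : Dom (Anm N b t) t c where
  ti := H963.ti_Anm hb.le ht
  hν := ht
  hc := hc
  nn k := by
    rw [H963.sym_Anm]
    exact H963.Ank_nonneg hb.le ht k
  le k := by
    rw [H963.sym_Anm]
    by_cases hk : k = 0
    · unfold H963.Ank
      rw [if_pos hk]
      exact ht.le
    · rw [H963.Ank_eq hb ht hk, div_le_iff₀ (by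
        have := H963.Pin_nonneg (N := N) hb ht hk
        positivity)]
      nlinarith
  zero := by
    rw [H963.sym_Anm]
    unfold H963.Ank
    rw [if_pos rfl]
  ge k := by
    rw [H963.sym_Anm]
    by_cases hk : k = 0
    · unfold H963.Ank
      rw [if_pos hk, hk, H462.EE_zero]
      simp
    · have h1 := h k hk
      have h2 := H462.EE_nonneg k
      have h3 : 0 ≤ c * EE k := by positivity
      rw [H963.Ank_eq hb ht hk, div_le_div_iff₀ (by positivity) (by linarith)]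
      nlinarith [mul_le_mul_of_nonneg_left h1 (sq_nonneg t)]

/-- the channel between scalar masses, explicit noise -/
theorem chn_sc {U : Type} [Fintype U] [DecidableEq U] (ht' : 0 < t') (htt : t' ≤ t) :
    ∃ K : Matrix U U ℝ, Chn (t • (1 : Matrix U U ℝ)) (t' • (1 : Matrix U U ℝ))
      (√(1 / t' - 1 / t) • (1 : Matrix U U ℝ)) K := by
  have ht : 0 < t := ht'.trans_le htt
  obtain ⟨σ, hσ⟩ : ∃ σ, σ = 1 / t' - 1 / t := ⟨_, rfl⟩
  have hσ0 : 0 ≤ σ := by
    rw [hσ]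
    exact sub_nonneg.2 (one_div_le_one_div_of_le ht' htt)
  have h1 := H896.chn_proj (M := t • (1 : Matrix U U ℝ)) (Q := 1) (τ := t) (σ := σ)
    (by rw [Matrix.transpose_smul, Matrix.transpose_one])
    (fun u => by
      rw [H37.qf_smul_one]
      exact mul_nonneg ht.le (sum_nonneg fun _ _ => sq_nonneg _))
    Matrix.transpose_one (Matrix.one_mul _) (by rw [Matrix.mul_one]) ht.le hσ0
  rw [← hσ]
  refine ⟨(√σ * t / (1 + σ * t)) • (1 : Matrix U U ℝ), ?_⟩
  have e : t • (1 : Matrix U U ℝ) - (σ * t ^ 2 / (1 + σ * t)) • (1 : Matrix U U ℝ) =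
      t' • (1 : Matrix U U ℝ) := by
    have e1 : 1 + σ * t = t / t' := by
      rw [hσ, sub_mul, one_div, one_div, inv_mul_cancel₀ ht.ne']
      ring
    rw [← sub_smul, e1]
    congr 1
    rw [hσ]
    field_simp
    ring
  rw [e] at h1
  exact h1

lemma ci_cls {X : Type*} {S : Finset (V N)} {cen : V N → V N} {wm : (V N → ℝ) → X}
    (hloc : ∀ F G : V N → ℝ, (∀ y ∈ S, F y - F (cen y) = G y - G (cen y)) → wm F = wm G) :
    CI wm := fun F s => hloc _ _ fun y _ => by ring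

/-- **one window on the torus, scalar masses**, any dislocated weight `wD` -/
theorem stp_tor (hb : 0 < b) (ht' : 0 < t') (htt : t' < t) (hA : Dom (Anm N b t) t c)
    (hs : 1 ≤ (1 / t' - 1 / t) * t) {S : Finset (V N)} {cen : V N → V N} {D n : ℕ} (hD : 1 ≤ D)
    (hn : 1 ≤ n) (hC : Cls S cen D n) {Bd : Set (V N → ℝ)} (hBd : MeasurableSet Bd) {η : ℝ}
    (hη0 : 0 ≤ η) (hη : ∀ F, F ∉ Bd → Wt (wT b N) (t • 1) t 0 F ≤ 1 + η)
    {X : Type*} [MeasurableSpace X] {wm : (V N → ℝ) → X} (hwm : Measurable wm)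
    (hloc : ∀ F G : V N → ℝ, (∀ y ∈ S, F y - F (cen y) = G y - G (cen y)) → wm F = wm G)
    {wD : (V N → ℤ) → ℝ} (hbD : BW wD) (φ : V N → ℝ) {b' : ℝ}
    (hbd : (nuM (wT b N) (t • 1) 0).real Bd ≤ b') :
    Stp (nuM (wT b N) (t • 1) 0) (nuM (wT b N) (t' • 1) 0) (Psi (wT b N) wD (t • 1) φ)
      (Psi (wT b N) wD (t' • 1) φ) (Zp wD 0 / Zp (wT b N) 0) wm
      (√(Real.pi ^ 2 / 8) * rho2 n D c t (1 / t' - 1 / t)) η b' := by
  have ht : 0 < t := ht'.trans htt
  have hs0 : 0 < 1 / t' - 1 / t := sub_pos.2 (one_div_lt_one_div_of_lt ht' htt)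
  obtain ⟨K, hch⟩ := chn_sc (U := V N) ht' htt.le
  have hW := win_tor hA hs0
  rw [← An_tor b hb.le ht] at hW
  refine stp_Psi (D := Dm S cen) hch (H963.gw_wT hb.le) (bw_wT hb) hbD (mf_scalar ht)
    (mf_scalar ht') hW (H686.rho2_nonneg n D c t _) ?_ hBd hη0 hη hwm (ci_cls hloc) ?_ φ hbd
  · intro l
    rw [An_tor b hb.le ht, F0m_tor hA hs0]
    exact H686.loewner hA hs hD hn hC l
  · intro F G hFG
    refine hloc F G fun y hy => ?_
    have h1 := congrFun hFG y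
    rwa [H686.Dm_mulVec, H686.Dm_mulVec, if_pos hy, if_pos hy] at h1

/-- the same for the torus dislocations -/
theorem stp_PT (hb : 0 < b) (ht' : 0 < t') (htt : t' < t) (hA : Dom (Anm N b t) t c)
    (hs : 1 ≤ (1 / t' - 1 / t) * t) {S : Finset (V N)} {cen : V N → V N} {D n : ℕ} (hD : 1 ≤ D)
    (hn : 1 ≤ n) (hC : Cls S cen D n) {Bd : Set (V N → ℝ)} (hBd : MeasurableSet Bd) {η : ℝ}
    (hη0 : 0 ≤ η) (hη : ∀ F, F ∉ Bd → Wt (wT b N) (t • 1) t 0 F ≤ 1 + η)
    {X : Type*} [MeasurableSpace X] {wm : (V N → ℝ) → X} (hwm : Measurable wm)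
    (hloc : ∀ F G : V N → ℝ, (∀ y ∈ S, F y - F (cen y) = G y - G (cen y)) → wm F = wm G)
    (e : Ed N → ℤ) (φ : V N → ℝ) {b' : ℝ} (hbd : (nuM (wT b N) (t • 1) 0).real Bd ≤ b') :
    Stp (nuM (wT b N) (t • 1) 0) (nuM (wT b N) (t' • 1) 0) (PT N b (t • 1) e φ)
      (PT N b (t' • 1) e φ) (CT N b e) wm
      (√(Real.pi ^ 2 / 8) * rho2 n D c t (1 / t' - 1 / t)) η b' := by
  have h1 := stp_tor hb ht' htt hA hs hD hn hC hBd hη0 hη hwm hloc (bw_wTD hb e) φ hbd
  have e1 : ∀ M : Matrix (V N) (V N) ℝ, PT N b M e φ = Psi (wT b N) (wTD N b e) M φ := by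
    intro M
    funext F
    unfold PT
    rw [wTD_zero]
  unfold CT
  rw [e1, e1, wTD_zero]
  exact h1

end torus

/-! ### the fields of `Lcl` for the dislocation functional -/

section fields

variable {V : Type} [Fintype V] [DecidableEq V] [Nonempty V]
variable {w wD : (V → ℤ) → ℝ} {M M' : Matrix V V ℝ} {m m' : ℝ}

/-- nonnegativity, measurability, integrability and mean of `Ψ` under `nuM` -/
theorem Psi_fields (hw : GW w) (hb : BW w) (hbD : BW wD) (hM : MF M m) (x₀ : V) (φ : V → ℝ) :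
    (∀ F, 0 ≤ Psi w wD M φ F) ∧ Measurable (Psi w wD M φ) ∧
    Integrable (Psi w wD M φ) (nuM w M x₀) ∧
    ∫ F, Psi w wD M φ F ∂(nuM w M x₀) = Zp wD x₀ / Zp w x₀ ∧ 0 < Zp wD x₀ / Zp w x₀ := by
  have hm := (continuous_Psi hb hbD hM φ).measurable
  have hc := ci_Psi (M := M) hb hbD φ
  have h1 := nuM_ci hw hb hM x₀ hc hm
  exact ⟨fun F => (Psi_pos hb hbD hM φ F).le, hm, h1.1.2 (in_Psi hb hbD hM x₀ φ),
    h1.2.trans (Enu_Psi hb hbD hM x₀ φ), div_pos (hbD.Zp_pos x₀) (hb.Zp_pos x₀)⟩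

end fields

end

end Vale.Agent.P159.H883
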