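import Vale.Agent.P159.H883.Lin1

/-!
P159 / module LIN (helper883), part 2: exponential moments and tails of the linear functionals of
the field, law `nuM (wT b N) (t • 1) x₀`.

`FL u j` : `u = dv j`, i.e. `∑ u g = ∑ j (dg)` for every `g`.
* `lin_mgf` : `E e^{⟨u, F⟩} ≤ exp (|u|² / (2 t) + b ∑ (cosh j - 1))`;
* `lin_tail` : `ν (x < |⟨u, F⟩|) ≤ 2 exp (- x² / (2 V))` if `|u|² / t + 2 b |j|² ≤ V`, `x |j| ≤ V`.
-/

set_option linter.unusedSectionVars false

namespace Vale.Agent.P159.H883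

open Finset Matrix MeasureTheory
open Vale.Agent.P159.H963 (pin)
open Vale.Agent.P159.H37 (Zn re gau)
open Vale.Agent.P159.H770 (Ed eS eT wTD)
open Vale.Agent.P159.H353 (wI)
open Vale.Agent.P159.TM.SpecC (Tor wT)
open Vale.Agent.P159.TM.H129 (ip)

noncomputable section

variable {N : ℕ} [NeZero N] {b t : ℝ}

/-- `u` is the divergence of the flow `j` -/
def FlJ (u : Tor N → ℝ) (j : Ed N → ℝ) : Prop :=
  ∀ g : Tor N → ℝ, ∑ x, u x * g x = ∑ e, j e * (g (eT N e) - g (eS N e))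

lemma FlJ.smul {u : Tor N → ℝ} {j : Ed N → ℝ} (h : FlJ u j) (c : ℝ) : FlJ (c • u) (c • j) := by
  intro g
  simp only [Pi.smul_apply, smul_eq_mul, mul_assoc]
  rw [← Finset.mul_sum, ← Finset.mul_sum, h g]

lemma FlJ.sum_zero {u : Tor N → ℝ} {j : Ed N → ℝ} (h : FlJ u j) : ∑ x, u x = 0 := by
  have := h fun _ => 1
  simpa using this

lemma FlJ.ci {u : Tor N → ℝ} {j : Ed N → ℝ} (h : FlJ u j) :
    CI fun F : Tor N → ℝ => ∑ x, u x * F x := by
  intro F c
  simp only [mul_add, Finset.sum_add_distrib, ← Finset.sum_mul, h.sum_zero, zero_mul, add_zero]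

lemma meas_lin (u : Tor N → ℝ) : Measurable fun F : Tor N → ℝ => ∑ x, u x * F x :=
  Finset.measurable_sum _ fun x _ => (measurable_pi_apply x).const_mul _

lemma xg_elin (u : Tor N → ℝ) : XG fun F : Tor N → ℝ => Real.exp (∑ x, u x * F x) := by
  refine ⟨Real.measurable_exp.comp (meas_lin u), (∑ i, |u i|) + 1,
    add_nonneg (sabs_nonneg u) zero_le_one, fun g => ?_⟩
  have hs := sabs_nonneg g
  have hu := sabs_nonneg u
  rw [abs_of_pos (Real.exp_pos _)]
  have h1 : ∑ x, u x * g x ≤ ((∑ i, |u i|) + 1) * ∑ i, |g i| := by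
    refine ((le_abs_self _).trans (abs_ln_le u g)).trans
      (mul_le_mul_of_nonneg_right (by linarith) hs)
  have h2 : Real.exp (∑ x, u x * g x) ≤ Real.exp (((∑ i, |u i|) + 1) * ∑ i, |g i|) :=
    Real.exp_le_exp.2 h1
  nlinarith [Real.exp_pos (((∑ i, |u i|) + 1) * ∑ i, |g i|)]

/-- **exponential moments of the linear functionals of the field** -/
theorem lin_mgf (hb : 0 < b) (ht : 0 < t) (x₀ : Tor N) {u : Tor N → ℝ} {j : Ed N → ℝ}
    (h : FlJ u j) :
    Enu (wT b N) (t • (1 : Matrix (Tor N) (Tor N) ℝ)) x₀ (fun F => Real.exp (∑ x, u x * F x)) ≤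
      Real.exp ((∑ x, u x ^ 2) / (2 * t) + b * ∑ e, (Real.cosh (j e) - 1)) := by
  have hw := bw_wT (N := N) hb
  have hc : CI fun F : Tor N → ℝ => Real.exp (∑ x, u x * F x) := h.ci.comp Real.exp
  obtain ⟨h1, h2⟩ := Enu_gau ht hw x₀ hc (xg_elin u)
  rw [h2]
  have hZ := hw.Zp_pos x₀
  have e1 : ∀ k : Tor N → ℤ, ∫ g, Real.exp (∑ x, u x * (re k + (√t)⁻¹ • g) x) ∂(gau (Tor N)) =
      Real.exp (ip j (dhT N k)) * Real.exp ((∑ x, u x ^ 2) / (2 * t)) := by
    intro k
    have e2 : ∀ g : Tor N → ℝ, Real.exp (∑ x, u x * (re k + (√t)⁻¹ • g) x) =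
        Real.exp (ip j (dhT N k)) * Real.exp (∑ x, ((√t)⁻¹ • u) x * g x) := by
      intro g
      rw [← Real.exp_add]
      congr 1
      have e3 : ∑ x, u x * (re k + (√t)⁻¹ • g) x =
          (∑ x, u x * re k x) + ∑ x, ((√t)⁻¹ • u) x * g x := by
        rw [← Finset.sum_add_distrib]
        refine Finset.sum_congr rfl fun x _ => ?_
        simp only [Pi.add_apply, Pi.smul_apply, smul_eq_mul]
        ring
      rw [e3, h (re k)]
      congr 1
      unfold TM.H129.ip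
      refine Finset.sum_congr rfl fun e _ => ?_
      rw [dhT_apply]
      unfold H37.re
      push_cast
      ring
    simp only [e2]
    rw [integral_const_mul, H37.gau_exp]
    congr 2
    simp only [Pi.smul_apply, smul_eq_mul, mul_pow, inv_pow, Real.sq_sqrt ht.le]
    rw [← Finset.mul_sum]
    field_simp
  have e2 : ∑' k, pin (wT b N) x₀ k * ∫ g, Real.exp (∑ x, u x * (re k + (√t)⁻¹ • g) x)
      ∂(gau (Tor N)) = (∑' k, pin (wT b N) x₀ k * Real.exp (ip j (dhT N k))) *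
        Real.exp ((∑ x, u x ^ 2) / (2 * t)) := by
    rw [← tsum_mul_right]
    exact tsum_congr fun k => by rw [e1]; ring
  rw [e2, div_le_iff₀ hZ, Real.exp_add]
  have h3 := pin_mgf hb.le x₀ j
  have h4 : ∑' k, pin (wT b N) x₀ k = Zp (wT b N) x₀ := rfl
  rw [h4] at h3
  have h5 := Real.exp_pos ((∑ x, u x ^ 2) / (2 * t))
  calc (∑' k, pin (wT b N) x₀ k * Real.exp (ip j (dhT N k))) * Real.exp ((∑ x, u x ^ 2) / (2 * t))
      ≤ (Real.exp (b * ∑ e, (Real.cosh (j e) - 1)) * Zp (wT b N) x₀) *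
        Real.exp ((∑ x, u x ^ 2) / (2 * t)) := mul_le_mul_of_nonneg_right h3 h5.le
    _ = _ := by ring

/-- the same as an integral against the law -/
theorem lin_int (hb : 0 < b) (ht : 0 < t) (x₀ : Tor N) {u : Tor N → ℝ} {j : Ed N → ℝ}
    (h : FlJ u j) :
    Integrable (fun F : Tor N → ℝ => Real.exp (∑ x, u x * F x))
      (nuM (wT b N) (t • (1 : Matrix (Tor N) (Tor N) ℝ)) x₀) ∧
    ∫ F, Real.exp (∑ x, u x * F x) ∂(nuM (wT b N) (t • (1 : Matrix (Tor N) (Tor N) ℝ)) x₀) ≤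
      Real.exp ((∑ x, u x ^ 2) / (2 * t) + b * ∑ e, (Real.cosh (j e) - 1)) := by
  have hw := bw_wT (N := N) hb
  have hc : CI fun F : Tor N → ℝ => Real.exp (∑ x, u x * F x) := h.ci.comp Real.exp
  have h1 := nuM_ci (H963.gw_wT hb.le) hw (mf_scalar ht) x₀ hc (xg_elin u).meas
  refine ⟨h1.1.2 ((xg_elin u).in_ hc hw (mf_scalar ht) x₀), ?_⟩
  rw [h1.2]
  exact lin_mgf hb ht x₀ h

/-- one sided tail -/
theorem lin_tail1 (hb : 0 < b) (ht : 0 < t) (x₀ : Tor N) {u : Tor N → ℝ} {j : Ed N → ℝ}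
    (h : FlJ u j) (a : ℝ) :
    (nuM (wT b N) (t • (1 : Matrix (Tor N) (Tor N) ℝ)) x₀).real {F | a < ∑ x, u x * F x} ≤
      Real.exp (-a + (∑ x, u x ^ 2) / (2 * t) + b * ∑ e, (Real.cosh (j e) - 1)) := by
  have := prob_nuM (H963.gw_wT (N := N) hb.le) (bw_wT hb) (mf_scalar ht) x₀
  obtain ⟨hi, hle⟩ := lin_int hb ht x₀ h
  have h1 := mul_meas_ge_le_integral_of_nonneg
    (μ := nuM (wT b N) (t • (1 : Matrix (Tor N) (Tor N) ℝ)) x₀)
    (f := fun F : Tor N → ℝ => Real.exp (∑ x, u x * F x))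
    (Filter.Eventually.of_forall fun F => (Real.exp_pos _).le) hi (Real.exp a)
  have h2 : (nuM (wT b N) (t • (1 : Matrix (Tor N) (Tor N) ℝ)) x₀).real
      {F | a < ∑ x, u x * F x} ≤ (nuM (wT b N) (t • (1 : Matrix (Tor N) (Tor N) ℝ)) x₀).real
      {F | Real.exp a ≤ Real.exp (∑ x, u x * F x)} := by
    refine measureReal_mono (fun F hF => ?_) (measure_ne_top _ _)
    exact Real.exp_le_exp.2 (le_of_lt hF)
  have h3 : Real.exp (-a + (∑ x, u x ^ 2) / (2 * t) + b * ∑ e, (Real.cosh (j e) - 1)) =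
      Real.exp ((∑ x, u x ^ 2) / (2 * t) + b * ∑ e, (Real.cosh (j e) - 1)) / Real.exp a := by
    rw [← Real.exp_sub]
    congr 1
    ring
  rw [h3, le_div_iff₀ (Real.exp_pos a)]
  refine (mul_le_mul_of_nonneg_right h2 (Real.exp_pos a).le).trans ?_
  rw [mul_comm]
  exact h1.trans hle

/-- **tail of the linear functionals of the field** -/
theorem lin_tail (hb : 0 < b) (ht : 0 < t) (x₀ : Tor N) {u : Tor N → ℝ} {j : Ed N → ℝ}
    (h : FlJ u j) {x V : ℝ} (hx : 0 ≤ x) (hV : 0 < V)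
    (h1 : (∑ y, u y ^ 2) / t + 2 * b * ∑ e, j e ^ 2 ≤ V) (h2 : ∀ e, x * |j e| ≤ V) :
    (nuM (wT b N) (t • (1 : Matrix (Tor N) (Tor N) ℝ)) x₀).real {F | x < |∑ y, u y * F y|} ≤
      2 * Real.exp (-(x ^ 2 / (2 * V))) := by
  have := prob_nuM (H963.gw_wT (N := N) hb.le) (bw_wT hb) (mf_scalar ht) x₀
  -- the one sided bound for both signs
  have key : ∀ s : ℝ, s ^ 2 = 1 →
      (nuM (wT b N) (t • (1 : Matrix (Tor N) (Tor N) ℝ)) x₀).real
        {F | x < ∑ y, (s • u) y * F y} ≤ Real.exp (-(x ^ 2 / (2 * V))) := by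
    intro s hs
    rcases hx.eq_or_lt with hx0 | hx0
    · rw [← hx0]
      simp only [ne_eq, OfNat.ofNat_ne_zero, not_false_eq_true, zero_pow, zero_div, neg_zero,
        Real.exp_zero]
      exact measureReal_le_one
    have h3 := lin_tail1 hb ht x₀ ((h.smul s).smul (x / V)) (x * (x / V))
    have hxV : 0 < x / V := div_pos hx0 hV
    have e1 : {F : Tor N → ℝ | x < ∑ y, (s • u) y * F y} ⊆
        {F | x * (x / V) < ∑ y, ((x / V) • s • u) y * F y} := by
      intro F hF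
      have hF' : x < ∑ y, (s • u) y * F y := hF
      show x * (x / V) < ∑ y, ((x / V) • s • u) y * F y
      have e2 : ∑ y, ((x / V) • s • u) y * F y = (∑ y, (s • u) y * F y) * (x / V) := by
        rw [Finset.sum_mul]
        refine Finset.sum_congr rfl fun y _ => ?_
        simp only [Pi.smul_apply, smul_eq_mul]
        ring
      rw [e2]
      exact mul_lt_mul_of_pos_right hF' hxV
    refine (measureReal_mono e1 (measure_ne_top _ _)).trans (h3.trans (Real.exp_le_exp.2 ?_))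
    have e3 : ∑ y, ((x / V) • s • u) y ^ 2 = (x / V) ^ 2 * ∑ y, u y ^ 2 := by
      rw [Finset.mul_sum]
      refine Finset.sum_congr rfl fun y _ => ?_
      simp only [Pi.smul_apply, smul_eq_mul, mul_pow, hs]
      ring
    have e4 : ∑ e, (Real.cosh (((x / V) • s • j) e) - 1) ≤ (x / V) ^ 2 * ∑ e, j e ^ 2 := by
      rw [Finset.mul_sum]
      refine Finset.sum_le_sum fun e _ => ?_
      have h5 : |((x / V) • s • j) e| ≤ 1 := by
        simp only [Pi.smul_apply, smul_eq_mul, abs_mul]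
        have hs1 : |s| = 1 := by
          have := abs_nonneg s
          have h6 : |s| ^ 2 = 1 := by rw [sq_abs, hs]
          nlinarith
        rw [hs1, one_mul, abs_of_pos hxV, div_mul_eq_mul_div, div_le_one hV]
        exact h2 e
      refine (H513.cosh_sub_le_sq h5).trans (le_of_eq ?_)
      simp only [Pi.smul_apply, smul_eq_mul, mul_pow, hs]
      ring
    rw [e3]
    have h6 : b * ∑ e, (Real.cosh (((x / V) • s • j) e) - 1) ≤
        b * ((x / V) ^ 2 * ∑ e, j e ^ 2) := mul_le_mul_of_nonneg_left e4 hb.le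
    have h7 : (x / V) ^ 2 / 2 * ((∑ y, u y ^ 2) / t + 2 * b * ∑ e, j e ^ 2) ≤
        (x / V) ^ 2 / 2 * V := mul_le_mul_of_nonneg_left h1 (by positivity)
    have e5 : (x / V) ^ 2 / 2 * V = x ^ 2 / (2 * V) := by
      field_simp
    have e6 : x * (x / V) = 2 * (x ^ 2 / (2 * V)) := by
      field_simp
    have e7 : (x / V) ^ 2 * (∑ y, u y ^ 2) / (2 * t) + b * ((x / V) ^ 2 * ∑ e, j e ^ 2) =
        (x / V) ^ 2 / 2 * ((∑ y, u y ^ 2) / t + 2 * b * ∑ e, j e ^ 2) := by
      field_simp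
    linarith
  have hsub : {F : Tor N → ℝ | x < |∑ y, u y * F y|} ⊆
      {F | x < ∑ y, ((1 : ℝ) • u) y * F y} ∪ {F | x < ∑ y, ((-1 : ℝ) • u) y * F y} := by
    intro F hF
    have hF' : x < |∑ y, u y * F y| := hF
    rcases lt_abs.1 hF' with h3 | h3
    · left
      simpa using h3
    · right
      show x < ∑ y, ((-1 : ℝ) • u) y * F y
      have e1 : ∑ y, ((-1 : ℝ) • u) y * F y = -∑ y, u y * F y := by
        rw [← Finset.sum_neg_distrib]
        refine Finset.sum_congr rfl fun y _ => ?_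
        simp
      rw [e1]
      exact h3
  refine (measureReal_mono hsub (measure_ne_top _ _)).trans ((measureReal_union_le _ _).trans ?_)
  have k1 := key 1 (by norm_num)
  have k2 := key (-1) (by norm_num)
  linarith

end

end Vale.Agent.P159.H883
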