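import Vale.Agent.P159.H883.Twr3

/-!
P159, S list SL1 (helper883), part 5: the law `Enu` in terms of the heights. Slab integrals against
line fibres, `Enu` as pinned heights plus Gaussian noise (scalar mass), the law of the next level as a
convolution, joint law of two levels, tower of the integer partition functions.
-/

set_option linter.unusedSectionVars false

namespace Vale.Agent.P159.H883

open Finset Matrix MeasureTheory ProbabilityTheory
open Vale.Agent.P159.TM.H104 (EM nh Gr li)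
open Vale.Agent.P159.H37 (wM ZM qf bf Zn Zs re gau)
open Vale.Agent.P159.H963 (GrI pin MF ntr)
open Vale.Agent.P159.H896 (Chn cN)
open Vale.Agent.P159.H145 (cs Per)

noncomputable section

/-! ### Lebesgue density of the standard Gaussian -/

section gauss

variable {I : Type*} [Fintype I]

/-- the density of `gau` -/
def gd (g : I → ℝ) : ℝ := ∏ i, gaussianPDFReal 0 1 (g i)

lemma gd_nonneg (g : I → ℝ) : 0 ≤ gd g := Finset.prod_nonneg fun _ _ => gaussianPDFReal_nonneg _ _ _

lemma measurable_gd : Measurable (gd : (I → ℝ) → ℝ) := by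
  unfold gd
  exact Finset.measurable_prod _ fun i _ =>
    (measurable_gaussianPDFReal 0 1).comp (measurable_pi_apply i)

lemma gd_eq (g : I → ℝ) : gd g = (√(2 * Real.pi))⁻¹ ^ Fintype.card I *
    Real.exp (-((∑ i, g i ^ 2) / 2)) := by
  unfold gd
  simp only [gaussianPDFReal_def]
  rw [Finset.prod_mul_distrib, Finset.prod_const, Finset.card_univ, ← Real.exp_sum]
  congr 1
  · simp
  · congr 1
    rw [Finset.sum_div, ← Finset.sum_neg_distrib]
    refine Finset.sum_congr rfl fun i _ => ?_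
    push_cast
    ring

theorem gau_eq : gau I = (volume : Measure (I → ℝ)).withDensity fun g => ENNReal.ofReal (gd g) := by
  unfold gau
  apply Measure.pi_eq
  intro s hs
  have hbox : MeasurableSet (Set.univ.pi s) := MeasurableSet.univ_pi hs
  rw [withDensity_apply _ hbox]
  have hint : Integrable (gd : (I → ℝ) → ℝ) := by
    unfold gd
    rw [volume_pi]
    exact Integrable.fintype_prod (f := fun _ x => gaussianPDFReal 0 1 x)
      fun _ => integrable_gaussianPDFReal 0 1
  rw [← ofReal_integral_eq_lintegral_ofReal hint.integrableOn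
    (Filter.Eventually.of_forall gd_nonneg), ← integral_indicator hbox]
  have hind : (Set.univ.pi s).indicator (gd : (I → ℝ) → ℝ)
      = fun g => ∏ i, (s i).indicator (fun x => gaussianPDFReal 0 1 x) (g i) := by
    funext g
    by_cases hg : g ∈ Set.univ.pi s
    · rw [Set.indicator_of_mem hg]
      exact Finset.prod_congr rfl fun i _ => by rw [Set.indicator_of_mem (hg i (Set.mem_univ i))]
    · rw [Set.indicator_of_notMem hg]
      simp only [Set.mem_univ_pi, not_forall] at hg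
      obtain ⟨i, hi⟩ := hg
      symm
      apply Finset.prod_eq_zero (Finset.mem_univ i)
      rw [Set.indicator_of_notMem hi]
  rw [hind, volume_pi, integral_fintype_prod_eq_prod (𝕜 := ℝ)
    (fun (i : I) (x : ℝ) => (s i).indicator (fun x => gaussianPDFReal 0 1 x) x)
    (μ := fun _ => volume)]
  rw [ENNReal.ofReal_prod_of_nonneg fun i _ => integral_nonneg fun x =>
    Set.indicator_nonneg (fun _ _ => gaussianPDFReal_nonneg _ _ _) x]
  refine Finset.prod_congr rfl fun i _ => ?_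
  rw [gaussianReal_apply_eq_integral 0 one_ne_zero, integral_indicator (hs i)]

theorem gau_vol (f : (I → ℝ) → ℝ) : ∫ g, f g ∂(gau I) = ∫ g : I → ℝ, gd g * f g := by
  rw [gau_eq, integral_withDensity_eq_integral_toReal_smul measurable_gd.ennreal_ofReal
    (Filter.Eventually.of_forall fun x => ENNReal.ofReal_lt_top)]
  refine integral_congr_ae (Filter.Eventually.of_forall fun g => ?_)
  simp only [smul_eq_mul]
  rw [ENNReal.toReal_ofReal (gd_nonneg g)]

/-- Gaussian of variance `1/t` -/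
theorem gau_scaled {t : ℝ} (ht : 0 < t) (f : (I → ℝ) → ℝ) :
    ∫ g, f ((√t)⁻¹ • g) ∂(gau I) =
      (√t * (√(2 * Real.pi))⁻¹) ^ Fintype.card I *
        ∫ F : I → ℝ, f F * Real.exp (-(t * (∑ i, F i ^ 2) / 2)) := by
  have hs : 0 < √t := Real.sqrt_pos.2 ht
  rw [gau_vol]
  have h1 := Measure.integral_comp_smul_of_nonneg (volume : Measure (I → ℝ))
    (fun F => f F * ((√(2 * Real.pi))⁻¹ ^ Fintype.card I * Real.exp (-(t * (∑ i, F i ^ 2) / 2))))
    (√t)⁻¹ (hR := (inv_pos.2 hs).le)
  have e1 : ∀ g : I → ℝ, gd g * f ((√t)⁻¹ • g) = f ((√t)⁻¹ • g) *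
      ((√(2 * Real.pi))⁻¹ ^ Fintype.card I *
        Real.exp (-(t * (∑ i, ((√t)⁻¹ • g) i ^ 2) / 2))) := by
    intro g
    rw [gd_eq]
    have e2 : t * (∑ i, ((√t)⁻¹ • g) i ^ 2) = ∑ i, g i ^ 2 := by
      rw [Finset.mul_sum]
      refine Finset.sum_congr rfl fun i _ => ?_
      rw [Pi.smul_apply, smul_eq_mul, mul_pow, inv_pow, Real.sq_sqrt ht.le]
      field_simp
    rw [e2]
    ring
  simp only [e1]
  rw [h1, smul_eq_mul]
  have e3 : ((√t)⁻¹ ^ Module.finrank ℝ (I → ℝ))⁻¹ = √t ^ Fintype.card I := by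
    rw [Module.finrank_pi, inv_pow, inv_inv]
  rw [e3]
  have e4 : ∫ F : I → ℝ, f F * ((√(2 * Real.pi))⁻¹ ^ Fintype.card I *
      Real.exp (-(t * (∑ i, F i ^ 2) / 2))) = (√(2 * Real.pi))⁻¹ ^ Fintype.card I *
      ∫ F : I → ℝ, f F * Real.exp (-(t * (∑ i, F i ^ 2) / 2)) := by
    rw [← integral_const_mul]
    refine integral_congr_ae (Filter.Eventually.of_forall fun F => ?_)
    simp only
    ring
  rw [e4, mul_pow]
  ring

end gauss

variable {V : Type} [Fintype V] [DecidableEq V] [Nonempty V]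
variable {w wD : (V → ℤ) → ℝ} {M M' : Matrix V V ℝ} {m m' : ℝ}
variable {I : Type} [Fintype I] {B : Matrix V I ℝ} {K : Matrix I V ℝ}

/-! ### fibres of constants -/

/-- **integration over the fibres of constants** -/
theorem SI_line {G : (V → ℝ) → ℝ} (hG : Measurable G) (hi : Integrable G) (x₀ : V) :
    SI x₀ (fun F => ∫ c : ℝ, G fun x => F x + c) = ∫ F, G F := by
  -- `H (c, F) = 1[F x₀ - c ∈ [0,1)] G F`
  set A : Set (ℝ × (V → ℝ)) := {p | p.2 x₀ - p.1 ∈ Set.Ico (0 : ℝ) 1} with hA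
  have hmA : MeasurableSet A := by
    have : Measurable fun p : ℝ × (V → ℝ) => p.2 x₀ - p.1 :=
      ((measurable_pi_apply x₀).comp measurable_snd).sub measurable_fst
    exact this measurableSet_Ico
  set H : ℝ × (V → ℝ) → ℝ := A.indicator fun p => G p.2 with hH
  have hmH : Measurable H := (hG.comp measurable_snd).indicator hmA
  have hsec : ∀ F : V → ℝ, (fun c : ℝ => H (c, F)) =
      (Set.Ioc (F x₀ - 1) (F x₀)).indicator fun _ => G F := by
    intro F
    funext c
    have e : (c, F) ∈ A ↔ c ∈ Set.Ioc (F x₀ - 1) (F x₀) := by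
      simp only [hA, Set.mem_ofPred_eq, Set.mem_Ico, Set.mem_Ioc]
      constructor
      · rintro ⟨h1, h2⟩
        constructor <;> linarith
      · rintro ⟨h1, h2⟩
        constructor <;> linarith
    by_cases hc : c ∈ Set.Ioc (F x₀ - 1) (F x₀)
    · rw [Set.indicator_of_mem hc, hH, Set.indicator_of_mem (e.2 hc)]
    · rw [Set.indicator_of_notMem hc, hH, Set.indicator_of_notMem fun h => hc (e.1 h)]
  have hvol : ∀ F : V → ℝ, (volume : Measure ℝ).real (Set.Ioc (F x₀ - 1) (F x₀)) = 1 := by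
    intro F
    rw [Real.volume_real_Ioc_of_le (by linarith)]
    ring
  have hsecI : ∀ F : V → ℝ, ∫ c : ℝ, H (c, F) = G F := by
    intro F
    rw [hsec F, integral_indicator measurableSet_Ioc, setIntegral_const, hvol, one_smul]
  have hHi : Integrable H ((volume : Measure ℝ).prod (volume : Measure (V → ℝ))) := by
    rw [integrable_prod_iff' hmH.aestronglyMeasurable]
    constructor
    · refine Filter.Eventually.of_forall fun F => ?_
      rw [hsec F]
      exact (integrable_indicator_iff measurableSet_Ioc).2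
        (integrableOn_const (by simp) (by simp))
    · have e : (fun F : V → ℝ => ∫ c : ℝ, ‖H (c, F)‖) = fun F => ‖G F‖ := by
        funext F
        have e1 : (fun c : ℝ => ‖H (c, F)‖) =
            (Set.Ioc (F x₀ - 1) (F x₀)).indicator fun _ => ‖G F‖ := by
          funext c
          have := congrFun (hsec F) c
          rw [this, norm_indicator_eq_indicator_norm]
        show ∫ c : ℝ, (fun c : ℝ => ‖H (c, F)‖) c = _
        rw [e1, integral_indicator measurableSet_Ioc, setIntegral_const, hvol, one_smul]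
      rw [e]
      exact hi.norm
  -- the shear
  have hS : MeasurePreserving (fun p : ℝ × (V → ℝ) => (p.1, fun x => p.2 x + p.1))
      ((volume : Measure ℝ).prod (volume : Measure (V → ℝ)))
      ((volume : Measure ℝ).prod (volume : Measure (V → ℝ))) := by
    refine (MeasurePreserving.id (volume : Measure ℝ)).skew_product
      (g := fun (c : ℝ) (F : V → ℝ) => fun x => F x + c) ?_ ?_
    · refine measurable_pi_lambda _ fun x => ?_
      exact ((measurable_pi_apply x).comp measurable_snd).add measurable_fst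
    · exact Filter.Eventually.of_forall fun c =>
        (measurePreserving_add_right (volume : Measure (V → ℝ)) fun _ => c).map_eq
  set S : ℝ × (V → ℝ) → ℝ × (V → ℝ) := fun p => (p.1, fun x => p.2 x + p.1) with hSdef
  have hKi : Integrable (H ∘ S) ((volume : Measure ℝ).prod (volume : Measure (V → ℝ))) :=
    (hS.integrable_comp hHi.aestronglyMeasurable).2 hHi
  have hKe : ∀ p : ℝ × (V → ℝ), (H ∘ S) p = (slab x₀).indicator
      (fun F : V → ℝ => G fun x => F x + p.1) p.2 := by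
    rintro ⟨c, F⟩
    have e : S (c, F) ∈ A ↔ F ∈ slab x₀ := by
      show (F x₀ + c) - c ∈ Set.Ico (0 : ℝ) 1 ↔ F x₀ ∈ Set.Ico (0 : ℝ) 1
      rw [add_sub_cancel_right]
    by_cases hF : F ∈ slab x₀
    · rw [Set.indicator_of_mem hF, Function.comp_apply, hH, Set.indicator_of_mem (e.2 hF)]
    · rw [Set.indicator_of_notMem hF, Function.comp_apply, hH,
        Set.indicator_of_notMem fun h => hF (e.1 h)]
  have h1 : ∫ p, (H ∘ S) p ∂((volume : Measure ℝ).prod (volume : Measure (V → ℝ))) =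
      ∫ p, H p ∂((volume : Measure ℝ).prod (volume : Measure (V → ℝ))) := by
    have h2 := integral_map hS.measurable.aemeasurable (f := H)
      (by rw [hS.map_eq]; exact hHi.aestronglyMeasurable)
    rw [hS.map_eq] at h2
    exact h2.symm
  rw [integral_prod_symm _ hKi, integral_prod_symm _ hHi] at h1
  simp only [hsecI] at h1
  rw [← h1]
  unfold SI
  rw [← integral_indicator (measurableSet_slab x₀)]
  refine integral_congr_ae (Filter.Eventually.of_forall fun F => ?_)
  simp only [hKe]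
  by_cases hF : F ∈ slab x₀
  · rw [Set.indicator_of_mem hF]
    simp only [Set.indicator_of_mem hF]
  · rw [Set.indicator_of_notMem hF]
    simp only [Set.indicator_of_notMem hF, integral_zero]

/-! ### scalar mass -/

lemma mf_one {t : ℝ} (ht : 0 < t) : MF (t • (1 : Matrix V V ℝ)) t where
  symm := by rw [transpose_smul, transpose_one]
  row x := by
    simp only [Matrix.smul_apply, Matrix.one_apply, smul_eq_mul, mul_ite, mul_one, mul_zero]
    simp
  coer := ⟨t, ht, fun u => by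
    have h1 : qf (t • (1 : Matrix V V ℝ)) u = t * ∑ x, u x ^ 2 := by
      rw [H37.qf_eq, Matrix.smul_mulVec, Matrix.one_mulVec, dotProduct_smul, smul_eq_mul]
      congr 1
      exact Finset.sum_congr rfl fun x _ => (pow_two (u x)).symm
    rw [h1]⟩

lemma qf_ntr_one (t : ℝ) (F : V → ℝ) :
    qf (ntr (t • (1 : Matrix V V ℝ)) t) F =
      t * ∑ x, F x ^ 2 - t * (∑ x, F x) ^ 2 / Fintype.card V := by
  have h2 := H963.qf_ntr (t • (1 : Matrix V V ℝ)) t F
  have h1 : qf (t • (1 : Matrix V V ℝ)) F = t * ∑ x, F x ^ 2 := by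
    rw [H37.qf_eq, Matrix.smul_mulVec, Matrix.one_mulVec, dotProduct_smul, smul_eq_mul]
    congr 1
    exact Finset.sum_congr rfl fun x _ => (pow_two (F x)).symm
  rw [h1] at h2
  have h3 : t / Fintype.card V * (∑ x, F x) ^ 2 = t * (∑ x, F x) ^ 2 / Fintype.card V := by ring
  linarith

lemma line_gauss {t : ℝ} (ht : 0 < t) (F : V → ℝ) :
    ∫ c : ℝ, Real.exp (-(t * (∑ x, (F x + c) ^ 2) / 2)) =
      kap V t * E0g (t • (1 : Matrix V V ℝ)) t F := by
  have hN : (0 : ℝ) < Fintype.card V := Nat.cast_pos.2 Fintype.card_pos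
  set n : ℝ := (Fintype.card V : ℝ) with hn
  set a : ℝ := (∑ x, F x) / n with ha
  have e : ∀ c : ℝ, Real.exp (-(t * (∑ x, (F x + c) ^ 2) / 2)) =
      E0g (t • (1 : Matrix V V ℝ)) t F * Real.exp (-(t * n / 2) * (c + a) ^ 2) := by
    intro c
    unfold E0g
    rw [← Real.exp_add]
    congr 1
    rw [qf_ntr_one]
    have h1 : ∑ x, (F x + c) ^ 2 = ∑ x, F x ^ 2 + 2 * c * ∑ x, F x + n * c ^ 2 := by
      have : ∀ x, (F x + c) ^ 2 = F x ^ 2 + 2 * c * F x + c ^ 2 := fun x => by ring
      simp only [this, Finset.sum_add_distrib, ← Finset.mul_sum, Finset.sum_const,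
        Finset.card_univ, nsmul_eq_mul, hn]
    rw [h1, ha, ← hn]
    field_simp
    ring
  simp only [e]
  rw [integral_const_mul, integral_add_right_eq_self (fun c => Real.exp (-(t * n / 2) * c ^ 2)) a,
    integral_gaussian]
  unfold kap
  rw [mul_comm]
  congr 2
  rw [← hn]
  field_simp

/-- integrals of functions invariant under constants against a Gaussian of variance `1/t` -/
theorem SI_E0g {t : ℝ} (ht : 0 < t) (x₀ : V) {Φ : (V → ℝ) → ℝ} (hc : CI Φ) (hx : XG Φ) :
    SI x₀ (fun F => Φ F * E0g (t • (1 : Matrix V V ℝ)) t F) =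
      (Gs (t • (1 : Matrix V V ℝ)) t x₀) * ∫ g, Φ ((√t)⁻¹ • g) ∂(gau V) := by
  -- general identity
  have key : ∀ {Φ : (V → ℝ) → ℝ}, CI Φ → XG Φ →
      kap V t * SI x₀ (fun F => Φ F * E0g (t • (1 : Matrix V V ℝ)) t F) =
        ∫ F : V → ℝ, Φ F * Real.exp (-(t * (∑ x, F x ^ 2) / 2)) := by
    intro Φ hc hx
    obtain ⟨hm, C, hC, hb⟩ := hx
    have hmG : Measurable fun F : V → ℝ => Φ F * Real.exp (-(t * (∑ x, F x ^ 2) / 2)) :=
      hm.mul (by fun_prop)
    have hi : Integrable fun F : V → ℝ => Φ F * Real.exp (-(t * (∑ x, F x ^ 2) / 2)) := by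
      have hg := ((integrable_gsq (V := V) (a := t / 4) (by positivity)).const_mul
        (C * Real.exp (Fintype.card V * (C ^ 2 / t))))
      refine hg.mono' hmG.aestronglyMeasurable (Filter.Eventually.of_forall fun F => ?_)
      rw [Real.norm_eq_abs, abs_mul, abs_of_pos (Real.exp_pos _)]
      have h2 : C * ∑ x, |F x| ≤ t / 4 * ∑ x, F x ^ 2 + Fintype.card V * (C ^ 2 / t) := by
        have h3 : ∑ x, C * |F x| ≤ ∑ x, (t / 4 * F x ^ 2 + C ^ 2 / t) := by
          refine Finset.sum_le_sum fun x _ => ?_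
          have h4 : 0 ≤ (t / 2 * |F x| - C) ^ 2 / t := by positivity
          have h5 : (t / 2 * |F x| - C) ^ 2 / t = t / 4 * F x ^ 2 - C * |F x| + C ^ 2 / t := by
            rw [← sq_abs (F x)]
            field_simp
            ring
          linarith
        rw [← Finset.mul_sum, Finset.sum_add_distrib, ← Finset.mul_sum, Finset.sum_const,
          Finset.card_univ, nsmul_eq_mul] at h3
        exact h3
      calc |Φ F| * Real.exp (-(t * (∑ x, F x ^ 2) / 2))
          ≤ (C * Real.exp (C * ∑ x, |F x|)) * Real.exp (-(t * (∑ x, F x ^ 2) / 2)) :=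
            mul_le_mul_of_nonneg_right (hb F) (Real.exp_pos _).le
        _ = C * Real.exp (C * ∑ x, |F x| + -(t * (∑ x, F x ^ 2) / 2)) := by
            rw [mul_assoc, ← Real.exp_add]
        _ ≤ C * Real.exp (Fintype.card V * (C ^ 2 / t) + -(t / 4 * ∑ x, F x ^ 2)) := by
            refine mul_le_mul_of_nonneg_left (Real.exp_le_exp.2 ?_) hC
            linarith
        _ = _ := by rw [Real.exp_add]; ring
    rw [← SI_line hmG hi x₀]
    unfold SI
    rw [← integral_const_mul]
    refine integral_congr_ae (Filter.Eventually.of_forall fun F => ?_)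
    simp only [hc F]
    rw [integral_const_mul, line_gauss ht]
    ring
  have hk := kap_pos (V := V) ht
  have hG := Gs_pos (mf_one (V := V) ht) x₀
  have k1 := key hc hx
  have k2 := key (Φ := fun _ => (1 : ℝ)) (fun _ _ => rfl) (XG.const 1)
  simp only [one_mul] at k2
  have g1 := gau_scaled ht Φ
  have g2 := gau_scaled ht (I := V) fun _ => (1 : ℝ)
  simp only [one_mul, integral_const, probReal_univ, smul_eq_mul, mul_one] at g2
  rw [← k1] at g1
  rw [← k2] at g2
  have hGs : SI x₀ (fun F : V → ℝ => E0g (t • (1 : Matrix V V ℝ)) t F) =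
      Gs (t • (1 : Matrix V V ℝ)) t x₀ := rfl
  rw [hGs] at g2
  rw [g1]
  set S := SI x₀ (fun F => Φ F * E0g (t • (1 : Matrix V V ℝ)) t F)
  set c := (√t * (√(2 * Real.pi))⁻¹) ^ Fintype.card V
  calc S = 1 * S := (one_mul _).symm
    _ = (c * (kap V t * Gs (t • (1 : Matrix V V ℝ)) t x₀)) * S := by rw [← g2]
    _ = _ := by ring

/-- **the law `ν` at scalar mass: pinned heights plus white noise of variance `1/t`** -/
theorem Enu_gau {t : ℝ} (ht : 0 < t) (hw : BW w) (x₀ : V) {Φ : (V → ℝ) → ℝ} (hc : CI Φ)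
    (hx : XG Φ) :
    Summable (fun h => pin w x₀ h * ∫ g, Φ (re h + (√t)⁻¹ • g) ∂(gau V)) ∧
    Enu w (t • (1 : Matrix V V ℝ)) x₀ Φ =
      (∑' h, pin w x₀ h * ∫ g, Φ (re h + (√t)⁻¹ • g) ∂(gau V)) / Zp w x₀ := by
  have hM := mf_one (V := V) ht
  have hx' := hx
  obtain ⟨hm, C, hC, hb⟩ := hx'
  obtain ⟨h1, h2, h3⟩ := hw.SI_Zn_gen hM x₀ hc hm hb
  have hG := Gs_pos hM x₀
  have e : ∀ h : V → ℤ, SI x₀ (fun F => Φ (F + re h) * E0g (t • (1 : Matrix V V ℝ)) t F) =
      Gs (t • (1 : Matrix V V ℝ)) t x₀ * ∫ g, Φ (re h + (√t)⁻¹ • g) ∂(gau V) := by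
    intro h
    have hxs : XG fun F : V → ℝ => Φ (F + re h) := by
      have := hx.shift (re h)
      refine (funext fun F => ?_ : (fun F : V → ℝ => Φ (re h + F)) = fun F => Φ (F + re h)) ▸ this
      rw [add_comm]
    rw [SI_E0g ht x₀ (hc.shift (re h)) hxs]
    congr 1
    refine integral_congr_ae (Filter.Eventually.of_forall fun g => ?_)
    simp only
    rw [add_comm]
  simp only [e] at h2 h3
  have e2 : ∀ h : V → ℤ, pin w x₀ h * (Gs (t • (1 : Matrix V V ℝ)) t x₀ *
      ∫ g, Φ (re h + (√t)⁻¹ • g) ∂(gau V)) = Gs (t • (1 : Matrix V V ℝ)) t x₀ *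
      (pin w x₀ h * ∫ g, Φ (re h + (√t)⁻¹ • g) ∂(gau V)) := fun h => by ring
  simp only [e2] at h2 h3
  refine ⟨?_, ?_⟩
  · have := h2.mul_left (Gs (t • (1 : Matrix V V ℝ)) t x₀)⁻¹
    refine this.congr fun h => ?_
    rw [← mul_assoc, inv_mul_cancel₀ hG.ne', one_mul]
  · unfold Enu
    rw [h3, (hw.SI_Zn hM x₀).2, tsum_mul_left]
    unfold cI
    have hk := (kap_pos (V := V) ht).ne'
    have hZ := (hw.Zp_pos x₀).ne'
    have hG' := hG.ne'
    field_simp

/-! ### two levels -/

/-- **joint law of two levels**: `F` and `F - B g`, `g` independent of `F` -/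
theorem Enu_joint (h : Chn M M' B K) (hw : BW w) (hM : MF M m) (hM' : MF M' m') (x₀ : V)
    {Φ Φ' : (V → ℝ) → ℝ} (hΦ : CI Φ) (hΦ' : CI Φ') (hx : XG Φ) (hx' : XG Φ') :
    IN w M' x₀ (fun f => Φ' f * EF w M B Φ f) ∧
    Enu w M' x₀ (fun f => Φ' f * EF w M B Φ f) =
      ∫ g, Enu w M x₀ (fun F => Φ' (F - B *ᵥ g) * Φ F) ∂(gau I) := by
  have hc := H896.cN_pos (B := B) h.nn
  obtain ⟨-, -, k3⟩ := SI_avg (hw.ci M) (hw.contZn hM).measurable x₀ (hw.SI_Zn hM x₀).1 B
  have k4 : SI x₀ (Zn w M) = cN M B * SI x₀ (Zn w M') := by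
    rw [← k3]
    simp only [hw.chn_Zn h hM hM']
    unfold SI
    rw [integral_const_mul]
  have e : ∀ f, Φ' f * EF w M B Φ f * Zn w M' f =
      (cN M B)⁻¹ * ∫ g, Φ' f * (Φ (f + B *ᵥ g) * Zn w M (f + B *ᵥ g)) ∂(gau I) := by
    intro f
    unfold EF
    rw [hw.chn_Zn h hM hM', integral_const_mul]
    have := (hw.Zn_pos hM' f).ne'
    field_simp
  -- joint integrability
  have hme : Measurable fun p : (V → ℝ) × (I → ℝ) =>
      Φ' p.1 * (Φ (p.1 + B *ᵥ p.2) * Zn w M (p.1 + B *ᵥ p.2)) :=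
    (hx'.1.comp measurable_fst).mul ((meas_joint hx.1).mul
      (meas_joint (hw.contZn hM).measurable))
  have t2 := prod_slab (H := fun F => Φ F ^ 2 * Zn w M F) ((hΦ.comp fun r => r ^ 2).mul (hw.ci M))
    ((hx.1.pow_const 2).mul (hw.contZn hM).measurable) x₀
    ((hx.pow 2).in_ (hΦ.comp fun r => r ^ 2) hw hM x₀) B
  have t1 : Integrable (fun p : (V → ℝ) × (I → ℝ) => Φ' p.1 ^ 2 * Zn w M (p.1 + B *ᵥ p.2))
      ((volume.restrict (slab x₀)).prod (gau I)) := by
    have hme1 : Measurable fun p : (V → ℝ) × (I → ℝ) => Φ' p.1 ^ 2 * Zn w M (p.1 + B *ᵥ p.2) :=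
      ((hx'.1.comp measurable_fst).pow_const 2).mul (meas_joint (hw.contZn hM).measurable)
    rw [integrable_prod_iff hme1.aestronglyMeasurable]
    constructor
    · exact Filter.Eventually.of_forall fun f => (hw.chn_Zn_int h hM hM' f).const_mul (Φ' f ^ 2)
    · have e1 : (fun f : V → ℝ => ∫ g, ‖Φ' f ^ 2 * Zn w M (f + B *ᵥ g)‖ ∂(gau I)) =
          fun f => cN M B * (Φ' f ^ 2 * Zn w M' f) := by
        funext f
        have e2 : ∀ g : I → ℝ, ‖Φ' f ^ 2 * Zn w M (f + B *ᵥ g)‖ =
            Φ' f ^ 2 * Zn w M (f + B *ᵥ g) := fun g => by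
          rw [Real.norm_eq_abs, abs_of_nonneg (mul_nonneg (sq_nonneg _) (hw.Zn_pos hM _).le)]
        simp only [e2]
        rw [integral_const_mul, hw.chn_Zn h hM hM']
        ring
      show Integrable (fun f : V → ℝ => ∫ g, ‖Φ' f ^ 2 * Zn w M (f + B *ᵥ g)‖ ∂(gau I)) _
      rw [e1]
      exact Integrable.const_mul ((hx'.pow 2).in_ (hΦ'.comp fun r => r ^ 2) hw hM' x₀) _
  have hprod : Integrable (fun p : (V → ℝ) × (I → ℝ) =>
      Φ' p.1 * (Φ (p.1 + B *ᵥ p.2) * Zn w M (p.1 + B *ᵥ p.2)))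
      ((volume.restrict (slab x₀)).prod (gau I)) := by
    refine (t1.add t2).mono' hme.aestronglyMeasurable (Filter.Eventually.of_forall fun p => ?_)
    simp only [Pi.add_apply]
    have hz := (hw.Zn_pos hM (p.1 + B *ᵥ p.2)).le
    rw [Real.norm_eq_abs, abs_mul, abs_mul, abs_of_nonneg hz, ← mul_assoc, ← add_mul]
    refine mul_le_mul_of_nonneg_right ?_ hz
    nlinarith [sq_nonneg (|Φ' p.1| - |Φ (p.1 + B *ᵥ p.2)|), sq_abs (Φ' p.1),
      sq_abs (Φ (p.1 + B *ᵥ p.2)), sq_nonneg (|Φ' p.1|), sq_nonneg (|Φ (p.1 + B *ᵥ p.2)|)]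
  have hsh : ∀ g : I → ℝ,
      ∫ f in slab x₀, Φ' f * (Φ (f + B *ᵥ g) * Zn w M (f + B *ᵥ g)) =
        SI x₀ fun F => Φ' (F - B *ᵥ g) * Φ F * Zn w M F := by
    intro g
    have hci : CI fun F : V → ℝ => Φ' (F - B *ᵥ g) * Φ F * Zn w M F := by
      have h1 := ((hΦ'.shift (-(B *ᵥ g))).mul hΦ).mul (hw.ci M)
      simpa only [sub_eq_add_neg] using h1
    rw [← SI_shift hci x₀ (B *ᵥ g)]
    unfold SI
    refine integral_congr_ae (Filter.Eventually.of_forall fun f => ?_)
    simp only [add_sub_cancel_right]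
    ring
  refine ⟨?_, ?_⟩
  · unfold IN
    simp only [e]
    exact Integrable.const_mul hprod.integral_prod_left _
  · unfold Enu
    simp only [e]
    rw [k4]
    have h5 : SI x₀ (fun f => (cN M B)⁻¹ *
        ∫ g, Φ' f * (Φ (f + B *ᵥ g) * Zn w M (f + B *ᵥ g)) ∂(gau I)) =
        (cN M B)⁻¹ * ∫ g, SI x₀ (fun F => Φ' (F - B *ᵥ g) * Φ F * Zn w M F) ∂(gau I) := by
      unfold SI
      rw [integral_const_mul]
      congr 1
      rw [integral_integral_swap (f := fun (f : V → ℝ) (g : I → ℝ) =>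
        Φ' f * (Φ (f + B *ᵥ g) * Zn w M (f + B *ᵥ g))) hprod]
      refine integral_congr_ae (Filter.Eventually.of_forall fun g => ?_)
      simp only
      exact hsh g
    rw [h5, integral_div]
    have hS := (hw.SI_Zn_pos hM' x₀).ne'
    field_simp

/-- **the law of the next level is the convolution with the noise** -/
theorem Enu_conv (h : Chn M M' B K) (hw : BW w) (hM : MF M m) (hM' : MF M' m') (x₀ : V)
    {Φ : (V → ℝ) → ℝ} (hΦ : CI Φ) (hx : XG Φ) :
    Enu w M' x₀ Φ = ∫ g, Enu w M x₀ (fun F => Φ (F - B *ᵥ g)) ∂(gau I) := by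
  have h1 := (Enu_joint h hw hM hM' x₀ (Φ := fun _ => 1) (Φ' := Φ) (fun _ _ => rfl) hΦ
    (XG.const 1) hx).2
  have e1 : ∀ f : V → ℝ, EF w M B (fun _ => 1) f = 1 := by
    intro f
    unfold EF
    simp only [one_mul]
    exact div_self (den_pos h hw hM hM' f).ne'
  simp only [e1, mul_one] at h1
  exact h1

/-! ### integer partition functions -/

/-- integer version of the ratio -/
def PsiZ (w wD : (V → ℤ) → ℝ) (M : Matrix V V ℝ) (φ F : V → ℝ) : ℝ := ZM wD M (φ + F) / ZM w M F

/-- conditional expectation of the integer model -/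
def EFZ (w : (V → ℤ) → ℝ) (M : Matrix V V ℝ) (B : Matrix V I ℝ) (Φ : (V → ℝ) → ℝ) (f : V → ℝ) : ℝ :=
  (∫ g, Φ (f + B *ᵥ g) * ZM w M (f + B *ᵥ g) ∂(gau I)) / ∫ g, ZM w M (f + B *ᵥ g) ∂(gau I)

/-- tower property of the integer ratio -/
theorem PsiZ_tower (h : Chn M M' B K) (hw : BW w) (hD : BW wD) (hM : MF M m) (hM' : MF M' m')
    (φ f : V → ℝ) : EFZ w M B (PsiZ w wD M φ) f = PsiZ w wD M' φ f := by
  have e1 : ∀ F : V → ℝ, PsiZ w wD M φ F * ZM w M F = ZM wD M (φ + F) := fun F =>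
    div_mul_cancel₀ _ (hw.ZM_pos hM F).ne'
  unfold EFZ
  simp only [e1, ← add_assoc]
  rw [H896.chn_ZM h (hD.em hM'), H896.chn_ZM h (hw.em hM')]
  unfold PsiZ
  rw [mul_div_mul_left _ _ (H896.cN_pos (B := B) h.nn).ne']

end

end Vale.Agent.P159.H883
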