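import Vale.Agent.P159.H883.Sin
import Vale.Agent.P159.H114.Joint

/-!
P159 / P#3 (helper883), part 2: the residual `res` of the sine after projection on the linear
functions, its covariance, fourth moments, and the comparison with a law of density `ρ` close to one
in `L²`.
-/

namespace Vale.Agent.P159.H883

open MeasureTheory ProbabilityTheory Finset Matrix
open Vale.Agent.P159.H37 (gau qf gau_exp gau_exp_mul gau_shift integrable_exp_norm)
open scoped Real

noncomputable section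

variable {I : Type*} [Fintype I]

/-! ### functions of exponential growth -/

/-- measurable, of exponential growth -/
def XG (f : (I → ℝ) → ℝ) : Prop :=
  Measurable f ∧ ∃ C : ℝ, 0 ≤ C ∧ ∀ g, |f g| ≤ C * Real.exp (C * ∑ i, |g i|)

lemma sabs_nonneg (g : I → ℝ) : 0 ≤ ∑ i, |g i| := Finset.sum_nonneg fun _ _ => abs_nonneg _

lemma XG.meas {f : (I → ℝ) → ℝ} (h : XG f) : Measurable f := h.1

lemma XG.int {f : (I → ℝ) → ℝ} (h : XG f) : Integrable f (gau I) := by
  obtain ⟨hm, C, _, hb⟩ := h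
  exact ((integrable_exp_norm (I := I) C).const_mul C).mono' hm.aestronglyMeasurable
    (Filter.Eventually.of_forall fun g => by rw [Real.norm_eq_abs]; exact hb g)

lemma XG.of_bdd {f : (I → ℝ) → ℝ} (hm : Measurable f) {C : ℝ} (h : ∀ g, |f g| ≤ C) : XG f := by
  refine ⟨hm, |C|, abs_nonneg _, fun g => (h g).trans ?_⟩
  have h1 : 1 ≤ Real.exp (|C| * ∑ i, |g i|) :=
    Real.one_le_exp (mul_nonneg (abs_nonneg _) (sabs_nonneg g))
  nlinarith [le_abs_self C, abs_nonneg C]

lemma XG.const (c : ℝ) : XG fun _ : I → ℝ => c := XG.of_bdd measurable_const (C := |c|) fun _ => le_rfl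

lemma XG.mul {f f' : (I → ℝ) → ℝ} (h : XG f) (h' : XG f') : XG fun g => f g * f' g := by
  obtain ⟨hm, C, hC, hb⟩ := h
  obtain ⟨hm', C', hC', hb'⟩ := h'
  refine ⟨hm.mul hm', C * C' + (C + C'), by positivity, fun g => ?_⟩
  have hs := sabs_nonneg g
  rw [abs_mul]
  refine (mul_le_mul (hb g) (hb' g) (abs_nonneg _) (by positivity)).trans ?_
  have e : C * Real.exp (C * ∑ i, |g i|) * (C' * Real.exp (C' * ∑ i, |g i|))
      = (C * C') * Real.exp ((C + C') * ∑ i, |g i|) := by
    rw [add_mul, Real.exp_add]; ring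
  rw [e]
  refine mul_le_mul (by linarith) (Real.exp_le_exp.2 ?_) (Real.exp_pos _).le (by positivity)
  exact mul_le_mul_of_nonneg_right (by nlinarith [mul_nonneg hC hC']) hs

lemma XG.add {f f' : (I → ℝ) → ℝ} (h : XG f) (h' : XG f') : XG fun g => f g + f' g := by
  obtain ⟨hm, C, hC, hb⟩ := h
  obtain ⟨hm', C', hC', hb'⟩ := h'
  refine ⟨hm.add hm', C + C', by positivity, fun g => ?_⟩
  have hs := sabs_nonneg g
  refine (abs_add_le _ _).trans ((add_le_add (hb g) (hb' g)).trans ?_)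
  have e1 : Real.exp (C * ∑ i, |g i|) ≤ Real.exp ((C + C') * ∑ i, |g i|) :=
    Real.exp_le_exp.2 (mul_le_mul_of_nonneg_right (by linarith) hs)
  have e2 : Real.exp (C' * ∑ i, |g i|) ≤ Real.exp ((C + C') * ∑ i, |g i|) :=
    Real.exp_le_exp.2 (mul_le_mul_of_nonneg_right (by linarith) hs)
  rw [add_mul C C' (Real.exp _)]
  exact add_le_add (mul_le_mul_of_nonneg_left e1 hC) (mul_le_mul_of_nonneg_left e2 hC')

lemma XG.const_mul {f : (I → ℝ) → ℝ} (c : ℝ) (h : XG f) : XG fun g => c * f g :=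
  (XG.const c).mul h

lemma XG.neg {f : (I → ℝ) → ℝ} (h : XG f) : XG fun g => -f g := by
  have := h.const_mul (-1)
  simpa using this

lemma XG.sub {f f' : (I → ℝ) → ℝ} (h : XG f) (h' : XG f') : XG fun g => f g - f' g := by
  have := h.add h'.neg
  simpa [sub_eq_add_neg] using this

lemma XG.pow {f : (I → ℝ) → ℝ} (h : XG f) (n : ℕ) : XG fun g => f g ^ n := by
  induction n with
  | zero => simpa using XG.const (I := I) 1
  | succ n ih => simpa only [pow_succ] using ih.mul h

lemma XG.sum {ι : Type*} (s : Finset ι) {F : ι → (I → ℝ) → ℝ} (h : ∀ i ∈ s, XG (F i)) :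
    XG fun g => ∑ i ∈ s, F i g := by
  classical
  induction s using Finset.induction_on with
  | empty => simpa using XG.const (I := I) 0
  | insert a s ha ih =>
    simp only [Finset.sum_insert ha]
    exact (h a (Finset.mem_insert_self a s)).add
      (ih fun i hi => h i (Finset.mem_insert_of_mem hi))

lemma xg_ln (v : I → ℝ) : XG fun g => ln v g := by
  have hA : 0 ≤ ∑ i, |v i| := Finset.sum_nonneg fun _ _ => abs_nonneg _
  refine ⟨measurable_ln v, (∑ i, |v i|) + 1, by positivity, fun g => ?_⟩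
  have hs := sabs_nonneg g
  refine (abs_ln_le v g).trans ?_
  have h1 : ∑ i, |g i| ≤ Real.exp (((∑ i, |v i|) + 1) * ∑ i, |g i|) := by
    have h2 := Real.add_one_le_exp (((∑ i, |v i|) + 1) * ∑ i, |g i|)
    nlinarith [mul_nonneg hA hs]
  exact mul_le_mul (by linarith) h1 hs (by positivity)

lemma xg_sin (v : I → ℝ) : XG fun g => Real.sin (ln v g) :=
  XG.of_bdd (Real.measurable_sin.comp (measurable_ln v)) (C := 1) fun _ => Real.abs_sin_le_one _

lemma xg_sin2 (v : I → ℝ) : XG fun g => Real.sin (2 * π * ln v g) := by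
  have h := xg_sin ((2 * π) • v)
  simpa only [ln_smul_left] using h

/-! ### the residual -/

/-- `sin (2π <b,g>)` minus its projection on the linear functions -/
def res (b g : I → ℝ) : ℝ :=
  Real.sin (2 * π * ln b g) - 2 * π * Real.exp (-(2 * π ^ 2 * ln b b)) * ln b g

/-- the kernel of the residual -/
def rk (p q r : ℝ) : ℝ :=
  Real.exp (-(2 * π ^ 2 * (p + q))) * (Real.sinh (4 * π ^ 2 * r) - 4 * π ^ 2 * r)

lemma xg_res (b : I → ℝ) : XG (res b) :=
  (xg_sin2 b).sub ((xg_ln b).const_mul _)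

lemma gau_ln_ln (u v : I → ℝ) : ∫ g, ln u g * ln v g ∂(gau I) = ln u v :=
  H114.gau_cov u v

lemma gau_sin2_ln (b v : I → ℝ) : ∫ g, Real.sin (2 * π * ln b g) * ln v g ∂(gau I)
    = 2 * π * Real.exp (-(2 * π ^ 2 * ln b b)) * ln b v := by
  have h := gau_sin_lin ((2 * π) • b) v
  simp only [ln_smul_left, ln_smul_right] at h
  rw [h]
  have e : -(2 * π * (2 * π * ln b b) / 2) = -(2 * π ^ 2 * ln b b) := by ring
  rw [e]
  ring

lemma gau_sin2_sin2 (b c : I → ℝ) :
    ∫ g, Real.sin (2 * π * ln b g) * Real.sin (2 * π * ln c g) ∂(gau I)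
      = Real.exp (-(2 * π ^ 2 * (ln b b + ln c c))) * Real.sinh (4 * π ^ 2 * ln b c) := by
  have h := gau_sin_sin ((2 * π) • b) ((2 * π) • c)
  simp only [ln_smul_left, ln_smul_right] at h
  rw [h]
  congr 2
  · ring
  · ring

/-- the residual is orthogonal to all linear functions -/
theorem res_ln (b v : I → ℝ) : ∫ g, res b g * ln v g ∂(gau I) = 0 := by
  have e : ∀ g : I → ℝ, res b g * ln v g = Real.sin (2 * π * ln b g) * ln v g
      - (2 * π * Real.exp (-(2 * π ^ 2 * ln b b))) * (ln b g * ln v g) := by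
    intro g
    unfold res
    ring
  simp only [e]
  rw [integral_sub ((xg_sin2 b).mul (xg_ln v)).int (((xg_ln b).mul (xg_ln v)).const_mul _).int,
    integral_const_mul, gau_sin2_ln, gau_ln_ln]
  ring

/-- covariance of the residuals -/
theorem res_res (b c : I → ℝ) : ∫ g, res b g * res c g ∂(gau I) = rk (ln b b) (ln c c) (ln b c) := by
  have e : ∀ g : I → ℝ, res b g * res c g = res b g * Real.sin (2 * π * ln c g)
      - (2 * π * Real.exp (-(2 * π ^ 2 * ln c c))) * (res b g * ln c g) := by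
    intro g
    conv_lhs => rw [show res c g = Real.sin (2 * π * ln c g)
      - 2 * π * Real.exp (-(2 * π ^ 2 * ln c c)) * ln c g from rfl]
    ring
  simp only [e]
  rw [integral_sub ((xg_res b).mul (xg_sin2 c)).int (((xg_res b).mul (xg_ln c)).const_mul _).int,
    integral_const_mul, res_ln, mul_zero, sub_zero]
  have e2 : ∀ g : I → ℝ, res b g * Real.sin (2 * π * ln c g)
      = Real.sin (2 * π * ln b g) * Real.sin (2 * π * ln c g)
        - (2 * π * Real.exp (-(2 * π ^ 2 * ln b b))) * (Real.sin (2 * π * ln c g) * ln b g) := by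
    intro g
    unfold res
    ring
  simp only [e2]
  rw [integral_sub ((xg_sin2 b).mul (xg_sin2 c)).int (((xg_sin2 c).mul (xg_ln b)).const_mul _).int,
    integral_const_mul, gau_sin2_sin2, gau_sin2_ln, ln_comm c b]
  unfold rk
  have e3 : -(2 * π ^ 2 * (ln b b + ln c c)) = -(2 * π ^ 2 * ln b b) + -(2 * π ^ 2 * ln c c) := by ring
  rw [e3, Real.exp_add]
  ring

/-! ### fourth moments -/

lemma four_le_cosh (x : ℝ) : x ^ 4 ≤ 24 * (Real.cosh x - 1 - x ^ 2 / 2) := by
  have hs := Real.hasSum_cosh x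
  have h1 := hs.summable.sum_le_tsum (Finset.range 3) (fun n _ => by
    rw [pow_mul]
    positivity)
  rw [hs.tsum_eq] at h1
  simp only [Finset.sum_range_succ, Finset.sum_range_zero] at h1
  norm_num [Nat.factorial] at h1
  linarith

lemma gau_cosh (v : I → ℝ) : ∫ g, Real.cosh (ln v g) ∂(gau I) = Real.exp (ln v v / 2) := by
  have e : ∀ g : I → ℝ, Real.cosh (ln v g)
      = (1 / 2) * Real.exp (∑ i, v i * g i) + (1 / 2) * Real.exp (∑ i, (-v) i * g i) := by
    intro g
    rw [Real.cosh_eq]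
    have : ∑ i, (-v) i * g i = -ln v g := by
      unfold ln
      simp [Finset.sum_neg_distrib]
    rw [this]
    unfold ln
    ring
  simp only [e]
  rw [integral_add ((H37.integrable_exp_lin v).const_mul _)
    ((H37.integrable_exp_lin (-v)).const_mul _), integral_const_mul, integral_const_mul, gau_exp,
    gau_exp, ln_self_eq]
  simp only [Pi.neg_apply, neg_sq]
  ring

lemma xg_cosh (v : I → ℝ) : XG fun g => Real.cosh (ln v g) := by
  refine ⟨Real.measurable_cosh.comp (measurable_ln v), (∑ i, |v i|) + 1, ?_, fun g => ?_⟩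
  · exact add_nonneg (sabs_nonneg v) zero_le_one
  · have hv := sabs_nonneg v
    have hs := sabs_nonneg g
    rw [abs_of_pos (Real.cosh_pos _), ← Real.cosh_abs]
    have h1 : Real.cosh |ln v g| ≤ Real.exp |ln v g| := by
      rw [Real.cosh_eq]
      have : Real.exp (-|ln v g|) ≤ Real.exp |ln v g| :=
        Real.exp_le_exp.2 (by linarith [abs_nonneg (ln v g)])
      linarith
    have h2 : Real.exp |ln v g| ≤ Real.exp (((∑ i, |v i|) + 1) * ∑ i, |g i|) :=
      Real.exp_le_exp.2 ((abs_ln_le v g).trans (mul_le_mul_of_nonneg_right (by linarith) hs))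
    nlinarith [Real.exp_pos (((∑ i, |v i|) + 1) * ∑ i, |g i|)]

lemma gau_four_one {v : I → ℝ} (hv : ln v v = 1) : ∫ g, ln v g ^ 4 ∂(gau I) ≤ 4 := by
  have h1 : ∫ g, ln v g ^ 4 ∂(gau I)
      ≤ ∫ g, 24 * (Real.cosh (ln v g) - 1 - (1 / 2) * (ln v g * ln v g)) ∂(gau I) := by
    refine integral_mono ((xg_ln v).pow 4).int ?_ fun g => ?_
    · exact ((((xg_cosh v).sub (XG.const 1)).sub (((xg_ln v).mul (xg_ln v)).const_mul _)).const_mul
        _).int
    · have := four_le_cosh (ln v g)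
      simp only
      linarith
  rw [integral_const_mul, integral_sub ((xg_cosh v).sub (XG.const 1)).int
    (((xg_ln v).mul (xg_ln v)).const_mul _).int, integral_sub (xg_cosh v).int (XG.const 1).int,
    integral_const_mul, gau_cosh, gau_ln_ln, hv] at h1
  simp only [integral_const, probReal_univ, smul_eq_mul, mul_one] at h1
  have h2 : Real.exp (1 / 2) ≤ 1.6488 := by
    have h3 : Real.exp (1 / 2) ^ 2 ≤ 1.6488 ^ 2 := by
      rw [← Real.exp_nat_mul]
      have := Real.exp_one_lt_d9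
      norm_num
      linarith
    exact le_of_sq_le_sq h3 (by norm_num)
  linarith

/-- `E <v,g>⁴ ≤ 4 |v|⁴` -/
lemma gau_four (v : I → ℝ) : ∫ g, ln v g ^ 4 ∂(gau I) ≤ 4 * ln v v ^ 2 := by
  rcases eq_or_lt_of_le (ln_self_nonneg v) with h0 | h0
  · have hv : v = 0 := by
      funext i
      have h1 : ∑ i, v i ^ 2 = 0 := by rw [← ln_self_eq, ← h0]
      have h2 := (Finset.sum_eq_zero_iff_of_nonneg fun i _ => sq_nonneg (v i)).1 h1 i
        (Finset.mem_univ i)
      simpa using h2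
    subst hv
    simp [ln_zero_left]
  · set s := Real.sqrt (ln v v) with hs
    have hs0 : 0 < s := Real.sqrt_pos.2 h0
    have hs2 : s ^ 2 = ln v v := Real.sq_sqrt h0.le
    have hw : ln (s⁻¹ • v) (s⁻¹ • v) = 1 := by
      rw [ln_smul_left, ln_smul_right, ← hs2]
      field_simp
    have h1 := gau_four_one hw
    simp only [ln_smul_left, mul_pow] at h1
    rw [integral_const_mul] at h1
    have h3 : s ^ 4 = ln v v ^ 2 := by rw [← hs2]; ring
    have h4 : 0 < s ^ 4 := by positivity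
    have h5 : s⁻¹ ^ 4 * ∫ g, ln v g ^ 4 ∂(gau I) ≤ 4 := h1
    have h6 : ∫ g, ln v g ^ 4 ∂(gau I) = s ^ 4 * (s⁻¹ ^ 4 * ∫ g, ln v g ^ 4 ∂(gau I)) := by
      field_simp
    rw [h6, ← h3]
    nlinarith

lemma xexp_le {x : ℝ} (hx : 0 ≤ x) : x * Real.exp (-x) ≤ 1 / 2 := by
  have h1 : 2 * x ≤ Real.exp x := by
    have := Real.quadratic_le_exp_of_nonneg hx
    nlinarith [sq_nonneg (x - 1)]
  rw [Real.exp_neg, ← div_eq_mul_inv, div_le_iff₀ (Real.exp_pos _)]
  linarith

/-- `E res⁴ ≤ 16` -/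
lemma res_four (b : I → ℝ) : ∫ g, res b g ^ 4 ∂(gau I) ≤ 16 := by
  set c : ℝ := 2 * π * Real.exp (-(2 * π ^ 2 * ln b b)) with hc
  have hc2 : c ^ 2 * ln b b ≤ 1 / 2 := by
    have h0 : 0 ≤ 4 * π ^ 2 * ln b b := mul_nonneg (by positivity) (ln_self_nonneg b)
    have h1 := xexp_le h0
    have e : Real.exp (-(2 * π ^ 2 * ln b b)) ^ 2 = Real.exp (-(4 * π ^ 2 * ln b b)) := by
      rw [← Real.exp_nat_mul]
      congr 1
      push_cast
      ring
    rw [hc, mul_pow, mul_pow, e]
    calc 2 ^ 2 * π ^ 2 * Real.exp (-(4 * π ^ 2 * ln b b)) * ln b b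
        = 4 * π ^ 2 * ln b b * Real.exp (-(4 * π ^ 2 * ln b b)) := by ring
      _ ≤ 1 / 2 := h1
  have hpt : ∀ g : I → ℝ, res b g ^ 4 ≤ 8 + 8 * c ^ 4 * ln b g ^ 4 := by
    intro g
    unfold res
    rw [← hc]
    set s := Real.sin (2 * π * ln b g)
    set y := c * ln b g with hy
    have hs : s ^ 2 ≤ 1 := by
      have := Real.sin_sq_le_one (2 * π * ln b g)
      exact this
    have h4 : s ^ 4 ≤ 1 := by nlinarith [sq_nonneg s]
    have h5 : (s - y) ^ 2 ≤ 2 * s ^ 2 + 2 * y ^ 2 := by nlinarith [sq_nonneg (s + y)]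
    have h6 : (s - y) ^ 4 ≤ 8 * s ^ 4 + 8 * y ^ 4 := by
      have h7 : (s - y) ^ 4 = ((s - y) ^ 2) ^ 2 := by ring
      rw [h7]
      have h8 := pow_le_pow_left₀ (sq_nonneg (s - y)) h5 2
      nlinarith [sq_nonneg (s ^ 2 - y ^ 2)]
    have h9 : 8 * c ^ 4 * ln b g ^ 4 = 8 * y ^ 4 := by rw [hy]; ring
    rw [h9]
    linarith
  have h1 : ∫ g, res b g ^ 4 ∂(gau I) ≤ ∫ g, (8 + 8 * c ^ 4 * ln b g ^ 4) ∂(gau I) :=
    integral_mono ((xg_res b).pow 4).int
      ((XG.const 8).add (((xg_ln b).pow 4).const_mul _)).int hpt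
  rw [integral_add (XG.const 8).int (((xg_ln b).pow 4).const_mul _).int, integral_const_mul] at h1
  simp only [integral_const, probReal_univ, smul_eq_mul, one_mul] at h1
  have h2 := gau_four b
  have h3 : 8 * c ^ 4 * ∫ g, ln b g ^ 4 ∂(gau I) ≤ 8 * c ^ 4 * (4 * ln b b ^ 2) :=
    mul_le_mul_of_nonneg_left h2 (by positivity)
  have h4 : 8 * c ^ 4 * (4 * ln b b ^ 2) = 32 * (c ^ 2 * ln b b) ^ 2 := by ring
  have h5 : (c ^ 2 * ln b b) ^ 2 ≤ (1 / 2) ^ 2 :=
    pow_le_pow_left₀ (mul_nonneg (sq_nonneg _) (ln_self_nonneg b)) hc2 2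
  rw [h4] at h3
  linarith

end

end Vale.Agent.P159.H883
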