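import Vale.Agent.P159.H883.Brg4
import Vale.Agent.P159.H686.GlueS

/-!
P159, module BRG (helper883), part 5: the law `nuM w M x₀` of the field modulo constants as a
probability measure, and SWIN with explicit outputs.
-/

set_option linter.unusedSectionVars false

namespace Vale.Agent.P159.H883

open Finset Matrix MeasureTheory ProbabilityTheory
open Vale.Agent.P159.TM.H104 (EM nh Gr li)
open Vale.Agent.P159.H37 (wM ZM qf bf Zn Un Rs Zs re gau Gm)
open Vale.Agent.P159.H963 (GrI pin MF ntr GW nM An)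
open Vale.Agent.P159.H896 (Chn cN)
open Vale.Agent.P159.H363 (law_integral_eq law_integral_eq_add measurable_mulVec)
open Vale.Agent.P159.H686 (fl mg tl pu wn InL mg_nonneg mg_meas mg_int int_mg wn_loc_le tl_L2 tl_L1
  tl_add tl_mean tl_meas wn_center_le wn_tl_loc_le wn_mono wn_add_le wn_nonneg)

noncomputable section

/-! ### SWIN, explicit outputs -/

section ex

variable {Ω₁ Ω₂ : Type*} [MeasurableSpace Ω₁] [MeasurableSpace Ω₂]
  {μ₁ : Measure Ω₁} {μ₂ : Measure Ω₂} [IsProbabilityMeasure μ₁] [IsProbabilityMeasure μ₂]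
  {W loc : Ω₁ × Ω₂ → ℝ} {B : Set (Ω₁ × Ω₂)} {η L : ℝ}

/-- `H686.swin_gen` with explicit outputs -/
theorem swin_ex (hW1 : ∀ p, 1 ≤ W p) (hWi : Integrable W (μ₁.prod μ₂)) (hB : MeasurableSet B)
    (hη0 : 0 ≤ η) (hη : ∀ p, p ∉ B → W p ≤ 1 + η) (hloc : Measurable loc)
    (hL0 : 0 ≤ L) (hL : ∀ p, |loc p| ≤ L) {m κ : ℝ} (hm : |m| ≤ L) (hκ0 : 0 ≤ κ)
    (hκ : √(∫ a, (pu μ₂ loc a - m) ^ 2 ∂μ₁) ≤ κ * √(∫ p, loc p ^ 2 ∂(μ₁.prod μ₂)))
    {u v e₂ e₁ : Ω₁ × Ω₂ → ℝ} {d e q q₀ b Z : ℝ} (hZ : Z = ∫ p, W p ∂(μ₁.prod μ₂))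
    (hdec : ∀ p, u p + v p = loc p + e₂ p + e₁ p)
    (hu : InL (μ₁.prod μ₂) W u) (hvm : AEStronglyMeasurable v (μ₁.prod μ₂))
    (hvi : Integrable (fun p => W p * |v p|) (μ₁.prod μ₂))
    (he2 : InL (μ₁.prod μ₂) W e₂) (he1m : AEStronglyMeasurable e₁ (μ₁.prod μ₂))
    (he1i : Integrable (fun p => W p * |e₁ p|) (μ₁.prod μ₂))
    (hd : wn (μ₁.prod μ₂) W u ≤ d * √Z) (hq₀ : ∫ p, W p * |v p| ∂(μ₁.prod μ₂) ≤ q₀ * Z)
    (he : wn (μ₁.prod μ₂) W e₂ ≤ e * √Z) (hq : ∫ p, W p * |e₁ p| ∂(μ₁.prod μ₂) ≤ q * Z)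
    (hb : ∫ p in B, W p ∂(μ₁.prod μ₂) ≤ b * Z)
    (hmean : ∫ p, W p * (u p + v p) ∂(μ₁.prod μ₂) = 0) :
    (∀ᵐ a ∂μ₁, tl μ₂ W (fun p => u p + v p) a =
      tl μ₂ W (fun p => loc p + e₂ p) a + tl μ₂ W e₁ a) ∧
      InL μ₁ (mg μ₂ W) (tl μ₂ W fun p => loc p + e₂ p) ∧
      Integrable (fun a => mg μ₂ W a * |tl μ₂ W e₁ a|) μ₁ ∧
      ∫ a, mg μ₂ W a * |tl μ₂ W e₁ a| ∂μ₁ ≤ q * Z ∧
      wn μ₁ (mg μ₂ W) (tl μ₂ W fun p => loc p + e₂ p)
        ≤ (√(1 + η) * (κ + 2 * η) * (d + e + √(L * (q₀ + q))) + (4 + 2 * η) * L * √b + e + q)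
          * √Z := by
  have hW0 : ∀ p, 0 ≤ W p := fun p => by linarith [hW1 p]
  have hw := mg_nonneg (μ₂ := μ₂) hW0
  have hwm := mg_meas (μ₁ := μ₁) (μ₂ := μ₂) hWi
  have hZ1 : 1 ≤ Z := by
    rw [hZ]
    exact Vale.Agent.P159.H363.one_le_intW hW1 hWi
  have hZ0 : 0 ≤ Z := by linarith
  obtain ⟨hI, hX⟩ := wn_loc_le hW1 hWi hloc hL0 hL hZ hdec hu hvm hvi he2 he1m he1i hd hq₀ he hq
  have hq0 : 0 ≤ q := by
    have : 0 ≤ q * Z := le_trans (integral_nonneg fun p => mul_nonneg (hW0 p) (abs_nonneg _)) hq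
    exact nonneg_of_mul_nonneg_left this (by linarith)
  have one_int : InL (μ₁.prod μ₂) W (fun _ => (1 : ℝ)) := InL.const hWi 1
  have jl : Integrable (fun p => W p * loc p) (μ₁.prod μ₂) := by
    simpa using hI.mul_int hW0 hWi.1 one_int
  have j2 : Integrable (fun p => W p * e₂ p) (μ₁.prod μ₂) := by
    simpa using he2.mul_int hW0 hWi.1 one_int
  have jabs : ∀ {f : Ω₁ × Ω₂ → ℝ}, AEStronglyMeasurable f (μ₁.prod μ₂) →
      Integrable (fun p => W p * |f p|) (μ₁.prod μ₂) →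
      Integrable (fun p => W p * f p) (μ₁.prod μ₂) := fun hf hfi =>
    hfi.mono' (hWi.1.mul hf) (Filter.Eventually.of_forall fun p => by
      rw [Real.norm_eq_abs, abs_mul, abs_of_nonneg (hW0 p)])
  have j1 := jabs he1m he1i
  have jl2 : Integrable (fun p => W p * (loc p + e₂ p)) (μ₁.prod μ₂) := by
    have := jl.add j2
    refine this.congr (Filter.Eventually.of_forall fun p => ?_)
    simp only [Pi.add_apply]
    ring
  have hI2 : InL (μ₁.prod μ₂) W (fun p => loc p + e₂ p) := hI.add hW0 hWi.1 he2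
  set u' : Ω₁ → ℝ := tl μ₂ W (fun p => loc p + e₂ p) with hu'
  set v' : Ω₁ → ℝ := tl μ₂ W e₁ with hv'
  have hU := tl_L2 (μ₁ := μ₁) (μ₂ := μ₂) hW1 hWi hI2
  have hV := tl_L1 (μ₁ := μ₁) (μ₂ := μ₂) hW1 hWi he1m he1i
  have hsplit : ∀ᵐ a ∂μ₁, tl μ₂ W (fun p => u p + v p) a = u' a + v' a := by
    have h1 := tl_add (μ₁ := μ₁) (μ₂ := μ₂) jl2 j1
    filter_upwards [h1] with a ha
    rw [hu', hv', ← ha]
    simp only [hdec]
  refine ⟨hsplit, hU.1, hV.1, hV.2.trans hq, ?_⟩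
  have mu : ∫ a, mg μ₂ W a * u' a ∂μ₁ = ∫ p, W p * (loc p + e₂ p) ∂(μ₁.prod μ₂) :=
    tl_mean hW1 hWi jl2
  have hmu : |∫ a, mg μ₂ W a * u' a ∂μ₁| ≤ q * ∫ a, mg μ₂ W a ∂μ₁ := by
    rw [int_mg hWi, ← hZ, mu]
    have e1 : ∫ p, W p * (loc p + e₂ p) ∂(μ₁.prod μ₂) = -∫ p, W p * e₁ p ∂(μ₁.prod μ₂) := by
      have h1 : ∫ p, W p * (u p + v p) ∂(μ₁.prod μ₂)
          = ∫ p, W p * (loc p + e₂ p) ∂(μ₁.prod μ₂) + ∫ p, W p * e₁ p ∂(μ₁.prod μ₂) := by
        rw [← integral_add jl2 j1]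
        refine integral_congr_ae (Filter.Eventually.of_forall fun p => ?_)
        simp only [hdec]
        ring
      rw [hmean] at h1
      linarith
    rw [e1, abs_neg]
    refine (abs_integral_le_integral_abs).trans (le_trans (le_of_eq ?_) hq)
    refine integral_congr_ae (Filter.Eventually.of_forall fun p => ?_)
    simp only
    rw [abs_mul, abs_of_nonneg (hW0 p)]
  have hc := wn_center_le hw hwm (mg_int hWi) hU.1 m hq0 hmu
  rw [int_mg hWi, ← hZ] at hc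
  obtain ⟨hT1, hT2⟩ := wn_tl_loc_le hW1 hWi hB hη0 hη hloc hL0 hL hm hκ
  have hE := tl_L2 (μ₁ := μ₁) (μ₂ := μ₂) hW1 hWi he2
  have hae : ∀ᵐ a ∂μ₁, |u' a - m| ≤ |(tl μ₂ W loc a - m) + tl μ₂ W e₂ a| := by
    filter_upwards [tl_add (μ₁ := μ₁) (μ₂ := μ₂) jl j2] with a ha
    rw [hu', ha]
    apply le_of_eq
    congr 1
    ring
  have hsum := InL.add hw hwm hT1 hE.1
  have hm1 := (wn_mono (u := fun a => u' a - m) hw hwm (hU.1.meas.sub aestronglyMeasurable_const)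
    hsum hae).2
  have hm2 := hm1.trans (wn_add_le hw hwm hT1 hE.1)
  have hS : √(∫ p, loc p ^ 2 ∂(μ₁.prod μ₂)) ≤ (d + e + √(L * (q₀ + q))) * √Z := by
    refine le_trans ?_ hX
    unfold wn
    apply Real.sqrt_le_sqrt
    refine integral_mono_of_nonneg (Filter.Eventually.of_forall fun p => sq_nonneg _) hI.int
      (Filter.Eventually.of_forall fun p => ?_)
    simp only
    nlinarith [hW1 p, sq_nonneg (loc p)]
  have hβ : √(∫ p in B, W p ∂(μ₁.prod μ₂)) ≤ √b * √Z := by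
    have hb0 : 0 ≤ b := by
      have : 0 ≤ b * Z := le_trans (integral_nonneg fun p => hW0 p) hb
      exact nonneg_of_mul_nonneg_left this (by linarith)
    rw [← Real.sqrt_mul hb0]
    exact Real.sqrt_le_sqrt hb
  have f1 : √(1 + η) * (κ + 2 * η) * √(∫ p, loc p ^ 2 ∂(μ₁.prod μ₂))
      ≤ √(1 + η) * (κ + 2 * η) * ((d + e + √(L * (q₀ + q))) * √Z) :=
    mul_le_mul_of_nonneg_left hS (by positivity)
  have f2 : (4 + 2 * η) * L * √(∫ p in B, W p ∂(μ₁.prod μ₂))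
      ≤ (4 + 2 * η) * L * (√b * √Z) := mul_le_mul_of_nonneg_left hβ (by positivity)
  have f3 : wn μ₁ (mg μ₂ W) (tl μ₂ W e₂) ≤ e * √Z := hE.2.trans he
  calc wn μ₁ (mg μ₂ W) u' ≤ wn μ₁ (mg μ₂ W) (fun a => u' a - m) + q * √Z := hc
    _ ≤ (√(1 + η) * (κ + 2 * η) * ((d + e + √(L * (q₀ + q))) * √Z)
        + (4 + 2 * η) * L * (√b * √Z) + e * √Z) + q * √Z := by linarith
    _ = _ := by ring

end ex

/-! ### laws with a density -/

section law

variable {X Y Ω : Type*} [MeasurableSpace X] [MeasurableSpace Y] [MeasurableSpace Ω]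

/-- the law of `r` under the probability of density `σ / z` -/
def law (ν : Measure Y) (σ : Y → ℝ) (r : Y → Ω) (z : ℝ) : Measure Ω :=
  (ENNReal.ofReal z)⁻¹ • (ν.withDensity fun y => ENNReal.ofReal (σ y)).map r

variable {ν : Measure Y} {σ : Y → ℝ} {r : Y → Ω} {z : ℝ}

lemma law_int (hσ : Measurable σ) (hr : Measurable r) (hσ0 : ∀ y, 0 ≤ σ y) (hz : 0 < z)
    {Φ : Ω → ℝ} (hΦ : Measurable Φ) :
    (Integrable Φ (law ν σ r z) ↔ Integrable (fun y => σ y * Φ (r y)) ν) ∧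
    ∫ ω, Φ ω ∂(law ν σ r z) = (∫ y, σ y * Φ (r y) ∂ν) / z := by
  have hz' : ENNReal.ofReal z ≠ 0 := by simp [hz]
  constructor
  · unfold law
    rw [integrable_smul_measure (ENNReal.inv_ne_zero.2 ENNReal.ofReal_ne_top)
      (ENNReal.inv_ne_top.2 hz'),
      integrable_map_measure hΦ.aestronglyMeasurable hr.aemeasurable,
      integrable_withDensity_iff_integrable_smul' hσ.ennreal_ofReal
        (Filter.Eventually.of_forall fun _ => ENNReal.ofReal_lt_top)]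
    refine integrable_congr (Filter.Eventually.of_forall fun x => ?_)
    simp only [Function.comp_apply, smul_eq_mul]
    rw [ENNReal.toReal_ofReal (hσ0 x)]
  · unfold law
    rw [integral_smul_measure, integral_map hr.aemeasurable hΦ.aestronglyMeasurable,
      integral_withDensity_eq_integral_toReal_smul hσ.ennreal_ofReal
        (Filter.Eventually.of_forall fun _ => ENNReal.ofReal_lt_top), ENNReal.toReal_inv,
      ENNReal.toReal_ofReal hz.le, smul_eq_mul, inv_mul_eq_div]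
    congr 1
    refine integral_congr_ae (Filter.Eventually.of_forall fun x => ?_)
    simp only [smul_eq_mul]
    rw [ENNReal.toReal_ofReal (hσ0 x)]

lemma law_prob (hr : Measurable r) (hi : Integrable σ ν) (hσ0 : ∀ y, 0 ≤ σ y)
    (hz : ∫ y, σ y ∂ν = z) (hz0 : 0 < z) : IsProbabilityMeasure (law ν σ r z) := by
  constructor
  unfold law
  rw [Measure.smul_apply, Measure.map_apply hr MeasurableSet.univ, Set.preimage_univ,
    withDensity_apply _ MeasurableSet.univ, Measure.restrict_univ,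
    ← ofReal_integral_eq_lintegral_ofReal hi (Filter.Eventually.of_forall hσ0), hz, smul_eq_mul]
  exact ENNReal.inv_mul_cancel (by simp [hz0]) ENNReal.ofReal_ne_top

/-- equality of laws -/
lemma law_congr {μ : Measure X} {ρ : X → ℝ} {p : X → Ω} (hp : Measurable p) (hr : Measurable r)
    {k : ℝ} (hk : 0 < k) (h : ∀ Ψ : Ω → ENNReal, Measurable Ψ →
      ∫⁻ x, ENNReal.ofReal (ρ x) * Ψ (p x) ∂μ =
        ENNReal.ofReal k * ∫⁻ y, ENNReal.ofReal (σ y) * Ψ (r y) ∂ν) :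
    law μ ρ p (k * z) = law ν σ r z := by
  have h1 := transfer_meas hp hr h
  have hk' : ENNReal.ofReal k ≠ 0 := by simp [hk]
  unfold law
  rw [h1, smul_smul, ENNReal.ofReal_mul hk.le, ENNReal.mul_inv (Or.inl hk')
    (Or.inl ENNReal.ofReal_ne_top), mul_right_comm, ENNReal.inv_mul_cancel hk'
    ENNReal.ofReal_ne_top, one_mul]

end law

variable {V : Type} [Fintype V] [DecidableEq V] [Nonempty V]
variable {w wD : (V → ℤ) → ℝ} {M M' : Matrix V V ℝ} {m m' : ℝ} {x₀ : V}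
variable {I I' J : Type} [Fintype I] [Fintype I'] [Fintype J] [DecidableEq I]
variable {H' : Matrix V V ℝ} {B : Matrix V I ℝ} {K KH : Matrix I V ℝ} {A : Matrix V I' ℝ}
  {C : Matrix V J ℝ}

/-- **the law of the field modulo constants** (normalised by `F x₀ = 0`) -/
def nuM (w : (V → ℤ) → ℝ) (M : Matrix V V ℝ) (x₀ : V) : Measure (V → ℝ) :=
  law (volume.restrict (slab x₀)) (Zn w M) (q0 x₀) (SI x₀ (Zn w M))

lemma in_one (hb : BW w) (hM : MF M m) (x₀ : V) : IntegrableOn (Zn w M) (slab x₀) := by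
  have h : IN w M x₀ fun _ => (1 : ℝ) := (XG.const 1).in_ (fun _ _ => rfl) hb hM x₀
  unfold IN at h
  simpa using h

theorem prob_nuM (hw : GW w) (hb : BW w) (hM : MF M m) (x₀ : V) :
    IsProbabilityMeasure (nuM w M x₀) :=
  law_prob (measurable_q0 x₀) (in_one hb hM x₀) (fun F => (hw.Zn_pos hM F).le) rfl
    (hb.SI_Zn_pos hM x₀)

/-- integrals against the law -/
theorem nuM_int (hw : GW w) (hb : BW w) (hM : MF M m) (x₀ : V) {Φ : (V → ℝ) → ℝ}
    (hΦ : Measurable Φ) :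
    (Integrable Φ (nuM w M x₀) ↔ IN w M x₀ fun F => Φ (q0 x₀ F)) ∧
    ∫ F, Φ F ∂(nuM w M x₀) = Enu w M x₀ fun F => Φ (q0 x₀ F) := by
  have h := law_int (ν := volume.restrict (slab x₀)) (hb.contZn hM).measurable (measurable_q0 x₀)
    (fun F => (hw.Zn_pos hM F).le) (hb.SI_Zn_pos hM x₀) hΦ
  constructor
  · unfold nuM
    rw [h.1]
    unfold IN
    refine integrable_congr (Filter.Eventually.of_forall fun F => ?_)
    simp only
    ring
  · unfold nuM
    rw [h.2]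
    unfold Enu SI
    congr 1
    refine integral_congr_ae (Filter.Eventually.of_forall fun F => ?_)
    simp only
    ring

/-- integrals of functions invariant under constants -/
theorem nuM_ci (hw : GW w) (hb : BW w) (hM : MF M m) (x₀ : V) {Φ : (V → ℝ) → ℝ} (hc : CI Φ)
    (hΦ : Measurable Φ) :
    (Integrable Φ (nuM w M x₀) ↔ IN w M x₀ Φ) ∧ ∫ F, Φ F ∂(nuM w M x₀) = Enu w M x₀ Φ := by
  have h := nuM_int hw hb hM x₀ hΦ
  simp only [hc.q0] at h
  exact h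

/-- **Gaussian representation of the law at the level `M`** -/
theorem nuM_fl (hw : GW w) (hb : BW w) (hM : MF M m) (hW : Win (An w M m x₀) H' B KH A C) :
    nuM w M x₀ = law ((gau J).prod (gau I')) (fun p => Wt w M m x₀ (fl (F0m B KH C) A p))
      (fun p => q0 x₀ (fl (F0m B KH C) A p)) (Zt w M m x₀ B KH A C) := by
  have h3 : 0 < Zn w M 0 * lg (An w M m x₀) x₀ :=
    mul_pos (hw.Zn_pos hM 0) ((pc_An hw hb hM x₀).lg_pos x₀)
  have h2 := (int_M hw hb hM hW (Φ := fun _ => (1 : ℝ)) (fun _ _ => rfl) measurable_const).2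
  simp only [one_mul, mul_one] at h2
  have h4 : SI x₀ (Zn w M) = Zn w M 0 * lg (An w M m x₀) x₀ * Zt w M m x₀ B KH A C := h2
  unfold nuM
  rw [h4]
  exact law_congr (measurable_q0 x₀) ((measurable_q0 x₀).comp (H686.measurable_fl _ _)) h3
    fun Ψ hΨ => lint_M hw hb hM hW ((ci_q0 x₀).comp Ψ) (hΨ.comp (measurable_q0 x₀))

/-- **Gaussian representation of the law at the level `M'`** -/
theorem nuM_next (h : Chn M M' B K) (hw : GW w) (hb : BW w) (hM : MF M m) (hM' : MF M' m')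
    (hW : Win (An w M m x₀) H' B KH A C) :
    nuM w M' x₀ = law (gau J)
      (fun a => mg (gau I') (fun p => Wt w M m x₀ (fl (F0m B KH C) A p)) a)
      (fun a => q0 x₀ (C *ᵥ a)) (Zt w M m x₀ B KH A C) := by
  have h2 := (int_M' h hw hb hM hM' hW (Φ := fun _ => (1 : ℝ)) (fun _ _ => rfl)
    measurable_const).2
  simp only [one_mul, mul_one] at h2
  have hc1 := H896.cN_pos (B := B) h.nn
  have hc2 := H896.cN_pos (B := B) hW.chn.nn
  have z0 := hw.Zn_pos hM (0 : V → ℝ)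
  have h3 : 0 < Zn w M 0 * cN (An w M m x₀) B / cN M B * lg H' x₀ :=
    mul_pos (by positivity) (((pc_An hw hb hM x₀).next hW.chn).lg_pos x₀)
  have h5 : ∫ a, mg (gau I') (fun p => Wt w M m x₀ (fl (F0m B KH C) A p)) a ∂(gau J) =
      Zt w M m x₀ B KH A C := H686.int_mg (integrable_W hw hb hM hW)
  have h4 : SI x₀ (Zn w M') = Zn w M 0 * cN (An w M m x₀) B / cN M B * lg H' x₀ *
      Zt w M m x₀ B KH A C := by rw [← h5]; exact h2
  unfold nuM
  rw [h4]
  exact law_congr (measurable_q0 x₀) ((measurable_q0 x₀).comp (measurable_mulVec C)) h3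
    fun Ψ hΨ => lint_M' h hw hb hM hM' hW ((ci_q0 x₀).comp Ψ) (hΨ.comp (measurable_q0 x₀))

/-- measurability of the conditional expectation -/
lemma measurable_EF (hb : BW w) (hM : MF M m) (B : Matrix V I ℝ) {Φ : (V → ℝ) → ℝ}
    (hΦ : Measurable Φ) : Measurable (EF w M B Φ) := by
  have hz := (hb.contZn hM).measurable
  have ha : Measurable fun p : (V → ℝ) × (I → ℝ) => p.1 + B *ᵥ p.2 :=
    measurable_fst.add ((measurable_mulVec B).comp measurable_snd)
  have h1 : Measurable fun f : V → ℝ =>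
      ∫ g, Φ (f + B *ᵥ g) * Zn w M (f + B *ᵥ g) ∂(gau I) := by
    have : StronglyMeasurable fun p : (V → ℝ) × (I → ℝ) =>
        Φ (p.1 + B *ᵥ p.2) * Zn w M (p.1 + B *ᵥ p.2) :=
      ((hΦ.comp ha).mul (hz.comp ha)).stronglyMeasurable
    exact (this.integral_prod_right' (ν := gau I)).measurable
  have h2 : Measurable fun f : V → ℝ => ∫ g, Zn w M (f + B *ᵥ g) ∂(gau I) := by
    have : StronglyMeasurable fun p : (V → ℝ) × (I → ℝ) => Zn w M (p.1 + B *ᵥ p.2) :=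
      (hz.comp ha).stronglyMeasurable
    exact (this.integral_prod_right' (ν := gau I)).measurable
  exact h1.div h2

/-- invariance of the conditional expectation -/
lemma CI.EF {Φ : (V → ℝ) → ℝ} (hc : CI Φ) (hb : BW w) (M : Matrix V V ℝ) (B : Matrix V I ℝ) :
    CI (H883.EF w M B Φ) := by
  intro f c
  have e : ∀ g : I → ℝ, ((fun x => f x + c) + B *ᵥ g) = fun x => (f + B *ᵥ g) x + c := by
    intro g
    funext x
    simp only [Pi.add_apply]
    ring
  unfold H883.EF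
  simp only [e, hc _ c, hb.Zn_cs]

end

end Vale.Agent.P159.H883
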