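import Vale.Agent.P159.H363.Law

/-!
P159 / P#3 (helper883), part 1: exact Gaussian integrals of the sine field.

`res b g = sin (2π <b,g>) - 2π e^{-2π²|b|²} <b,g>`: orthogonal to all linear functions of the standard
Gaussian vector `g`, `E res b res c = e^{-2π²(|b|²+|c|²)} (sinh (4π² <b,c>) - 4π² <b,c>)`.
-/

namespace Vale.Agent.P159.H883

open MeasureTheory ProbabilityTheory Finset Matrix
open Vale.Agent.P159.H37 (gau gau_exp gau_exp_mul gau_shift integrable_exp_norm)
open Vale.Agent.P159.H363 (gau_char)
open scoped Real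

noncomputable section

variable {I : Type*} [Fintype I]

/-- linear form -/
def ln (u g : I → ℝ) : ℝ := ∑ i, u i * g i

lemma ln_add_left (u v g : I → ℝ) : ln (u + v) g = ln u g + ln v g := by
  unfold ln
  rw [← Finset.sum_add_distrib]
  exact Finset.sum_congr rfl fun i _ => by rw [Pi.add_apply]; ring

lemma ln_sub_left (u v g : I → ℝ) : ln (u - v) g = ln u g - ln v g := by
  unfold ln
  rw [← Finset.sum_sub_distrib]
  exact Finset.sum_congr rfl fun i _ => by rw [Pi.sub_apply]; ring

lemma ln_smul_left (c : ℝ) (u g : I → ℝ) : ln (c • u) g = c * ln u g := by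
  unfold ln
  rw [Finset.mul_sum]
  exact Finset.sum_congr rfl fun i _ => by rw [Pi.smul_apply, smul_eq_mul]; ring

lemma ln_comm (u v : I → ℝ) : ln u v = ln v u := by
  unfold ln
  exact Finset.sum_congr rfl fun i _ => mul_comm _ _

lemma ln_add_right (u v g : I → ℝ) : ln g (u + v) = ln g u + ln g v := by
  rw [ln_comm, ln_add_left, ln_comm u, ln_comm v]

lemma ln_smul_right (c : ℝ) (u g : I → ℝ) : ln g (c • u) = c * ln g u := by
  rw [ln_comm, ln_smul_left, ln_comm u]

lemma ln_zero_left (g : I → ℝ) : ln 0 g = 0 := by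
  unfold ln; simp

lemma ln_self_nonneg (u : I → ℝ) : 0 ≤ ln u u :=
  Finset.sum_nonneg fun _ _ => mul_self_nonneg _

lemma ln_self_eq (u : I → ℝ) : ln u u = ∑ i, u i ^ 2 := by
  unfold ln
  exact Finset.sum_congr rfl fun i _ => by ring

lemma continuous_ln (u : I → ℝ) : Continuous fun g : I → ℝ => ln u g := by
  unfold ln
  exact continuous_finsetSum _ fun i _ => continuous_const.mul (continuous_apply i)

lemma measurable_ln (u : I → ℝ) : Measurable fun g : I → ℝ => ln u g := (continuous_ln u).measurable

lemma ln_sum_left {ι : Type*} (s : Finset ι) (F : ι → I → ℝ) (g : I → ℝ) :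
    ln (∑ x ∈ s, F x) g = ∑ x ∈ s, ln (F x) g := by
  unfold ln
  rw [Finset.sum_comm]
  exact Finset.sum_congr rfl fun i _ => by rw [Finset.sum_apply, Finset.sum_mul]

/-! ### trigonometric integrals -/

lemma gau_cos (u : I → ℝ) : ∫ g, Real.cos (ln u g) ∂(gau I) = Real.exp (-(ln u u / 2)) := by
  have h := congrArg (RCLike.re : ℂ → ℝ) (gau_char u)
  have hint : Integrable (fun g : I → ℝ => Complex.exp (((∑ i, u i * g i : ℝ) : ℂ) * Complex.I))
      (gau I) := by
    refine Integrable.of_bound (C := 1) ?_ (Filter.Eventually.of_forall fun g => ?_)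
    · exact (Complex.measurable_exp.comp ((Complex.measurable_ofReal.comp (measurable_ln u)).mul_const
        Complex.I)).aestronglyMeasurable
    · exact (Complex.norm_exp_ofReal_mul_I _).le
  rw [← integral_re hint] at h
  have e1 : ∀ g : I → ℝ, RCLike.re (Complex.exp (((∑ i, u i * g i : ℝ) : ℂ) * Complex.I))
      = Real.cos (ln u g) := by
    intro g
    exact Complex.exp_ofReal_mul_I_re _
  simp only [e1] at h
  rw [h, ← Complex.ofReal_neg, ← Complex.ofReal_exp, ln_self_eq]
  exact Complex.ofReal_re _

lemma gau_sin (u : I → ℝ) : ∫ g, Real.sin (ln u g) ∂(gau I) = 0 := by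
  have h := congrArg (RCLike.im : ℂ → ℝ) (gau_char u)
  have hint : Integrable (fun g : I → ℝ => Complex.exp (((∑ i, u i * g i : ℝ) : ℂ) * Complex.I))
      (gau I) := by
    refine Integrable.of_bound (C := 1) ?_ (Filter.Eventually.of_forall fun g => ?_)
    · exact (Complex.measurable_exp.comp ((Complex.measurable_ofReal.comp (measurable_ln u)).mul_const
        Complex.I)).aestronglyMeasurable
    · exact (Complex.norm_exp_ofReal_mul_I _).le
  rw [← integral_im hint] at h
  have e1 : ∀ g : I → ℝ, RCLike.im (Complex.exp (((∑ i, u i * g i : ℝ) : ℂ) * Complex.I))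
      = Real.sin (ln u g) := by
    intro g
    exact Complex.exp_ofReal_mul_I_im _
  simp only [e1] at h
  rw [h, ← Complex.ofReal_neg, ← Complex.ofReal_exp]
  exact Complex.ofReal_im (Real.exp (-((∑ i, u i ^ 2) / 2)))

lemma integrable_bdd {f : (I → ℝ) → ℝ} (hf : Measurable f) {C : ℝ} (hC : ∀ g, |f g| ≤ C) :
    Integrable f (gau I) :=
  Integrable.of_bound (C := C) hf.aestronglyMeasurable (Filter.Eventually.of_forall fun g => by
    rw [Real.norm_eq_abs]; exact hC g)

lemma integrable_cos (u : I → ℝ) : Integrable (fun g : I → ℝ => Real.cos (ln u g)) (gau I) :=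
  integrable_bdd (Real.measurable_cos.comp (measurable_ln u)) fun _ => Real.abs_cos_le_one _

lemma gau_sin_sin (u v : I → ℝ) : ∫ g, Real.sin (ln u g) * Real.sin (ln v g) ∂(gau I)
    = Real.exp (-((ln u u + ln v v) / 2)) * Real.sinh (ln u v) := by
  have e : ∀ g : I → ℝ, Real.sin (ln u g) * Real.sin (ln v g)
      = (1 / 2) * Real.cos (ln (u - v) g) - (1 / 2) * Real.cos (ln (u + v) g) := by
    intro g
    rw [ln_sub_left, ln_add_left, Real.cos_sub, Real.cos_add]
    ring
  simp only [e]
  rw [integral_sub ((integrable_cos _).const_mul _) ((integrable_cos _).const_mul _),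
    integral_const_mul, integral_const_mul, gau_cos, gau_cos, Real.sinh_eq]
  have e1 : ln (u - v) (u - v) = ln u u + ln v v - 2 * ln u v := by
    rw [ln_sub_left, sub_eq_add_neg u v, ln_add_right, ln_add_right, ← neg_one_smul ℝ v,
      ln_smul_right, ln_smul_right, ln_comm v u]
    ring
  have e2 : ln (u + v) (u + v) = ln u u + ln v v + 2 * ln u v := by
    rw [ln_add_left, ln_add_right, ln_add_right, ln_comm v u]
    ring
  rw [e1, e2, mul_div_assoc', mul_sub, ← Real.exp_add, ← Real.exp_add]
  have e3 : -((ln u u + ln v v - 2 * ln u v) / 2) = -((ln u u + ln v v) / 2) + ln u v := by ring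
  have e4 : -((ln u u + ln v v + 2 * ln u v) / 2) = -((ln u u + ln v v) / 2) + -ln u v := by ring
  rw [e3, e4]
  ring

/-- Cameron-Martin for the sine -/
lemma gau_exp_sin (u v : I → ℝ) (s : ℝ) :
    ∫ g, Real.exp (s * ln v g) * Real.sin (ln u g) ∂(gau I)
      = Real.exp (s ^ 2 * ln v v / 2) * (Real.sin (s * ln u v) * Real.exp (-(ln u u / 2))) := by
  have h := gau_exp_mul (I := I) (s • v) fun g => Real.sin (ln u g)
  have e1 : ∀ g : I → ℝ, (∑ i, (s • v) i * g i) = s * ln v g := by
    intro g
    have := ln_smul_left s v g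
    unfold ln at this
    unfold ln
    exact this
  simp only [e1] at h
  rw [h]
  have e2 : (∑ i, (s • v) i ^ 2) = s ^ 2 * ln v v := by
    rw [ln_self_eq, Finset.mul_sum]
    exact Finset.sum_congr rfl fun i _ => by rw [Pi.smul_apply, smul_eq_mul]; ring
  rw [e2]
  congr 1
  have e3 : ∀ g : I → ℝ, Real.sin (ln u (g + s • v))
      = Real.cos (s * ln u v) * Real.sin (ln u g) + Real.sin (s * ln u v) * Real.cos (ln u g) := by
    intro g
    rw [ln_add_right, ln_smul_right, Real.sin_add]
    ring
  simp only [e3]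
  have i1 : Integrable (fun g : I → ℝ => Real.sin (ln u g)) (gau I) :=
    integrable_bdd (Real.measurable_sin.comp (measurable_ln u)) fun _ => Real.abs_sin_le_one _
  rw [integral_add (i1.const_mul _) ((integrable_cos u).const_mul _), integral_const_mul,
    integral_const_mul, gau_sin, gau_cos]
  ring

lemma abs_ln_le (v g : I → ℝ) : |ln v g| ≤ (∑ i, |v i|) * ∑ i, |g i| := by
  unfold ln
  rw [Finset.sum_mul]
  refine (Finset.abs_sum_le_sum_abs _ _).trans (Finset.sum_le_sum fun i _ => ?_)
  rw [abs_mul]
  exact mul_le_mul_of_nonneg_left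
    (Finset.single_le_sum (f := fun i => |g i|) (fun _ _ => abs_nonneg _) (Finset.mem_univ i))
    (abs_nonneg _)

/-- `E sin <u,g> <v,g> = <u,v> e^{-|u|²/2}` -/
lemma gau_sin_lin (u v : I → ℝ) : ∫ g, Real.sin (ln u g) * ln v g ∂(gau I)
    = ln u v * Real.exp (-(ln u u / 2)) := by
  set A : ℝ := ∑ i, |v i| with hA
  have hA0 : 0 ≤ A := Finset.sum_nonneg fun _ _ => abs_nonneg _
  -- derivative under the integral sign
  have hd : HasDerivAt (fun s : ℝ => ∫ g, Real.exp (s * ln v g) * Real.sin (ln u g) ∂(gau I))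
      (∫ g, ln v g * Real.exp (0 * ln v g) * Real.sin (ln u g) ∂(gau I)) 0 := by
    have key := hasDerivAt_integral_of_dominated_loc_of_deriv_le (μ := gau I)
      (F := fun (s : ℝ) (g : I → ℝ) => Real.exp (s * ln v g) * Real.sin (ln u g))
      (F' := fun (s : ℝ) (g : I → ℝ) => ln v g * Real.exp (s * ln v g) * Real.sin (ln u g))
      (x₀ := 0) (s := Metric.ball 0 1)
      (bound := fun g => Real.exp ((2 * A) * ∑ i, |g i|))
      (Metric.ball_mem_nhds 0 one_pos) ?_ ?_ ?_ ?_ ?_ ?_
    · exact key.2
    · refine Filter.Eventually.of_forall fun s => Measurable.aestronglyMeasurable ?_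
      exact (Real.measurable_exp.comp ((measurable_ln v).const_mul s)).mul
        (Real.measurable_sin.comp (measurable_ln u))
    · simp only [zero_mul, Real.exp_zero, one_mul]
      exact integrable_bdd (Real.measurable_sin.comp (measurable_ln u)) fun _ =>
        Real.abs_sin_le_one _
    · refine Measurable.aestronglyMeasurable ?_
      exact ((measurable_ln v).mul (Real.measurable_exp.comp ((measurable_ln v).const_mul 0))).mul
        (Real.measurable_sin.comp (measurable_ln u))
    · refine Filter.Eventually.of_forall fun g s hs => ?_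
      have hs1 : |s| ≤ 1 := by
        rw [Metric.mem_ball, dist_zero_right, Real.norm_eq_abs] at hs
        exact hs.le
      rw [Real.norm_eq_abs, abs_mul, abs_mul, Real.abs_exp]
      have h1 := abs_ln_le v g
      have h2 : s * ln v g ≤ A * ∑ i, |g i| := by
        refine (le_abs_self _).trans ?_
        rw [abs_mul]
        calc |s| * |ln v g| ≤ 1 * |ln v g| := mul_le_mul_of_nonneg_right hs1 (abs_nonneg _)
          _ ≤ _ := by rw [one_mul]; exact h1
      have h3 : |ln v g| ≤ Real.exp (A * ∑ i, |g i|) := by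
        refine h1.trans ?_
        have := Real.add_one_le_exp (A * ∑ i, |g i|)
        linarith
      calc |ln v g| * Real.exp (s * ln v g) * |Real.sin (ln u g)|
          ≤ Real.exp (A * ∑ i, |g i|) * Real.exp (A * ∑ i, |g i|) * 1 :=
            mul_le_mul (mul_le_mul h3 (Real.exp_le_exp.2 h2) (Real.exp_pos _).le (Real.exp_pos _).le)
              (Real.abs_sin_le_one _) (abs_nonneg _) (by positivity)
        _ = Real.exp ((2 * A) * ∑ i, |g i|) := by
            rw [mul_one, ← Real.exp_add]
            congr 1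
            ring
    · exact integrable_exp_norm (2 * A)
    · refine Filter.Eventually.of_forall fun g s _ => ?_
      have h1 : HasDerivAt (fun s : ℝ => Real.exp (s * ln v g)) (Real.exp (s * ln v g) * ln v g) s := by
        have := ((hasDerivAt_id s).mul_const (ln v g)).exp
        simpa using this
      exact (h1.mul_const (Real.sin (ln u g))).congr_deriv (by ring)
  have hd2 : HasDerivAt (fun s : ℝ => Real.exp (s ^ 2 * ln v v / 2)
      * (Real.sin (s * ln u v) * Real.exp (-(ln u u / 2))))
      (ln u v * Real.exp (-(ln u u / 2))) 0 := by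
    have h1 : HasDerivAt (fun s : ℝ => Real.exp (s ^ 2 * ln v v / 2)) 0 0 := by
      have h : HasDerivAt (fun s : ℝ => s ^ 2 * ln v v / 2) (((2 : ℕ) : ℝ) * (0 : ℝ) ^ (2 - 1) * 1 * ln v v / 2) 0 :=
        (((hasDerivAt_id (0 : ℝ)).pow 2).mul_const (ln v v)).div_const 2
      exact h.exp.congr_deriv (by simp)
    have h2 : HasDerivAt (fun s : ℝ => Real.sin (s * ln u v)) (ln u v) 0 := by
      have h := ((hasDerivAt_id (0 : ℝ)).mul_const (ln u v)).sin
      exact h.congr_deriv (by simp)
    exact (h1.mul (h2.mul_const (Real.exp (-(ln u u / 2))))).congr_deriv (by simp)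
  have e : (fun s : ℝ => ∫ g, Real.exp (s * ln v g) * Real.sin (ln u g) ∂(gau I))
      = fun s : ℝ => Real.exp (s ^ 2 * ln v v / 2)
      * (Real.sin (s * ln u v) * Real.exp (-(ln u u / 2))) := by
    funext s
    exact gau_exp_sin u v s
  rw [e] at hd
  have := hd.unique hd2
  rw [← this]
  refine integral_congr_ae (Filter.Eventually.of_forall fun g => ?_)
  simp only [zero_mul, Real.exp_zero, mul_one]
  ring

end

end Vale.Agent.P159.H883
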