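import Vale.Agent.P159.H883.Twr0

/-!
P159, S list SL1 (helper883), part 1: `Zn` as a sum over pinned heights, integrability over the real
fields modulo constants, `SI (Zn w M) = cI M * Zp w`, `Zp w = ∑ pinned w` the massless neutral
partition function.
-/

set_option linter.unusedSectionVars false

namespace Vale.Agent.P159.H883

open Finset Matrix MeasureTheory
open Vale.Agent.P159.TM.H104 (EM nh Gr li)
open Vale.Agent.P159.H37 (wM ZM qf bf Zn Zs re gau)
open Vale.Agent.P159.H963 (GrI pin MF ntr)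
open Vale.Agent.P159.H896 (Chn cN)
open Vale.Agent.P159.H145 (cs Per)

noncomputable section

variable {V : Type} [Fintype V] [DecidableEq V] [Nonempty V]
variable {w : (V → ℤ) → ℝ} {M M' : Matrix V V ℝ} {m m' : ℝ}

/-- the massless neutral partition function -/
def Zp (w : (V → ℤ) → ℝ) (x₀ : V) : ℝ := ∑' h, pin w x₀ h

/-- the constant in `Zn` -/
def kap (V : Type) [Fintype V] (m : ℝ) : ℝ := Real.sqrt (2 * Real.pi / (m * Fintype.card V))

lemma kap_pos (hm : 0 < m) : 0 < kap V m := by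
  have hN : (0 : ℝ) < Fintype.card V := Nat.cast_pos.2 Fintype.card_pos
  exact Real.sqrt_pos.2 (by positivity)

/-- the Gaussian `exp (-<F, M₀ F>/2)`, `M₀ = ntr M m` -/
def E0g (M : Matrix V V ℝ) (m : ℝ) (F : V → ℝ) : ℝ := Real.exp (-(qf (ntr M m) F / 2))

lemma E0g_pos (M : Matrix V V ℝ) (m : ℝ) (F : V → ℝ) : 0 < E0g M m F := Real.exp_pos _

lemma continuous_E0g (M : Matrix V V ℝ) (m : ℝ) : Continuous (E0g M m) :=
  Real.continuous_exp.comp (H896.continuous_qf.div_const 2).neg

lemma ci_qf (hM : MF M m) : CI (qf (ntr M m)) := fun F c =>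
  H963.qf_addc (H963.ntr_transpose hM.symm m) (H963.ntr_row hM.row) F c

lemma ci_E0g (hM : MF M m) : CI (E0g M m) := fun F c => by
  unfold E0g
  rw [ci_qf hM]

theorem BW.Zn_pin (hw : BW w) (hM : MF M m) (x₀ : V) (F : V → ℝ) :
    Zn w M F = kap V m * ∑' h, pin w x₀ h * E0g M m (re h - F) := by
  obtain ⟨Wb, hb⟩ := hw.bdd
  obtain ⟨m0, hm0, hc⟩ := hM.coer
  have hE := H963.em_neu hw.nn hb hw.pos hM.symm hm0 hM.row hc x₀
  rw [H963.Zn_eq hw.grd hw.nn hM.symm hM.pos hM.row hE F, ← H963.wM_pin,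
    ← H37.ZM_eq (pin w x₀) (H963.ntr_transpose hM.symm m)]
  rfl

lemma BW.term_le (hw : BW w) (hM : MF M m) (x₀ : V) (F : V → ℝ) :
    Summable fun h => pin w x₀ h * E0g M m (re h - F) := by
  have hs : Summable (pin w x₀) := by
    have := (hw.em0 x₀).sum 0
    simpa using this
  refine Summable.of_nonneg_of_le (fun h => mul_nonneg (H963.pin_nonneg hw.nn x₀ h)
    (E0g_pos _ _ _).le) (fun h => ?_) hs
  obtain ⟨m0, hm0, hc⟩ := hM.coer
  have h1 := H963.ntr_gap hM.symm hM.row hc (re h - F)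
  have h2 : 0 ≤ qf (ntr M m) (re h - F) :=
    le_trans (mul_nonneg hm0.le (Finset.sum_nonneg fun _ _ => sq_nonneg _)) h1
  have h3 : E0g M m (re h - F) ≤ 1 := by
    unfold E0g
    rw [Real.exp_le_one_iff]
    linarith
  calc pin w x₀ h * E0g M m (re h - F) ≤ pin w x₀ h * 1 :=
        mul_le_mul_of_nonneg_left h3 (H963.pin_nonneg hw.nn x₀ h)
    _ = pin w x₀ h := mul_one _

/-- lower bound of the quadratic form on the slab -/
lemma qf_slab (hM : MF M m) (x₀ : V) : ∃ a C : ℝ, 0 < a ∧ 0 ≤ C ∧ ∀ F ∈ slab x₀,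
    a * ∑ x, F x ^ 2 - C ≤ qf (ntr M m) F := by
  obtain ⟨m0, hm0, hc⟩ := hM.coer
  have hN : (0 : ℝ) ≤ Fintype.card V := Nat.cast_nonneg _
  set c : ℝ := m0 / (2 * (1 + Fintype.card V)) with hcdef
  have hc0 : 0 < c := by positivity
  refine ⟨c / 2, c * Fintype.card V, by positivity, by positivity, fun F hF => ?_⟩
  have h1 := H963.gap_pin hm0.le (H963.ntr_gap hM.symm hM.row hc) x₀ F
  have h2 : ∑ x, (F x ^ 2 / 2 - 1) ≤ ∑ x, (F x - F x₀) ^ 2 := by
    refine Finset.sum_le_sum fun x _ => ?_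
    have h3 : F x₀ ∈ Set.Ico (0 : ℝ) 1 := hF
    have h4 : F x₀ ^ 2 ≤ 1 := by nlinarith [h3.1, h3.2]
    nlinarith [sq_nonneg (F x - 2 * F x₀)]
  rw [Finset.sum_sub_distrib, ← Finset.sum_div, Finset.sum_const, Finset.card_univ, nsmul_eq_mul,
    mul_one] at h2
  have h5 : c * (∑ x, F x ^ 2 / 2 - Fintype.card V) ≤ c * ∑ x, (F x - F x₀) ^ 2 := by
    refine mul_le_mul_of_nonneg_left ?_ hc0.le
    rw [← Finset.sum_div]
    exact h2
  have h6 : ∑ x, F x ^ 2 / 2 = (∑ x, F x ^ 2) / 2 := by rw [Finset.sum_div]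
  rw [h6] at h5
  have h7 : c * ∑ x, (F x - F x₀) ^ 2 ≤ qf (ntr M m) F := h1
  calc c / 2 * ∑ x, F x ^ 2 - c * Fintype.card V = c * ((∑ x, F x ^ 2) / 2 - Fintype.card V) := by ring
    _ ≤ _ := h5.trans h7

lemma integrable_gsq {a : ℝ} (ha : 0 < a) :
    Integrable fun F : V → ℝ => Real.exp (-(a * ∑ x, F x ^ 2)) := by
  have h1 : ∀ F : V → ℝ, Real.exp (-(a * ∑ x, F x ^ 2)) = ∏ x, Real.exp (-a * F x ^ 2) := by
    intro F
    rw [← Real.exp_sum]
    congr 1
    rw [Finset.mul_sum, ← Finset.sum_neg_distrib]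
    exact Finset.sum_congr rfl fun x _ => by ring
  simp only [h1]
  rw [volume_pi]
  exact Integrable.fintype_prod (f := fun _ x => Real.exp (-a * x ^ 2))
    fun _ => integrable_exp_neg_mul_sq ha

/-- polynomially weighted Gaussians are integrable on the slab -/
lemma integrable_slab (hM : MF M m) (x₀ : V) {H : (V → ℝ) → ℝ} (hm : Measurable H) {C : ℝ}
    (hH : ∀ F, |H F| ≤ C * Real.exp (C * ∑ x, |F x|)) :
    IntegrableOn (fun F => H F * E0g M m F) (slab x₀) := by
  obtain ⟨a, D, ha, hD, hq⟩ := qf_slab hM x₀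
  have hC : 0 ≤ C := by
    have h1 := (abs_nonneg _).trans (hH 0)
    simpa using h1
  -- `C |x| ≤ a x²/4 + C²/a`
  have hpt : ∀ F ∈ slab x₀, |H F * E0g M m F|
      ≤ C * Real.exp (D / 2 + Fintype.card V * (C ^ 2 / a)) * Real.exp (-(a / 4 * ∑ x, F x ^ 2)) := by
    intro F hF
    rw [abs_mul, abs_of_pos (E0g_pos _ _ _)]
    have h1 := hq F hF
    have h2 : C * ∑ x, |F x| ≤ a / 4 * ∑ x, F x ^ 2 + Fintype.card V * (C ^ 2 / a) := by
      have h3 : ∑ x, C * |F x| ≤ ∑ x, (a / 4 * F x ^ 2 + C ^ 2 / a) := by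
        refine Finset.sum_le_sum fun x _ => ?_
        have h4 : 0 ≤ (a / 2 * |F x| - C) ^ 2 / a := by positivity
        have h5 : (a / 2 * |F x| - C) ^ 2 / a = a / 4 * F x ^ 2 - C * |F x| + C ^ 2 / a := by
          rw [← sq_abs (F x)]
          field_simp
          ring
        linarith
      rw [← Finset.mul_sum, Finset.sum_add_distrib, ← Finset.mul_sum, Finset.sum_const,
        Finset.card_univ, nsmul_eq_mul] at h3
      exact h3
    calc |H F| * E0g M m F ≤ (C * Real.exp (C * ∑ x, |F x|)) * E0g M m F :=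
          mul_le_mul_of_nonneg_right (hH F) (E0g_pos _ _ _).le
      _ = C * Real.exp (C * ∑ x, |F x| + -(qf (ntr M m) F / 2)) := by
          unfold E0g
          rw [mul_assoc, ← Real.exp_add]
      _ ≤ C * Real.exp ((D / 2 + Fintype.card V * (C ^ 2 / a)) + -(a / 4 * ∑ x, F x ^ 2)) := by
          refine mul_le_mul_of_nonneg_left (Real.exp_le_exp.2 ?_) hC
          linarith
      _ = _ := by rw [Real.exp_add]; ring
  have hg := ((integrable_gsq (V := V) (a := a / 4) (by positivity)).const_mul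
    (C * Real.exp (D / 2 + Fintype.card V * (C ^ 2 / a)))).integrableOn (s := slab x₀)
  refine hg.mono' (hm.mul (continuous_E0g M m).measurable).aestronglyMeasurable ?_
  refine (ae_restrict_iff' (measurableSet_slab x₀)).2 (Filter.Eventually.of_forall fun F hF => ?_)
  rw [Real.norm_eq_abs]
  exact hpt F hF

lemma E0g_int (hM : MF M m) (x₀ : V) : IntegrableOn (E0g M m) (slab x₀) := by
  have := integrable_slab hM x₀ (H := fun _ => 1) measurable_const (C := 1) (fun F => by
    rw [abs_one, one_mul, one_mul]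
    exact Real.one_le_exp (Finset.sum_nonneg fun _ _ => abs_nonneg _))
  simpa using this

lemma slab_pos (x₀ : V) : 0 < (volume : Measure (V → ℝ)) (slab x₀) := by
  have h1 : IsOpen {F : V → ℝ | F x₀ ∈ Set.Ioo (0 : ℝ) 1} :=
    isOpen_Ioo.preimage (continuous_apply x₀)
  have h2 : {F : V → ℝ | F x₀ ∈ Set.Ioo (0 : ℝ) 1}.Nonempty :=
    ⟨fun _ => 1 / 2, by constructor <;> norm_num⟩
  exact lt_of_lt_of_le (h1.measure_pos volume h2)
    (measure_mono fun F hF => Set.Ioo_subset_Ico_self hF)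

/-- slab integrals of positive functions are positive -/
lemma SI_pos {H : (V → ℝ) → ℝ} (hH : ∀ F, 0 < H F) (x₀ : V) (hi : IntegrableOn H (slab x₀)) :
    0 < SI x₀ H := by
  unfold SI
  rw [setIntegral_pos_iff_support_of_nonneg_ae (Filter.Eventually.of_forall fun F => (hH F).le) hi]
  have : Function.support H = Set.univ := by
    ext F
    simp [(hH F).ne']
  rw [this, Set.univ_inter]
  exact slab_pos x₀

/-- `∫ exp (-<F, M₀ F>/2)` over the real fields modulo constants -/
def Gs (M : Matrix V V ℝ) (m : ℝ) (x₀ : V) : ℝ := SI x₀ (E0g M m)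

lemma Gs_pos (hM : MF M m) (x₀ : V) : 0 < Gs M m x₀ := SI_pos (E0g_pos M m) x₀ (E0g_int hM x₀)

lemma E0g_neg (M : Matrix V V ℝ) (m : ℝ) (F : V → ℝ) : E0g M m (-F) = E0g M m F := by
  unfold E0g
  rw [H37.qf_neg]

lemma E0g_sub (M : Matrix V V ℝ) (m : ℝ) (F u : V → ℝ) : E0g M m (u - F) = E0g M m (F + -u) := by
  rw [← E0g_neg]
  congr 1
  abel

/-- **slab integral against the neutral partition function**, general functional -/
theorem BW.SI_Zn_gen (hw : BW w) (hM : MF M m) (x₀ : V) {H : (V → ℝ) → ℝ} (hH : CI H)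
    (hm : Measurable H) {C : ℝ} (hb : ∀ F, |H F| ≤ C * Real.exp (C * ∑ x, |F x|)) :
    IntegrableOn (fun F => H F * Zn w M F) (slab x₀) ∧
    (Summable fun h => pin w x₀ h * SI x₀ fun F => H (F + re h) * E0g M m F) ∧
    SI x₀ (fun F => H F * Zn w M F)
      = kap V m * ∑' h, pin w x₀ h * SI x₀ fun F => H (F + re h) * E0g M m F := by
  have hC : 0 ≤ C := by
    have h1 := (abs_nonneg _).trans (hb 0)
    simpa using h1
  have hp0 : ∀ h, 0 ≤ pin w x₀ h := H963.pin_nonneg hw.nn x₀
  -- shifted functionals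
  have hbs : ∀ (h : V → ℤ) (F : V → ℝ), |H (F + re h)|
      ≤ (C * Real.exp (C * nh h)) * Real.exp (C * ∑ x, |F x|) := by
    intro h F
    refine (hb _).trans ?_
    rw [mul_assoc, ← Real.exp_add, ← mul_add]
    refine mul_le_mul_of_nonneg_left (Real.exp_le_exp.2 (mul_le_mul_of_nonneg_left ?_ hC)) hC
    unfold nh
    rw [← Finset.sum_add_distrib]
    refine Finset.sum_le_sum fun x _ => ?_
    rw [add_comm]
    exact abs_add_le _ _
  have hms : ∀ h : V → ℤ, Measurable fun F : V → ℝ => H (F + re h) := fun h =>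
    hm.comp (measurable_id.add_const _)
  -- dominated by one integrable function
  set G : (V → ℝ) → ℝ := fun F => Real.exp (C * ∑ x, |F x|) * E0g M m F with hG
  have hGi : IntegrableOn G (slab x₀) := by
    refine integrable_slab hM x₀ (C := C + 1) (by fun_prop) fun F => ?_
    rw [abs_of_pos (Real.exp_pos _)]
    have hs : 0 ≤ ∑ x, |F x| := Finset.sum_nonneg fun _ _ => abs_nonneg _
    calc Real.exp (C * ∑ x, |F x|) ≤ Real.exp ((C + 1) * ∑ x, |F x|) :=
          Real.exp_le_exp.2 (mul_le_mul_of_nonneg_right (by linarith) hs)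
      _ ≤ (C + 1) * Real.exp ((C + 1) * ∑ x, |F x|) := by
          nlinarith [Real.exp_pos ((C + 1) * ∑ x, |F x|)]
  have hGn : ∀ F, 0 ≤ G F := fun F => mul_nonneg (Real.exp_pos _).le (E0g_pos _ _ _).le
  have hti : ∀ h : V → ℤ, IntegrableOn (fun F => H (F + re h) * E0g M m F) (slab x₀) := by
    intro h
    refine ((hGi.const_mul (C * Real.exp (C * nh h))).mono'
      ((hms h).mul (continuous_E0g M m).measurable).aestronglyMeasurable
      (Filter.Eventually.of_forall fun F => ?_))
    rw [Real.norm_eq_abs, abs_mul, abs_of_pos (E0g_pos _ _ _)]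
    calc |H (F + re h)| * E0g M m F
        ≤ ((C * Real.exp (C * nh h)) * Real.exp (C * ∑ x, |F x|)) * E0g M m F :=
          mul_le_mul_of_nonneg_right (hbs h F) (E0g_pos _ _ _).le
      _ = _ := by simp only [hG]; ring
  have htb : ∀ h : V → ℤ, ∫ F in slab x₀, |H (F + re h) * E0g M m F|
      ≤ C * Real.exp (C * nh h) * SI x₀ G := by
    intro h
    unfold SI
    rw [← integral_const_mul]
    refine integral_mono (hti h).abs (hGi.const_mul _) fun F => ?_
    simp only
    rw [abs_mul, abs_of_pos (E0g_pos _ _ _)]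
    calc |H (F + re h)| * E0g M m F
        ≤ ((C * Real.exp (C * nh h)) * Real.exp (C * ∑ x, |F x|)) * E0g M m F :=
          mul_le_mul_of_nonneg_right (hbs h F) (E0g_pos _ _ _).le
      _ = _ := by simp only [hG]; ring
  -- the unshifted terms
  have hE : ∀ (h : V → ℤ) (F : V → ℝ), H (F + -re h + re h) * E0g M m (F + -re h)
      = H F * E0g M m (re h - F) := by
    intro h F
    rw [E0g_sub, neg_add_cancel_right]
  have hcis : ∀ h : V → ℤ, CI fun F' : V → ℝ => H (F' + re h) * E0g M m F' := fun h =>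
    (hH.shift (re h)).mul (ci_E0g hM)
  have hui : ∀ h : V → ℤ, IntegrableOn (fun F => H F * (pin w x₀ h * E0g M m (re h - F)))
      (slab x₀) := by
    intro h
    have h1 := (SI_shift_int (hcis h) x₀ (-re h) (hti h)).const_mul (pin w x₀ h)
    refine h1.congr (Filter.Eventually.of_forall fun F => ?_)
    simp only
    rw [hE h F]
    ring
  have huI : ∀ h : V → ℤ, ∫ F in slab x₀, H F * (pin w x₀ h * E0g M m (re h - F))
      = pin w x₀ h * SI x₀ fun F => H (F + re h) * E0g M m F := by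
    intro h
    rw [← SI_shift (hcis h) x₀ (-re h)]
    unfold SI
    rw [← integral_const_mul]
    refine integral_congr_ae (Filter.Eventually.of_forall fun F => ?_)
    simp only
    rw [hE h F]
    ring
  have hun : ∀ h : V → ℤ, ∫ F in slab x₀, ‖H F * (pin w x₀ h * E0g M m (re h - F))‖
      ≤ C * SI x₀ G * (pin w x₀ h * Real.exp (C * nh h)) := by
    intro h
    have hciA : CI fun F' : V → ℝ => |H (F' + re h) * E0g M m F'| := (hcis h).comp fun r => |r|
    have h1 : ∫ F in slab x₀, ‖H F * (pin w x₀ h * E0g M m (re h - F))‖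
        = pin w x₀ h * SI x₀ fun F => |H (F + re h) * E0g M m F| := by
      rw [← SI_shift hciA x₀ (-re h)]
      unfold SI
      rw [← integral_const_mul]
      refine integral_congr_ae (Filter.Eventually.of_forall fun F => ?_)
      simp only
      rw [hE h F, Real.norm_eq_abs, mul_left_comm, abs_mul, abs_of_nonneg (hp0 h)]
    rw [h1]
    calc pin w x₀ h * SI x₀ (fun F => |H (F + re h) * E0g M m F|)
        ≤ pin w x₀ h * (C * Real.exp (C * nh h) * SI x₀ G) :=
          mul_le_mul_of_nonneg_left (htb h) (hp0 h)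
      _ = _ := by ring
  have hsum : Summable fun h : V → ℤ =>
      ∫ F in slab x₀, ‖H F * (pin w x₀ h * E0g M m (re h - F))‖ :=
    Summable.of_nonneg_of_le (fun h => integral_nonneg fun F => norm_nonneg _) hun
      (((hw.em0 x₀).sum C).mul_left _)
  have hkey := hasSum_integral_of_summable_integral_norm (F := fun (h : V → ℤ) (F : V → ℝ) =>
    H F * (pin w x₀ h * E0g M m (re h - F))) (μ := volume.restrict (slab x₀)) hui hsum
  simp only [huI] at hkey
  have hpt : ∀ F : V → ℝ, ∑' h, H F * (pin w x₀ h * E0g M m (re h - F))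
      = H F * ∑' h, pin w x₀ h * E0g M m (re h - F) := fun F => tsum_mul_left
  -- integrability of the sum
  have hint : IntegrableOn (fun F => H F * ∑' h, pin w x₀ h * E0g M m (re h - F)) (slab x₀) := by
    -- absolute values
    have hsumL : ∑' h : V → ℤ, ∫⁻ F in slab x₀,
        ENNReal.ofReal ‖H F * (pin w x₀ h * E0g M m (re h - F))‖ ≠ ⊤ := by
      have h1 : ∀ h : V → ℤ, ∫⁻ F in slab x₀,
          ENNReal.ofReal ‖H F * (pin w x₀ h * E0g M m (re h - F))‖
          = ENNReal.ofReal (∫ F in slab x₀, ‖H F * (pin w x₀ h * E0g M m (re h - F))‖) := fun h =>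
        (ofReal_integral_eq_lintegral_ofReal (hui h).norm
          (Filter.Eventually.of_forall fun F => norm_nonneg _)).symm
      simp only [h1]
      exact hsum.tsum_ofReal_ne_top
    have hmeas : Measurable fun F : V → ℝ => H F * ∑' h, pin w x₀ h * E0g M m (re h - F) := by
      refine hm.mul ?_
      have e : (fun F : V → ℝ => ∑' h, pin w x₀ h * E0g M m (re h - F))
          = fun F => (kap V m)⁻¹ * Zn w M F := by
        funext F
        rw [hw.Zn_pin hM x₀ F, ← mul_assoc, inv_mul_cancel₀ (kap_pos hM.pos).ne', one_mul]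
      rw [e]
      exact ((hw.contZn hM).measurable).const_mul _
    refine ⟨hmeas.aestronglyMeasurable, ?_⟩
    rw [hasFiniteIntegral_iff_norm]
    refine lt_of_le_of_lt ?_ (lt_top_iff_ne_top.2 hsumL)
    rw [← lintegral_tsum fun h => ?_]
    · refine lintegral_mono fun F => ?_
      have hs := (hw.term_le hM x₀ F).mul_left |H F|
      have h2 : ‖H F * ∑' h, pin w x₀ h * E0g M m (re h - F)‖
          = ∑' h, ‖H F * (pin w x₀ h * E0g M m (re h - F))‖ := by
        have h3 : ∀ h : V → ℤ, ‖H F * (pin w x₀ h * E0g M m (re h - F))‖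
            = |H F| * (pin w x₀ h * E0g M m (re h - F)) := by
          intro h
          rw [Real.norm_eq_abs, abs_mul, abs_of_nonneg (mul_nonneg (hp0 h) (E0g_pos _ _ _).le)]
        simp only [h3]
        rw [tsum_mul_left, Real.norm_eq_abs, abs_mul,
          abs_of_nonneg (tsum_nonneg fun h => mul_nonneg (hp0 h) (E0g_pos _ _ _).le)]
      rw [h2, ENNReal.ofReal_tsum_of_nonneg (fun h => norm_nonneg _)]
      refine hs.congr fun h => ?_
      rw [Real.norm_eq_abs, abs_mul, abs_of_nonneg (mul_nonneg (hp0 h) (E0g_pos _ _ _).le)]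
    · exact ((hui h).norm.aestronglyMeasurable).aemeasurable.ennreal_ofReal
  refine ⟨?_, hkey.summable, ?_⟩
  · refine (hint.const_mul (kap V m)).congr (Filter.Eventually.of_forall fun F => ?_)
    simp only
    rw [hw.Zn_pin hM x₀ F]
    ring
  · rw [hkey.tsum_eq]
    unfold SI
    rw [← integral_const_mul]
    refine integral_congr_ae (Filter.Eventually.of_forall fun F => ?_)
    simp only
    rw [hpt F, hw.Zn_pin hM x₀ F]
    ring

/-- the constant relating the level `M` to the massless model -/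
def cI (M : Matrix V V ℝ) (m : ℝ) (x₀ : V) : ℝ := kap V m * Gs M m x₀

lemma cI_pos (hM : MF M m) (x₀ : V) : 0 < cI M m x₀ := mul_pos (kap_pos hM.pos) (Gs_pos hM x₀)

theorem BW.Zp_pos (hw : BW w) (x₀ : V) : 0 < Zp w x₀ := by
  have hs : Summable (pin w x₀) := by
    have := (hw.em0 x₀).sum 0
    simpa using this
  refine hs.tsum_pos (H963.pin_nonneg hw.nn x₀) 0 ?_
  have h0 : pin w x₀ 0 = w 0 := H963.pin_of_zero (h := (0 : V → ℤ)) rfl
  rw [h0]
  exact hw.pos

/-- **the slab integral of `Zn`**: the massless partition function, up to a constant which does not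
depend on the weight -/
theorem BW.SI_Zn (hw : BW w) (hM : MF M m) (x₀ : V) :
    IntegrableOn (Zn w M) (slab x₀) ∧ SI x₀ (Zn w M) = cI M m x₀ * Zp w x₀ := by
  have h := hw.SI_Zn_gen hM x₀ (H := fun _ => 1) (fun _ _ => rfl) measurable_const (C := 1)
    (fun F => by
      rw [abs_one, one_mul, one_mul]
      exact Real.one_le_exp (Finset.sum_nonneg fun _ _ => abs_nonneg _))
  simp only [one_mul] at h
  refine ⟨h.1, ?_⟩
  rw [h.2.2, tsum_mul_right]
  unfold cI Zp Gs
  ring

theorem BW.SI_Zn_pos (hw : BW w) (hM : MF M m) (x₀ : V) : 0 < SI x₀ (Zn w M) := by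
  rw [(hw.SI_Zn hM x₀).2]
  exact mul_pos (cI_pos hM x₀) (hw.Zp_pos x₀)

end

end Vale.Agent.P159.H883
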