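import Vale.Agent.P159.H883.Twr5
import Vale.Agent.P159.H663.Tilt
import Vale.Agent.P159.H859.Box

/-!
P159, module BRG (helper883), part 1: Gaussian facts. `tiltB`: tilting the standard Gaussian noise of
a channel by a quadratic form (any noise matrix `B`), as an identity of measures; `leb_gau`: the
measure `exp (-<F,H F>/2) dF` on the real fields modulo constants is the law of `C' a` as soon as
`H C' C'ᵀ H = H`.
-/

set_option linter.unusedSectionVars false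

namespace Vale.Agent.P159.H883

open Finset Matrix MeasureTheory ProbabilityTheory
open Vale.Agent.P159.TM.H104 (EM nh Gr li)
open Vale.Agent.P159.H37 (wM ZM qf bf Zn Zs re gau)
open Vale.Agent.P159.H963 (GrI pin MF ntr)
open Vale.Agent.P159.H896 (Chn cN)
open Vale.Agent.P159.H363 (law_integral_eq law_integral_eq_add measurable_mulVec)

noncomputable section

variable {V : Type} [Fintype V] [DecidableEq V]
variable {I I' J : Type} [Fintype I] [Fintype I'] [Fintype J] [DecidableEq I]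
variable {H H' : Matrix V V ℝ} {B : Matrix V I ℝ} {K : Matrix I V ℝ} {A : Matrix V I' ℝ}

/-! ### algebra of the channel -/

/-- `1 + Bᵀ H B` -/
def QB (H : Matrix V V ℝ) (B : Matrix V I ℝ) : Matrix I I ℝ := Bᵀ * H * B

lemma QB_symm (hH : Hᵀ = H) (B : Matrix V I ℝ) : (QB H B)ᵀ = QB H B := by
  unfold QB
  rw [transpose_mul, transpose_mul, transpose_transpose, hH, Matrix.mul_assoc]

lemma qf_QB (H : Matrix V V ℝ) (B : Matrix V I ℝ) (g : I → ℝ) : qf (QB H B) g = qf H (B *ᵥ g) := by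
  unfold QB
  rw [H37.qf_eq, H37.qf_eq, ← mulVec_mulVec, ← mulVec_mulVec, dotProduct_mulVec g Bᵀ,
    vecMul_transpose]

lemma QB_nn (h0 : ∀ u : V → ℝ, 0 ≤ qf H u) (B : Matrix V I ℝ) (g : I → ℝ) : 0 ≤ qf (QB H B) g := by
  rw [qf_QB]
  exact h0 _

lemma isUnit_QB (hH : Hᵀ = H) (h0 : ∀ u : V → ℝ, 0 ≤ qf H u) (B : Matrix V I ℝ) :
    IsUnit (1 + QB H B).det := by
  have hpd : (1 + QB H B).PosDef := by
    refine Matrix.PosDef.of_dotProduct_mulVec_pos ?_ fun x hx => ?_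
    · rw [Matrix.IsHermitian, conjTranspose_eq_transpose_of_trivial, transpose_add, transpose_one,
        QB_symm hH]
    · have h1 := H663.pd_of_psd (QB_nn h0 B) zero_le_one x hx
      rw [one_smul, H37.qf_eq] at h1
      simpa using h1
  exact hpd.det_pos.ne'.isUnit

/-- **the conditional covariance** `B (1 + Bᵀ H B)⁻¹ Bᵀ` is the solution of `Γ (1 + H B Bᵀ) = B Bᵀ` -/
lemma cov_unique (hH : Hᵀ = H) (h0 : ∀ u : V → ℝ, 0 ≤ qf H u) {Γ : Matrix V V ℝ}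
    (hΓ : Γ + Γ * H * (B * Bᵀ) = B * Bᵀ) : Γ = B * (1 + QB H B)⁻¹ * Bᵀ := by
  have hu := isUnit_QB hH h0 B
  set R := (1 + QB H B)⁻¹ with hR
  have h1 : (1 + QB H B) * R = 1 := Matrix.mul_nonsing_inv _ hu
  have h2 : R * (1 + QB H B) = 1 := Matrix.nonsing_inv_mul _ hu
  have e1 : (1 + H * (B * Bᵀ)) * (1 - H * B * R * Bᵀ) = 1 := by
    have e2 : H * B * ((1 + QB H B) * R) * Bᵀ = H * B * Bᵀ := by rw [h1, Matrix.mul_one]
    have e3 : H * B * ((1 + QB H B) * R) * Bᵀ =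
        H * B * R * Bᵀ + H * (B * Bᵀ) * (H * B * R * Bᵀ) := by
      unfold QB
      simp only [Matrix.add_mul, Matrix.mul_add, Matrix.one_mul, Matrix.mul_assoc]
    rw [Matrix.add_mul, Matrix.mul_sub, Matrix.mul_sub]
    simp only [Matrix.one_mul, Matrix.mul_one]
    have e4 : H * (B * Bᵀ) = H * B * R * Bᵀ + H * (B * Bᵀ) * (H * B * R * Bᵀ) := by
      rw [← e3, e2, Matrix.mul_assoc]
    calc 1 - H * B * R * Bᵀ + (H * (B * Bᵀ) - H * (B * Bᵀ) * (H * B * R * Bᵀ))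
        = 1 - H * B * R * Bᵀ + (H * B * R * Bᵀ + H * (B * Bᵀ) * (H * B * R * Bᵀ) -
            H * (B * Bᵀ) * (H * B * R * Bᵀ)) := by rw [← e4]
      _ = 1 := by abel
  have k1 : Γ * (1 + H * (B * Bᵀ)) = B * Bᵀ := by
    rw [Matrix.mul_add, Matrix.mul_one, ← Matrix.mul_assoc, hΓ]
  have k2 : B * R * Bᵀ * (1 + H * (B * Bᵀ)) = B * Bᵀ := by
    have : B * (R * (1 + QB H B)) * Bᵀ = B * Bᵀ := by rw [h2, Matrix.mul_one]
    refine Eq.trans ?_ this
    unfold QB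
    simp only [Matrix.add_mul, Matrix.mul_add, Matrix.mul_one, Matrix.mul_assoc]
  calc Γ = Γ * ((1 + H * (B * Bᵀ)) * (1 - H * B * R * Bᵀ)) := by rw [e1, Matrix.mul_one]
    _ = B * Bᵀ * (1 - H * B * R * Bᵀ) := by rw [← Matrix.mul_assoc, k1]
    _ = B * R * Bᵀ * ((1 + H * (B * Bᵀ)) * (1 - H * B * R * Bᵀ)) := by
        rw [← Matrix.mul_assoc, k2]
    _ = _ := by rw [e1, Matrix.mul_one]

/-- existence of the window matrices -/
theorem exists_win (hH : Hᵀ = H) (h0 : ∀ u : V → ℝ, 0 ≤ qf H u) (B : Matrix V I ℝ) :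
    ∃ A1 : Matrix I I ℝ, A1 * A1ᵀ = (1 + QB H B)⁻¹ := by
  apply H859.exists_gram
  have hpd : (1 + QB H B).PosDef := by
    refine Matrix.PosDef.of_dotProduct_mulVec_pos ?_ fun x hx => ?_
    · rw [Matrix.IsHermitian, conjTranspose_eq_transpose_of_trivial, transpose_add, transpose_one,
        QB_symm hH]
    · have h1 := H663.pd_of_psd (QB_nn h0 B) zero_le_one x hx
      rw [one_smul, H37.qf_eq] at h1
      simpa using h1
  exact hpd.inv.posSemidef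

/-- the channel matrix `K = (1 + Bᵀ H B)⁻¹ Bᵀ H` exists -/
theorem exists_chn (hH : Hᵀ = H) (h0 : ∀ u : V → ℝ, 0 ≤ qf H u) (B : Matrix V I ℝ) :
    Chn H (H - H * B * ((1 + QB H B)⁻¹ * Bᵀ * H)) B ((1 + QB H B)⁻¹ * Bᵀ * H) where
  sym := hH
  nn := h0
  eq1 := by
    have h1 : (1 + QB H B) * (1 + QB H B)⁻¹ = 1 := Matrix.mul_nonsing_inv _ (isUnit_QB hH h0 B)
    have h2 : (1 + QB H B) * ((1 + QB H B)⁻¹ * Bᵀ * H) = Bᵀ * H := by
      rw [Matrix.mul_assoc, ← Matrix.mul_assoc, h1, Matrix.one_mul]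
    rw [Matrix.add_mul, Matrix.one_mul] at h2
    exact h2
  eq2 := by simp only [Matrix.mul_assoc]

/-- the weight: `v = K f`, `u = f - B v`: `|v|² + <u,Hu> = <f,H'f>` and `Bᵀ H u = v` -/
lemma chn_split (h : Chn H H' B K) (f : V → ℝ) :
    Bᵀ *ᵥ (H *ᵥ (f - B *ᵥ (K *ᵥ f))) = K *ᵥ f ∧
    (K *ᵥ f) ⬝ᵥ (K *ᵥ f) + qf H (f - B *ᵥ (K *ᵥ f)) = qf H' f := by
  set v : I → ℝ := K *ᵥ f with hv
  have hkey : v + Bᵀ *ᵥ (H *ᵥ (B *ᵥ v)) = Bᵀ *ᵥ (H *ᵥ f) := by
    have := congrArg (fun X : Matrix I V ℝ => X *ᵥ f) h.eq1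
    simp only [add_mulVec, ← mulVec_mulVec] at this
    exact this
  have h3 : ∀ (g : I → ℝ) (z : V → ℝ), bf H (B *ᵥ g) z = g ⬝ᵥ (Bᵀ *ᵥ (H *ᵥ z)) := by
    intro g z
    rw [H37.bf_eq, dotProduct_mulVec g, vecMul_transpose]
  have e2 : qf H' f = qf H f - bf H (B *ᵥ v) f := by
    rw [h.eq2]
    have h4 : qf (H - H * B * K) f = qf H f - f ⬝ᵥ (H * B * K) *ᵥ f := by
      rw [H37.qf_eq, H37.qf_eq, sub_mulVec, dotProduct_sub]
    rw [h4, ← mulVec_mulVec, ← mulVec_mulVec, ← hv, H37.bf_comm h.sym, H37.bf_eq]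
  constructor
  · rw [mulVec_sub, mulVec_sub, ← hkey]
    abel
  · have h5 : v ⬝ᵥ v + bf H (B *ᵥ v) (B *ᵥ v) = bf H (B *ᵥ v) f := by
      rw [h3, h3, ← dotProduct_add, hkey]
    rw [H37.qf_sub_vec h.sym, e2, H37.bf_comm h.sym f]
    rw [H37.bf_self] at h5
    linarith

/-! ### tilt of the channel noise -/

/-- **TILT**, any noise matrix, bounded functions -/
theorem tiltB_int (h : Chn H H' B K) (hA : A * Aᵀ = B * (1 + QB H B)⁻¹ * Bᵀ) (f : V → ℝ)
    {G : (V → ℝ) → ℝ} (hG : Measurable G) :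
    ∫ g, Real.exp (-(qf H (f + B *ᵥ g) / 2)) * G (f + B *ᵥ g) ∂(gau I) =
      cN H B * Real.exp (-(qf H' f / 2)) *
        ∫ g, G ((f - B *ᵥ (K *ᵥ f)) + A *ᵥ g) ∂(gau I') := by
  set v : I → ℝ := K *ᵥ f with hv
  set u : V → ℝ := f - B *ᵥ v with hu
  obtain ⟨k1, k2⟩ := chn_split h f
  rw [← hv, ← hu] at k1 k2
  -- shift
  have h1 := H37.gau_shift v fun g : I → ℝ =>
    Real.exp (-(qf H (f + B *ᵥ (g - v)) / 2)) * G (f + B *ᵥ (g - v))
  have e0 : ∀ g : I → ℝ, g + v - v = g := fun g => by abel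
  simp only [e0] at h1
  have e1 : ∀ g : I → ℝ, Real.exp ((∑ i, v i * g i) - (∑ i, v i ^ 2) / 2) *
      (Real.exp (-(qf H (f + B *ᵥ (g - v)) / 2)) * G (f + B *ᵥ (g - v))) =
      Real.exp (-(qf H' f / 2)) * (Real.exp (-(qf (QB H B) g / 2)) * G (u + B *ᵥ g)) := by
    intro g
    have e2 : f + B *ᵥ (g - v) = u + B *ᵥ g := by
      rw [hu, mulVec_sub]
      abel
    rw [e2, ← mul_assoc, ← mul_assoc, ← Real.exp_add, ← Real.exp_add]
    congr 2
    have s1 : (∑ i, v i * g i) = v ⬝ᵥ g := rfl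
    have s2 : (∑ i, v i ^ 2) = v ⬝ᵥ v := by
      rw [dotProduct]
      exact Finset.sum_congr rfl fun i _ => pow_two (v i)
    have s3 : bf H u (B *ᵥ g) = v ⬝ᵥ g := by
      rw [H37.bf_comm h.sym, H37.bf_eq, ← k1, dotProduct_comm (Bᵀ *ᵥ (H *ᵥ u)) g,
        dotProduct_mulVec g, vecMul_transpose]
    rw [s1, s2, H37.qf_add_vec h.sym, s3, qf_QB]
    linarith
  rw [h1]
  simp only [e1]
  rw [integral_const_mul]
  -- centred tilt
  obtain ⟨A1, hA1⟩ := exists_win h.sym h.nn B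
  have hA1' : A1 * A1ᵀ = (1 : ℝ) ^ 2 • (1 + (1 : ℝ) ^ 2 • QB H B)⁻¹ := by
    rw [one_pow, one_smul, one_smul]
    exact hA1
  have hmG : StronglyMeasurable fun g : I → ℝ => G (u + B *ᵥ g) :=
    (hG.comp (H896.measurable_chn u)).stronglyMeasurable
  have t1 := H663.tilt (QB_symm h.sym B) (QB_nn h.nn B) 1 hA1' 0 hmG
  have t2 := H663.tilt (E := ℝ) (QB_symm h.sym B) (QB_nn h.nn B) 1 hA1' 0
    (G := fun _ => (1 : ℝ)) stronglyMeasurable_const
  simp only [one_smul, zero_add, mulVec_zero, smul_eq_mul, mul_one, integral_const,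
    probReal_univ] at t1 t2
  have hc : H663.tc (1 ^ 2) (QB H B) 0 = cN H B := by
    rw [← t2]
    unfold cN
    simp only [qf_QB]
  rw [t1, hc]
  have hlaw := law_integral_eq_add (B * A1) A (by
    rw [transpose_mul, Matrix.mul_assoc, ← Matrix.mul_assoc A1, hA1, ← Matrix.mul_assoc, hA]) u G
    hG.stronglyMeasurable
  simp only [← mulVec_mulVec] at hlaw
  rw [hlaw]
  ring

/-- **TILT** as an identity of measures -/
theorem tiltB_meas (h : Chn H H' B K) (hA : A * Aᵀ = B * (1 + QB H B)⁻¹ * Bᵀ) (f : V → ℝ) :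
    ((gau I).withDensity fun g => ENNReal.ofReal (Real.exp (-(qf H (f + B *ᵥ g) / 2)))).map
      (fun g => f + B *ᵥ g) =
    ENNReal.ofReal (cN H B * Real.exp (-(qf H' f / 2))) •
      (gau I').map fun g => (f - B *ᵥ (K *ᵥ f)) + A *ᵥ g := by
  have hc := H896.cN_pos (B := B) h.nn
  ext s hs
  have hm1 : Measurable fun g : I → ℝ => f + B *ᵥ g := H896.measurable_chn f
  have hm2 : Measurable fun g : I' → ℝ => (f - B *ᵥ (K *ᵥ f)) + A *ᵥ g := H896.measurable_chn _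
  rw [Measure.map_apply hm1 hs, withDensity_apply _ (hm1 hs), Measure.smul_apply,
    Measure.map_apply hm2 hs, smul_eq_mul]
  have h1 := tiltB_int h hA f (G := s.indicator fun _ => (1 : ℝ))
    (measurable_const.indicator hs)
  have hi := H896.chn_integrable (B := B) h.nn f
  have e1 : ∫⁻ g in (fun g : I → ℝ => f + B *ᵥ g) ⁻¹' s,
      ENNReal.ofReal (Real.exp (-(qf H (f + B *ᵥ g) / 2))) ∂(gau I) =
      ENNReal.ofReal (∫ g, Real.exp (-(qf H (f + B *ᵥ g) / 2)) *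
        s.indicator (fun _ => (1 : ℝ)) (f + B *ᵥ g) ∂(gau I)) := by
    rw [← ofReal_integral_eq_lintegral_ofReal hi.integrableOn
      (Filter.Eventually.of_forall fun g => (Real.exp_pos _).le), ← integral_indicator (hm1 hs)]
    congr 1
    refine integral_congr_ae (Filter.Eventually.of_forall fun g => ?_)
    by_cases hg : f + B *ᵥ g ∈ s
    · simp only [Set.indicator_of_mem hg, mul_one]
      exact Set.indicator_of_mem (show g ∈ (fun g : I → ℝ => f + B *ᵥ g) ⁻¹' s from hg) _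
    · simp only [Set.indicator_of_notMem hg, mul_zero]
      exact Set.indicator_of_notMem (show g ∉ (fun g : I → ℝ => f + B *ᵥ g) ⁻¹' s from hg) _
  rw [e1, h1]
  have e2 : ∫ g, s.indicator (fun _ => (1 : ℝ)) ((f - B *ᵥ (K *ᵥ f)) + A *ᵥ g) ∂(gau I') =
      (gau I').real ((fun g : I' → ℝ => (f - B *ᵥ (K *ᵥ f)) + A *ᵥ g) ⁻¹' s) := by
    have e3 : (fun g : I' → ℝ => s.indicator (fun _ => (1 : ℝ)) ((f - B *ᵥ (K *ᵥ f)) + A *ᵥ g)) =
        ((fun g : I' → ℝ => (f - B *ᵥ (K *ᵥ f)) + A *ᵥ g) ⁻¹' s).indicator 1 := by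
      funext g
      by_cases hg : (f - B *ᵥ (K *ᵥ f)) + A *ᵥ g ∈ s
      · rw [Set.indicator_of_mem hg, Set.indicator_of_mem
          (show g ∈ (fun g : I' → ℝ => (f - B *ᵥ (K *ᵥ f)) + A *ᵥ g) ⁻¹' s from hg)]
        rfl
      · rw [Set.indicator_of_notMem hg, Set.indicator_of_notMem
          (show g ∉ (fun g : I' → ℝ => (f - B *ᵥ (K *ᵥ f)) + A *ᵥ g) ⁻¹' s from hg)]
    rw [e3, integral_indicator_one (hm2 hs)]
  rw [e2, ENNReal.ofReal_mul (by positivity)]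
  congr 1
  exact ofReal_measureReal

/-- **TILT** for nonnegative functions -/
theorem tiltB_lint (h : Chn H H' B K) (hA : A * Aᵀ = B * (1 + QB H B)⁻¹ * Bᵀ) (f : V → ℝ)
    {Φ : (V → ℝ) → ENNReal} (hΦ : Measurable Φ) :
    ∫⁻ g, ENNReal.ofReal (Real.exp (-(qf H (f + B *ᵥ g) / 2))) * Φ (f + B *ᵥ g) ∂(gau I) =
      ENNReal.ofReal (cN H B * Real.exp (-(qf H' f / 2))) *
        ∫⁻ g, Φ ((f - B *ᵥ (K *ᵥ f)) + A *ᵥ g) ∂(gau I') := by
  have hm1 : Measurable fun g : I → ℝ => f + B *ᵥ g := H896.measurable_chn f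
  have hm2 : Measurable fun g : I' → ℝ => (f - B *ᵥ (K *ᵥ f)) + A *ᵥ g := H896.measurable_chn _
  have hmd : Measurable fun g : I → ℝ => ENNReal.ofReal (Real.exp (-(qf H (f + B *ᵥ g) / 2))) :=
    (Real.measurable_exp.comp ((H896.continuous_qf.measurable.comp hm1).div_const 2).neg).ennreal_ofReal
  have h1 := congrArg (fun μ : Measure (V → ℝ) => ∫⁻ F, Φ F ∂μ) (tiltB_meas h hA f)
  simp only [lintegral_smul_measure] at h1
  rw [lintegral_map hΦ hm1, lintegral_map hΦ hm2] at h1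
  have h2 : ∫⁻ g, Φ (f + B *ᵥ g) ∂((gau I).withDensity fun g =>
      ENNReal.ofReal (Real.exp (-(qf H (f + B *ᵥ g) / 2)))) =
      ∫⁻ g, ENNReal.ofReal (Real.exp (-(qf H (f + B *ᵥ g) / 2))) * Φ (f + B *ᵥ g) ∂(gau I) :=
    lintegral_withDensity_eq_lintegral_mul _ hmd (hΦ.comp hm1)
  rw [← h2]
  exact h1

end

end Vale.Agent.P159.H883
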