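import Vale.Agent.P159.H883.Brg1

/-!
P159, module BRG (helper883), part 2: the measure `exp (-<F,H F>/2) dF` on the real fields modulo
constants is the law of `C a`, `a` standard Gaussian, as soon as `H C Cᵀ H = H`.
-/

set_option linter.unusedSectionVars false

namespace Vale.Agent.P159.H883

open Finset Matrix MeasureTheory ProbabilityTheory
open Vale.Agent.P159.H37 (wM ZM qf bf Zn Zs re gau)
open Vale.Agent.P159.H363 (law_integral_eq law_integral_eq_add measurable_mulVec)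

noncomputable section

variable {V : Type} [Fintype V] [DecidableEq V] [Nonempty V]
variable {J : Type} [Fintype J] {H : Matrix V V ℝ}

/-- quadratic forms whose kernel is the constants -/
structure PC (H : Matrix V V ℝ) : Prop where
  symm : Hᵀ = H
  nn : ∀ u : V → ℝ, 0 ≤ qf H u
  row : ∀ x, ∑ y, H x y = 0
  ker : ∀ u : V → ℝ, qf H u = 0 → ∀ x y, u x = u y

/-- projection onto the constants -/
def J1 (V : Type) [Fintype V] : Matrix V V ℝ := fun _ _ => ((Fintype.card V : ℝ))⁻¹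

lemma card_ne (V : Type) [Fintype V] [Nonempty V] : ((Fintype.card V : ℝ)) ≠ 0 :=
  Nat.cast_ne_zero.2 Fintype.card_ne_zero

lemma J1_symm : (J1 V)ᵀ = J1 V := rfl

lemma J1_mulVec (F : V → ℝ) : J1 V *ᵥ F = fun _ => (∑ x, F x) / Fintype.card V := by
  funext x
  simp only [J1, mulVec, dotProduct]
  rw [← Finset.mul_sum, div_eq_inv_mul]

lemma qf_J1 (F : V → ℝ) : qf (J1 V) F = (∑ x, F x) ^ 2 / Fintype.card V := by
  rw [H37.qf_eq, J1_mulVec]
  simp only [dotProduct]
  rw [← Finset.sum_mul]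
  ring

lemma J1_mul_J1 : J1 V * J1 V = J1 V := by
  ext x y
  have := card_ne V
  simp only [Matrix.mul_apply, J1, Finset.sum_const, Finset.card_univ, nsmul_eq_mul]
  field_simp

lemma PC.mul_J1 (hH : PC H) : H * J1 V = 0 := by
  ext x y
  simp only [Matrix.mul_apply, J1, Matrix.zero_apply]
  rw [← Finset.sum_mul, hH.row, zero_mul]

lemma PC.J1_mul (hH : PC H) : J1 V * H = 0 := by
  have := congrArg Matrix.transpose hH.mul_J1
  rwa [transpose_mul, J1_symm, hH.symm, transpose_zero] at this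

lemma qf_addM (A B : Matrix V V ℝ) (u : V → ℝ) : qf (A + B) u = qf A u + qf B u := by
  simp only [H37.qf_eq, add_mulVec, dotProduct_add]

lemma PC.pd (hH : PC H) : (H + J1 V).PosDef := by
  refine Matrix.PosDef.of_dotProduct_mulVec_pos ?_ fun x hx => ?_
  · rw [Matrix.IsHermitian, conjTranspose_eq_transpose_of_trivial, transpose_add, hH.symm, J1_symm]
  · have h1 : 0 < qf (H + J1 V) x := by
      rw [qf_addM, qf_J1]
      have hN : (0 : ℝ) < Fintype.card V := Nat.cast_pos.2 Fintype.card_pos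
      have h2 := hH.nn x
      have h3 : 0 ≤ (∑ y, x y) ^ 2 / Fintype.card V := by positivity
      rcases h2.lt_or_eq with h4 | h4
      · linarith
      · rw [← h4, zero_add]
        have h5 := hH.ker x h4.symm
        have x0 : V := Classical.arbitrary V
        have h6 : ∑ y, x y = Fintype.card V * x x0 := by
          rw [Finset.sum_congr rfl fun y _ => h5 y x0, Finset.sum_const, Finset.card_univ,
            nsmul_eq_mul]
        have h7 : x x0 ≠ 0 := fun h0 => hx (funext fun y => by rw [h5 y x0, h0]; rfl)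
        rw [h6]
        positivity
    rw [H37.qf_eq] at h1
    simpa using h1

/-- `(H + J)⁻¹` -/
def Hi (H : Matrix V V ℝ) : Matrix V V ℝ := (H + J1 V)⁻¹

lemma PC.mul_Hi (hH : PC H) : (H + J1 V) * Hi H = 1 :=
  Matrix.mul_nonsing_inv _ hH.pd.det_pos.ne'.isUnit

lemma PC.Hi_mul (hH : PC H) : Hi H * (H + J1 V) = 1 :=
  Matrix.nonsing_inv_mul _ hH.pd.det_pos.ne'.isUnit

lemma PC.Hi_J1 (hH : PC H) : Hi H * J1 V = J1 V := by
  have h1 : (H + J1 V) * J1 V = J1 V := by rw [Matrix.add_mul, hH.mul_J1, J1_mul_J1, zero_add]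
  calc Hi H * J1 V = Hi H * ((H + J1 V) * J1 V) := by rw [h1]
    _ = J1 V := by rw [← Matrix.mul_assoc, hH.Hi_mul, Matrix.one_mul]

lemma PC.J1_Hi (hH : PC H) : J1 V * Hi H = J1 V := by
  have h1 : J1 V * (H + J1 V) = J1 V := by rw [Matrix.mul_add, hH.J1_mul, J1_mul_J1, zero_add]
  calc J1 V * Hi H = (J1 V * (H + J1 V)) * Hi H := by rw [h1]
    _ = J1 V := by rw [Matrix.mul_assoc, hH.mul_Hi, Matrix.mul_one]

lemma PC.Hi_H (hH : PC H) : Hi H * H = 1 - J1 V := by
  have h1 := hH.Hi_mul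
  rw [Matrix.mul_add, hH.Hi_J1] at h1
  exact eq_sub_of_add_eq h1

lemma PC.H_Hi (hH : PC H) : H * Hi H = 1 - J1 V := by
  have h1 := hH.mul_Hi
  rw [Matrix.add_mul, hH.J1_Hi] at h1
  exact eq_sub_of_add_eq h1

/-- the covariance modulo constants is determined by `H C Cᵀ H = H` -/
lemma PC.cov (hH : PC H) {S : Matrix V V ℝ} (hS : H * S * H = H) :
    (1 - J1 V) * S * (1 - J1 V) = Hi H - J1 V := by
  calc (1 - J1 V) * S * (1 - J1 V) = (Hi H * H) * S * (H * Hi H) := by
        rw [hH.Hi_H, hH.H_Hi]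
    _ = Hi H * (H * S * H) * Hi H := by simp only [Matrix.mul_assoc]
    _ = Hi H * H * Hi H := by rw [hS]
    _ = _ := by rw [hH.Hi_H, Matrix.sub_mul, Matrix.one_mul, hH.J1_Hi]

/-- a square root of `(H + J)⁻¹` -/
theorem PC.exists_S (hH : PC H) : ∃ S : Matrix V V ℝ, S * Sᵀ = Hi H ∧ Sᵀ * (H + J1 V) * S = 1 ∧
    S.det ≠ 0 := by
  obtain ⟨S, hS⟩ := H859.exists_gram hH.pd.inv.posSemidef
  have h1 : S * (Sᵀ * (H + J1 V)) = 1 := by rw [← Matrix.mul_assoc, hS]; exact hH.Hi_mul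
  have h2 : Sᵀ * (H + J1 V) * S = 1 := mul_eq_one_comm.1 h1
  refine ⟨S, hS, h2, fun h0 => ?_⟩
  have h3 := congrArg Matrix.det h2
  rw [Matrix.det_mul, h0, mul_zero, Matrix.det_one] at h3
  exact zero_ne_one h3

/-- such covariances exist -/
theorem PC.exists_C (hH : PC H) : ∃ C : Matrix V V ℝ, H * (C * Cᵀ) * H = H := by
  obtain ⟨S, hS, -, -⟩ := hH.exists_S
  refine ⟨S, ?_⟩
  rw [hS, hH.H_Hi, Matrix.sub_mul, Matrix.one_mul, hH.J1_mul, sub_zero]

/-- change of variables -/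
theorem gau_S {S : Matrix V V ℝ} (h2 : Sᵀ * (H + J1 V) * S = 1)
    (h3 : S.det ≠ 0) {Φ : (V → ℝ) → ℝ} (hm : Measurable Φ) :
    ∫ g, Φ (S *ᵥ g) ∂(gau V) = ((√(2 * Real.pi))⁻¹ ^ Fintype.card V * |(S.det)⁻¹|) *
      ∫ F : V → ℝ, Φ F * Real.exp (-(qf (H + J1 V) F / 2)) := by
  rw [gau_vol]
  have e1 : ∀ g : V → ℝ, gd g * Φ (S *ᵥ g) = (√(2 * Real.pi))⁻¹ ^ Fintype.card V *
      (fun F : V → ℝ => Φ F * Real.exp (-(qf (H + J1 V) F / 2))) (toLin' S g) := by
    intro g
    have e2 : qf (H + J1 V) (S *ᵥ g) = ∑ i, g i ^ 2 := by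
      have h4 : qf (H + J1 V) (S *ᵥ g) = g ⬝ᵥ ((Sᵀ * (H + J1 V) * S) *ᵥ g) := by
        rw [H37.qf_eq, ← mulVec_mulVec, ← mulVec_mulVec, dotProduct_mulVec g Sᵀ,
          vecMul_transpose]
      rw [h4, h2, one_mulVec]
      exact Finset.sum_congr rfl fun i _ => (pow_two (g i)).symm
    simp only [toLin'_apply]
    rw [gd_eq, e2]
    ring
  simp only [e1]
  rw [integral_const_mul]
  have hmG : Measurable fun F : V → ℝ => Φ F * Real.exp (-(qf (H + J1 V) F / 2)) :=
    hm.mul (Real.measurable_exp.comp (H896.continuous_qf.measurable.div_const 2).neg)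
  have hmT : Measurable (toLin' S) := (LinearMap.continuous_on_pi _).measurable
  rw [← integral_map hmT.aemeasurable hmG.aestronglyMeasurable,
    Real.map_matrix_volume_pi_eq_smul_volume_pi h3, integral_smul_measure,
    ENNReal.toReal_ofReal (abs_nonneg _), smul_eq_mul, mul_assoc]

theorem PC.int_exp (hH : PC H) : Integrable fun F : V → ℝ => Real.exp (-(qf (H + J1 V) F / 2)) := by
  obtain ⟨S, hS, h2, h3⟩ := hH.exists_S
  have hmG : Measurable fun F : V → ℝ => Real.exp (-(qf (H + J1 V) F / 2)) :=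
    Real.measurable_exp.comp (H896.continuous_qf.measurable.div_const 2).neg
  have hmT : Measurable (toLin' S) := (LinearMap.continuous_on_pi _).measurable
  have h4 : Integrable (fun F : V → ℝ => Real.exp (-(qf (H + J1 V) F / 2)))
      (Measure.map (toLin' S) volume) := by
    rw [integrable_map_measure hmG.aestronglyMeasurable hmT.aemeasurable]
    have h5 := integrable_gsq (V := V) (a := 1 / 2) (by norm_num)
    refine h5.congr (Filter.Eventually.of_forall fun g => ?_)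
    have e2 : qf (H + J1 V) (S *ᵥ g) = ∑ i, g i ^ 2 := by
      have h4 : qf (H + J1 V) (S *ᵥ g) = g ⬝ᵥ ((Sᵀ * (H + J1 V) * S) *ᵥ g) := by
        rw [H37.qf_eq, ← mulVec_mulVec, ← mulVec_mulVec, dotProduct_mulVec g Sᵀ,
          vecMul_transpose]
      rw [h4, h2, one_mulVec]
      exact Finset.sum_congr rfl fun i _ => (pow_two (g i)).symm
    simp only [Function.comp_apply, toLin'_apply]
    rw [e2]
    congr 1
    ring
  rw [Real.map_matrix_volume_pi_eq_smul_volume_pi h3] at h4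
  refine (integrable_smul_measure ?_ ENNReal.ofReal_ne_top).1 h4
  simp [h3]

lemma PC.line (hH : PC H) (F : V → ℝ) :
    ∫ c : ℝ, Real.exp (-(qf (H + J1 V) (fun x => F x + c) / 2)) =
      √(2 * Real.pi / Fintype.card V) * Real.exp (-(qf H F / 2)) := by
  have hN : (0 : ℝ) < Fintype.card V := Nat.cast_pos.2 Fintype.card_pos
  set n : ℝ := (Fintype.card V : ℝ) with hn
  set a : ℝ := (∑ x, F x) / n with ha
  have e : ∀ c : ℝ, Real.exp (-(qf (H + J1 V) (fun x => F x + c) / 2)) =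
      Real.exp (-(qf H F / 2)) * Real.exp (-(n / 2) * (c + a) ^ 2) := by
    intro c
    rw [← Real.exp_add]
    congr 1
    rw [qf_addM, qf_J1, H963.qf_addc hH.symm hH.row]
    have h1 : ∑ x, (F x + c) = n * (c + a) := by
      rw [Finset.sum_add_distrib, Finset.sum_const, Finset.card_univ, nsmul_eq_mul, ha, ← hn]
      field_simp
      ring
    rw [h1, ← hn]
    field_simp
    ring
  simp only [e]
  rw [integral_const_mul, integral_add_right_eq_self (fun c => Real.exp (-(n / 2) * c ^ 2)) a,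
    integral_gaussian, mul_comm]
  congr 2
  field_simp

/-- `∫ exp (-<F,H F>/2)` modulo constants -/
def lg (H : Matrix V V ℝ) (x₀ : V) : ℝ := SI x₀ fun F => Real.exp (-(qf H F / 2))

lemma PC.ci_exp (hH : PC H) : CI fun F : V → ℝ => Real.exp (-(qf H F / 2)) := fun F c => by
  simp only
  rw [H963.qf_addc hH.symm hH.row]

/-- bounded functions -/
theorem PC.key (hH : PC H) {S : Matrix V V ℝ} (h2 : Sᵀ * (H + J1 V) * S = 1)
    (h3 : S.det ≠ 0) (x₀ : V) {Φ : (V → ℝ) → ℝ} (hc : CI Φ) (hm : Measurable Φ) {C : ℝ}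
    (hb : ∀ F, |Φ F| ≤ C) :
    ((√(2 * Real.pi))⁻¹ ^ Fintype.card V * |(S.det)⁻¹| * √(2 * Real.pi / Fintype.card V)) *
      SI x₀ (fun F => Φ F * Real.exp (-(qf H F / 2))) = ∫ g, Φ (S *ᵥ g) ∂(gau V) := by
  have hmG : Measurable fun F : V → ℝ => Φ F * Real.exp (-(qf (H + J1 V) F / 2)) :=
    hm.mul (Real.measurable_exp.comp (H896.continuous_qf.measurable.div_const 2).neg)
  have hi : Integrable fun F : V → ℝ => Φ F * Real.exp (-(qf (H + J1 V) F / 2)) := by
    refine (hH.int_exp.const_mul C).mono' hmG.aestronglyMeasurable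
      (Filter.Eventually.of_forall fun F => ?_)
    rw [Real.norm_eq_abs, abs_mul, abs_of_pos (Real.exp_pos _)]
    exact mul_le_mul_of_nonneg_right (hb F) (Real.exp_pos _).le
  rw [gau_S h2 h3 hm, ← SI_line hmG hi x₀, mul_assoc]
  congr 1
  unfold SI
  rw [← integral_const_mul]
  refine integral_congr_ae (Filter.Eventually.of_forall fun F => ?_)
  simp only [hc F]
  rw [integral_const_mul, hH.line]
  ring

/-- integrability on the slab -/
theorem PC.int_slab (hH : PC H) (x₀ : V) :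
    IntegrableOn (fun F : V → ℝ => Real.exp (-(qf H F / 2))) (slab x₀) := by
  by_contra hcon
  obtain ⟨S, hS, h2, h3⟩ := hH.exists_S
  have h1 := hH.key h2 h3 x₀ (Φ := fun _ => (1 : ℝ)) (fun _ _ => rfl) measurable_const (C := 1)
    (fun F => by simp)
  simp only [one_mul, integral_const, probReal_univ, smul_eq_mul, mul_one] at h1
  have h4 : SI x₀ (fun F : V → ℝ => Real.exp (-(qf H F / 2))) = 0 := integral_undef hcon
  rw [h4, mul_zero] at h1
  exact zero_ne_one h1

lemma PC.lg_pos (hH : PC H) (x₀ : V) : 0 < lg H x₀ :=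
  SI_pos (fun F => Real.exp_pos _) x₀ (hH.int_slab x₀)

lemma pm_mulVec (F : V → ℝ) : (1 - J1 V) *ᵥ F = fun x => F x + -((∑ y, F y) / Fintype.card V) := by
  rw [sub_mulVec, one_mulVec, J1_mulVec]
  rfl

/-- **Gaussian representation**, bounded functions -/
theorem PC.leb_int (hH : PC H) {C : Matrix V J ℝ} (hC : H * (C * Cᵀ) * H = H) (x₀ : V)
    {Φ : (V → ℝ) → ℝ} (hc : CI Φ) (hm : Measurable Φ) {D : ℝ} (hb : ∀ F, |Φ F| ≤ D) :
    SI x₀ (fun F => Φ F * Real.exp (-(qf H F / 2))) = lg H x₀ * ∫ a, Φ (C *ᵥ a) ∂(gau J) := by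
  obtain ⟨S, hS, h2, h3⟩ := hH.exists_S
  have k1 := hH.key h2 h3 x₀ hc hm hb
  have k2 := hH.key h2 h3 x₀ (Φ := fun _ => (1 : ℝ)) (fun _ _ => rfl) measurable_const (C := 1)
    (fun F => by simp)
  simp only [one_mul, integral_const, probReal_univ, smul_eq_mul, mul_one] at k2
  have hlaw := law_integral_eq ((1 - J1 V) * S) ((1 - J1 V) * C) (by
    have e1 : ∀ {K : Type} [Fintype K] (X : Matrix V K ℝ), (1 - J1 V) * X * ((1 - J1 V) * X)ᵀ =
        (1 - J1 V) * (X * Xᵀ) * (1 - J1 V) := by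
      intro K _ X
      rw [transpose_mul, transpose_sub, transpose_one, J1_symm]
      simp only [Matrix.mul_assoc]
    rw [e1, e1, hH.cov hC, hH.cov (S := S * Sᵀ)]
    rw [hS, hH.H_Hi, Matrix.sub_mul, Matrix.one_mul, hH.J1_mul, sub_zero]) Φ hm.stronglyMeasurable
  simp only [← mulVec_mulVec, pm_mulVec, hc _ _] at hlaw
  rw [← hlaw, ← k1]
  have hl : SI x₀ (fun F : V → ℝ => Real.exp (-(qf H F / 2))) = lg H x₀ := rfl
  rw [hl] at k2
  set c := (√(2 * Real.pi))⁻¹ ^ Fintype.card V * |(S.det)⁻¹| * √(2 * Real.pi / Fintype.card V)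
  set X := SI x₀ (fun F => Φ F * Real.exp (-(qf H F / 2)))
  calc X = (c * lg H x₀) * X := by rw [k2, one_mul]
    _ = _ := by ring

/-- the representative with value `0` at `x₀` -/
def q0 (x₀ : V) (F : V → ℝ) : V → ℝ := fun x => F x + -F x₀

lemma ci_q0 (x₀ : V) : CI (q0 x₀) := fun F c => by
  funext x
  simp only [q0]
  ring

lemma measurable_q0 (x₀ : V) : Measurable (q0 x₀ : (V → ℝ) → (V → ℝ)) := by
  refine measurable_pi_lambda _ fun x => ?_
  exact (measurable_pi_apply x).add (measurable_pi_apply x₀).neg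

lemma CI.q0 {α : Type*} {Φ : (V → ℝ) → α} (h : CI Φ) (x₀ : V) (F : V → ℝ) :
    Φ (H883.q0 x₀ F) = Φ F := h F (-F x₀)

/-- **Gaussian representation** as an identity of measures -/
theorem PC.leb_meas (hH : PC H) {C : Matrix V J ℝ} (hC : H * (C * Cᵀ) * H = H) (x₀ : V) :
    ((volume.restrict (slab x₀)).withDensity fun F : V → ℝ =>
      ENNReal.ofReal (Real.exp (-(qf H F / 2)))).map (q0 x₀) =
      ENNReal.ofReal (lg H x₀) • (gau J).map fun a => q0 x₀ (C *ᵥ a) := by
  ext s hs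
  have hm1 := measurable_q0 (V := V) x₀
  have hm2 : Measurable fun a : J → ℝ => q0 x₀ (C *ᵥ a) := hm1.comp (measurable_mulVec C)
  rw [Measure.map_apply hm1 hs, withDensity_apply _ (hm1 hs), Measure.smul_apply,
    Measure.map_apply hm2 hs, smul_eq_mul]
  set Φ : (V → ℝ) → ℝ := fun F => s.indicator (fun _ => (1 : ℝ)) (q0 x₀ F) with hΦ
  have hci : CI Φ := (ci_q0 x₀).comp fun G => s.indicator (fun _ => (1 : ℝ)) G
  have hme : Measurable Φ := (measurable_const.indicator hs).comp hm1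
  have h1 := hH.leb_int hC x₀ hci hme (D := 1) fun F => by
    simp only [hΦ]
    by_cases hF : q0 x₀ F ∈ s
    · rw [Set.indicator_of_mem hF]; simp
    · rw [Set.indicator_of_notMem hF]; simp
  have e1 : ∫⁻ F in (q0 x₀) ⁻¹' s, ENNReal.ofReal (Real.exp (-(qf H F / 2)))
      ∂(volume.restrict (slab x₀)) =
      ENNReal.ofReal (SI x₀ fun F => Φ F * Real.exp (-(qf H F / 2))) := by
    rw [← ofReal_integral_eq_lintegral_ofReal (hH.int_slab x₀).integrableOn
      (Filter.Eventually.of_forall fun g => (Real.exp_pos _).le), ← integral_indicator (hm1 hs)]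
    congr 1
    unfold SI
    refine integral_congr_ae (Filter.Eventually.of_forall fun F => ?_)
    simp only [hΦ]
    by_cases hF : q0 x₀ F ∈ s
    · rw [Set.indicator_of_mem hF, one_mul]
      exact Set.indicator_of_mem (show F ∈ (q0 x₀) ⁻¹' s from hF) _
    · rw [Set.indicator_of_notMem hF, zero_mul]
      exact Set.indicator_of_notMem (show F ∉ (q0 x₀) ⁻¹' s from hF) _
  rw [e1, h1]
  have e2 : ∫ a, Φ (C *ᵥ a) ∂(gau J) = (gau J).real ((fun a : J → ℝ => q0 x₀ (C *ᵥ a)) ⁻¹' s) := by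
    have e3 : (fun a : J → ℝ => Φ (C *ᵥ a)) =
        ((fun a : J → ℝ => q0 x₀ (C *ᵥ a)) ⁻¹' s).indicator 1 := by
      funext a
      simp only [hΦ]
      by_cases ha : q0 x₀ (C *ᵥ a) ∈ s
      · rw [Set.indicator_of_mem ha, Set.indicator_of_mem
          (show a ∈ (fun a : J → ℝ => q0 x₀ (C *ᵥ a)) ⁻¹' s from ha)]
        rfl
      · rw [Set.indicator_of_notMem ha, Set.indicator_of_notMem
          (show a ∉ (fun a : J → ℝ => q0 x₀ (C *ᵥ a)) ⁻¹' s from ha)]
    rw [e3, integral_indicator_one (hm2 hs)]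
  rw [e2, ENNReal.ofReal_mul (hH.lg_pos x₀).le]
  congr 1
  exact ofReal_measureReal

/-- **Gaussian representation** for nonnegative functions -/
theorem PC.leb_lint (hH : PC H) {C : Matrix V J ℝ} (hC : H * (C * Cᵀ) * H = H) (x₀ : V)
    {Φ : (V → ℝ) → ENNReal} (hc : CI Φ) (hΦ : Measurable Φ) :
    ∫⁻ F in slab x₀, ENNReal.ofReal (Real.exp (-(qf H F / 2))) * Φ F =
      ENNReal.ofReal (lg H x₀) * ∫⁻ a, Φ (C *ᵥ a) ∂(gau J) := by
  have hm1 := measurable_q0 (V := V) x₀
  have hm2 : Measurable fun a : J → ℝ => q0 x₀ (C *ᵥ a) := hm1.comp (measurable_mulVec C)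
  have hmd : Measurable fun F : V → ℝ => ENNReal.ofReal (Real.exp (-(qf H F / 2))) :=
    (Real.measurable_exp.comp (H896.continuous_qf.measurable.div_const 2).neg).ennreal_ofReal
  have h1 := congrArg (fun μ : Measure (V → ℝ) => ∫⁻ F, Φ F ∂μ) (hH.leb_meas hC x₀)
  simp only [lintegral_smul_measure] at h1
  rw [lintegral_map hΦ hm1, lintegral_map hΦ hm2] at h1
  simp only [hc.q0] at h1
  have h2 : ∫⁻ F, Φ F ∂((volume.restrict (slab x₀)).withDensity fun F : V → ℝ =>
      ENNReal.ofReal (Real.exp (-(qf H F / 2)))) =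
      ∫⁻ F in slab x₀, ENNReal.ofReal (Real.exp (-(qf H F / 2))) * Φ F :=
    lintegral_withDensity_eq_lintegral_mul _ hmd hΦ
  rw [← h2]
  exact h1

end

end Vale.Agent.P159.H883
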