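import Vale.Agent.P159.H883.Brg2
import Vale.Agent.P159.H686.SwinD
import Vale.Agent.P159.H114.Lmmse
import Vale.Agent.P159.H114.AE1

/-!
P159, module BRG (helper883), part 3: the laws `Enu`, `EF` as tilted Gaussians.
`Zn w M F = Zn w M 0 · exp (-<F,H F>/2) · Wt F`, `H = An w M m x₀`, `Wt ≥ 1`.
-/

set_option linter.unusedSectionVars false

namespace Vale.Agent.P159.H883

open Finset Matrix MeasureTheory ProbabilityTheory
open Vale.Agent.P159.TM.H104 (EM nh Gr li)
open Vale.Agent.P159.H37 (wM ZM qf bf Zn Un Rs Zs re gau Gm)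
open Vale.Agent.P159.H963 (GrI pin MF ntr GW nM An)
open Vale.Agent.P159.H896 (Chn cN)
open Vale.Agent.P159.H363 (law_integral_eq law_integral_eq_add measurable_mulVec)
open Vale.Agent.P159.H686 (fl mg tl)

noncomputable section

/-! ### transfer between weighted spaces -/

section transfer

variable {X Y Ω : Type*} [MeasurableSpace X] [MeasurableSpace Y] [MeasurableSpace Ω]

/-- two weighted spaces with the same image law, up to the factor `c` -/
theorem transfer_meas {μ : Measure X} {ν : Measure Y} {ρ : X → ℝ} {σ : Y → ℝ} {p : X → Ω}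
    {r : Y → Ω} (hp : Measurable p) (hr : Measurable r)
    {c : ENNReal} (h : ∀ Ψ : Ω → ENNReal, Measurable Ψ →
      ∫⁻ x, ENNReal.ofReal (ρ x) * Ψ (p x) ∂μ = c * ∫⁻ y, ENNReal.ofReal (σ y) * Ψ (r y) ∂ν) :
    (μ.withDensity fun x => ENNReal.ofReal (ρ x)).map p =
      c • (ν.withDensity fun y => ENNReal.ofReal (σ y)).map r := by
  ext s hs
  have h1 := h (s.indicator 1) (measurable_one.indicator hs)
  rw [Measure.map_apply hp hs, withDensity_apply _ (hp hs), Measure.smul_apply,
    Measure.map_apply hr hs, withDensity_apply _ (hr hs), smul_eq_mul,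
    ← lintegral_indicator (hp hs), ← lintegral_indicator (hr hs)]
  have e1 : ∀ x, (p ⁻¹' s).indicator (fun x => ENNReal.ofReal (ρ x)) x =
      ENNReal.ofReal (ρ x) * s.indicator 1 (p x) := by
    intro x
    by_cases hx : p x ∈ s
    · rw [Set.indicator_of_mem (show x ∈ p ⁻¹' s from hx), Set.indicator_of_mem hx, Pi.one_apply,
        mul_one]
    · rw [Set.indicator_of_notMem (show x ∉ p ⁻¹' s from hx), Set.indicator_of_notMem hx, mul_zero]
  have e2 : ∀ y, (r ⁻¹' s).indicator (fun y => ENNReal.ofReal (σ y)) y =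
      ENNReal.ofReal (σ y) * s.indicator 1 (r y) := by
    intro x
    by_cases hx : r x ∈ s
    · rw [Set.indicator_of_mem (show x ∈ r ⁻¹' s from hx), Set.indicator_of_mem hx, Pi.one_apply,
        mul_one]
    · rw [Set.indicator_of_notMem (show x ∉ r ⁻¹' s from hx), Set.indicator_of_notMem hx, mul_zero]
  simp only [e1, e2]
  exact h1

theorem transfer {μ : Measure X} {ν : Measure Y} {ρ : X → ℝ} {σ : Y → ℝ} {p : X → Ω} {r : Y → Ω}
    (hρ : Measurable ρ) (hσ : Measurable σ) (hp : Measurable p) (hr : Measurable r)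
    (hρ0 : ∀ x, 0 ≤ ρ x) (hσ0 : ∀ y, 0 ≤ σ y) {c : ℝ} (hc : 0 < c)
    (h : ∀ Ψ : Ω → ENNReal, Measurable Ψ → ∫⁻ x, ENNReal.ofReal (ρ x) * Ψ (p x) ∂μ =
      ENNReal.ofReal c * ∫⁻ y, ENNReal.ofReal (σ y) * Ψ (r y) ∂ν)
    {Φ : Ω → ℝ} (hΦ : Measurable Φ) :
    (Integrable (fun x => ρ x * Φ (p x)) μ ↔ Integrable (fun y => σ y * Φ (r y)) ν) ∧
    ∫ x, ρ x * Φ (p x) ∂μ = c * ∫ y, σ y * Φ (r y) ∂ν := by
  have hm := transfer_meas hp hr h
  have hc' : ENNReal.ofReal c ≠ 0 := by simp [hc]
  constructor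
  · have h1 : Integrable Φ ((μ.withDensity fun x => ENNReal.ofReal (ρ x)).map p) ↔
        Integrable (fun x => ρ x * Φ (p x)) μ := by
      rw [integrable_map_measure hΦ.aestronglyMeasurable hp.aemeasurable,
        integrable_withDensity_iff_integrable_smul' hρ.ennreal_ofReal
          (Filter.Eventually.of_forall fun _ => ENNReal.ofReal_lt_top)]
      refine integrable_congr (Filter.Eventually.of_forall fun x => ?_)
      simp only [Function.comp_apply, smul_eq_mul]
      rw [ENNReal.toReal_ofReal (hρ0 x)]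
    have h2 : Integrable Φ ((ν.withDensity fun y => ENNReal.ofReal (σ y)).map r) ↔
        Integrable (fun y => σ y * Φ (r y)) ν := by
      rw [integrable_map_measure hΦ.aestronglyMeasurable hr.aemeasurable,
        integrable_withDensity_iff_integrable_smul' hσ.ennreal_ofReal
          (Filter.Eventually.of_forall fun _ => ENNReal.ofReal_lt_top)]
      refine integrable_congr (Filter.Eventually.of_forall fun x => ?_)
      simp only [Function.comp_apply, smul_eq_mul]
      rw [ENNReal.toReal_ofReal (hσ0 x)]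
    rw [← h1, ← h2, hm, integrable_smul_measure hc' ENNReal.ofReal_ne_top]
  · have h1 : ∫ ω, Φ ω ∂((μ.withDensity fun x => ENNReal.ofReal (ρ x)).map p) =
        ∫ x, ρ x * Φ (p x) ∂μ := by
      rw [integral_map hp.aemeasurable hΦ.aestronglyMeasurable,
        integral_withDensity_eq_integral_toReal_smul hρ.ennreal_ofReal
          (Filter.Eventually.of_forall fun _ => ENNReal.ofReal_lt_top)]
      refine integral_congr_ae (Filter.Eventually.of_forall fun x => ?_)
      simp only [smul_eq_mul]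
      rw [ENNReal.toReal_ofReal (hρ0 x)]
    have h2 : ∫ ω, Φ ω ∂((ν.withDensity fun y => ENNReal.ofReal (σ y)).map r) =
        ∫ y, σ y * Φ (r y) ∂ν := by
      rw [integral_map hr.aemeasurable hΦ.aestronglyMeasurable,
        integral_withDensity_eq_integral_toReal_smul hσ.ennreal_ofReal
          (Filter.Eventually.of_forall fun _ => ENNReal.ofReal_lt_top)]
      refine integral_congr_ae (Filter.Eventually.of_forall fun x => ?_)
      simp only [smul_eq_mul]
      rw [ENNReal.toReal_ofReal (hσ0 x)]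
    rw [← h1, ← h2, hm, integral_smul_measure, ENNReal.toReal_ofReal hc.le, smul_eq_mul]

end transfer

variable {V : Type} [Fintype V] [DecidableEq V] [Nonempty V]
variable {w : (V → ℤ) → ℝ} {M M' : Matrix V V ℝ} {m m' : ℝ}

/-! ### the weight -/

/-- `exp R ≥ 1` -/
def Wt (w : (V → ℤ) → ℝ) (M : Matrix V V ℝ) (m : ℝ) (x₀ : V) (F : V → ℝ) : ℝ :=
  Real.exp (Rs (nM w M m x₀) (ntr M m *ᵥ F))

lemma one_le_Wt (hw : GW w) (hM : MF M m) (x₀ : V) (F : V → ℝ) : 1 ≤ Wt w M m x₀ F :=
  Real.one_le_exp (H789.Rs_nonneg (hw.em_nM hM x₀) (hw.ev_nM M m x₀) (hw.pk_nM hM x₀) _)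

lemma Wt_pos (w : (V → ℤ) → ℝ) (M : Matrix V V ℝ) (m : ℝ) (x₀ : V) (F : V → ℝ) :
    0 < Wt w M m x₀ F := Real.exp_pos _

lemma continuous_Wt (hw : GW w) (hM : MF M m) (x₀ : V) : Continuous (Wt w M m x₀) :=
  Real.continuous_exp.comp ((H114.continuous_Rs (hw.em_nM hM x₀)).comp
    (Continuous.matrix_mulVec continuous_const continuous_id))

lemma ntr_addc (hM : MF M m) (F : V → ℝ) (c : ℝ) :
    ntr M m *ᵥ (fun x => F x + c) = ntr M m *ᵥ F := by
  have h1 : (fun x => F x + c) = F + fun _ => c := rfl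
  rw [h1, mulVec_add]
  have h2 : ntr M m *ᵥ (fun _ : V => c) = 0 := by
    funext x
    simp only [mulVec, dotProduct, Pi.zero_apply]
    rw [← Finset.sum_mul, H963.ntr_row hM.row, zero_mul]
  rw [h2, add_zero]

lemma ci_Wt (hM : MF M m) (x₀ : V) : CI (Wt w M m x₀) := fun F c => by
  unfold Wt
  rw [ntr_addc hM]

/-- **the decomposition** -/
theorem Zn_Wt (hw : GW w) (hM : MF M m) (x₀ : V) (F : V → ℝ) :
    Zn w M F = Zn w M 0 * (Real.exp (-(qf (An w M m x₀) F / 2)) * Wt w M m x₀ F) := by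
  have h1 := hw.Un_eq hM x₀ F
  have z0 := hw.Zn_pos hM (0 : V → ℝ)
  have zF := hw.Zn_pos hM F
  unfold Un at h1
  have h2 : Real.log (Zn w M F / Zn w M 0) =
      -(qf (An w M m x₀) F / 2) + Rs (nM w M m x₀) (ntr M m *ᵥ F) := by linarith
  have h3 := congrArg Real.exp h2
  rw [Real.exp_log (div_pos zF z0), Real.exp_add, div_eq_iff z0.ne'] at h3
  unfold Wt
  rw [h3]
  ring

/-! ### the quadratic form -/

lemma An_symm (w : (V → ℤ) → ℝ) (hM : MF M m) (x₀ : V) : (An w M m x₀)ᵀ = An w M m x₀ := by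
  unfold An
  rw [transpose_sub, transpose_mul, transpose_mul, H963.ntr_transpose hM.symm, H114.Gm_transpose,
    Matrix.mul_assoc]

lemma An_row (w : (V → ℤ) → ℝ) (hM : MF M m) (x₀ : V) (x : V) : ∑ y, An w M m x₀ x y = 0 := by
  have h1 : An w M m x₀ *ᵥ (fun _ : V => (1 : ℝ)) = 0 := by
    have h2 : ntr M m *ᵥ (fun _ : V => (1 : ℝ)) = 0 := by
      have := ntr_addc hM (0 : V → ℝ) 1
      simp only [Pi.zero_apply, zero_add, mulVec_zero] at this
      exact this
    unfold An
    rw [sub_mulVec, ← mulVec_mulVec, ← mulVec_mulVec, h2]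
    simp
  have h3 := congrFun h1 x
  simpa [mulVec, dotProduct] using h3

/-- the kernel of the quadratic form is the constants -/
theorem pc_An (hw : GW w) (hb : BW w) (hM : MF M m) (x₀ : V) : PC (An w M m x₀) where
  symm := An_symm w hM x₀
  nn := hw.qf_An_nonneg hM x₀
  row := An_row w hM x₀
  ker := by
    intro u hu
    -- it is enough to compare with `x₀`
    suffices hs : ∀ x, u x = u x₀ by intro x y; rw [hs x, hs y]
    by_contra hcon
    push Not at hcon
    obtain ⟨x, hx⟩ := hcon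
    have hd : u x - u x₀ ≠ 0 := sub_ne_zero.2 hx
    have z0 := hw.Zn_pos hM (0 : V → ℝ)
    -- `Zn (n u) = Zn 0`
    have hconst : ∀ n : ℕ, Zn w M ((n : ℝ) • u) = Zn w M 0 := by
      intro n
      have h1 := hw.Un_nonneg hM ((n : ℝ) • u)
      have h2 := hw.Un_le hM x₀ ((n : ℝ) • u)
      have h3 : qf (An w M m x₀) ((n : ℝ) • u) = 0 := by
        rw [H37.qf_smul, hu, mul_zero]
      rw [h3, zero_div] at h2
      have h4 : Un w M ((n : ℝ) • u) = 0 := le_antisymm h2 h1
      unfold Un at h4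
      have h5 : Real.log (Zn w M ((n : ℝ) • u) / Zn w M 0) = 0 := by linarith
      have h6 : Zn w M ((n : ℝ) • u) / Zn w M 0 = 1 :=
        Real.eq_one_of_pos_of_log_eq_zero (div_pos (hw.Zn_pos hM _) z0) h5
      rwa [div_eq_one_iff_eq z0.ne'] at h6
    -- but it tends to zero
    obtain ⟨m0, hm0, hc⟩ := hM.coer
    have hgap := H963.gap_pin hm0.le (H963.ntr_gap hM.symm hM.row hc) x₀
    set c : ℝ := m0 / (2 * (1 + Fintype.card V)) with hcdef
    have hc0 : 0 < c := by positivity
    have hsum : Summable (pin w x₀) := by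
      have := (hb.em0 x₀).sum 0
      simpa using this
    have hE1 : ∀ F : V → ℝ, E0g M m F ≤ Real.exp (-(c / 2 * (F x - F x₀) ^ 2)) := by
      intro F
      unfold E0g
      refine Real.exp_le_exp.2 ?_
      have h1 := hgap F
      have h2 : (F x - F x₀) ^ 2 ≤ ∑ y, (F y - F x₀) ^ 2 :=
        Finset.single_le_sum (f := fun y => (F y - F x₀) ^ 2) (fun _ _ => sq_nonneg _)
          (Finset.mem_univ x)
      have h3 := mul_le_mul_of_nonneg_left h2 hc0.le
      linarith
    have hlim : Filter.Tendsto (fun n : ℕ => ∑' h, pin w x₀ h * E0g M m (re h - (n : ℝ) • u))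
        Filter.atTop (nhds (∑' _h : V → ℤ, (0 : ℝ))) := by
      refine tendsto_tsum_of_dominated_convergence hsum (fun h => ?_)
        (Filter.Eventually.of_forall fun n h => ?_)
      · have h1 : Filter.Tendsto (fun n : ℕ => Real.exp (-(c / 2 *
            ((re h - (n : ℝ) • u) x - (re h - (n : ℝ) • u) x₀) ^ 2))) Filter.atTop (nhds 0) := by
          refine Real.tendsto_exp_neg_atTop_nhds_zero.comp ?_
          refine Filter.Tendsto.const_mul_atTop (by positivity) ?_
          have e : ∀ n : ℕ, (re h - (n : ℝ) • u) x - (re h - (n : ℝ) • u) x₀ =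
              (re h x - re h x₀) - (n : ℝ) * (u x - u x₀) := by
            intro n
            simp only [Pi.sub_apply, Pi.smul_apply, smul_eq_mul]
            ring
          simp only [e]
          have h5 : Filter.Tendsto (fun n : ℕ => |(n : ℝ) * (u x - u x₀)| - |re h x - re h x₀|)
              Filter.atTop Filter.atTop := by
            refine Filter.tendsto_atTop_add_const_right _ _ ?_
            simp only [abs_mul, Nat.abs_cast]
            exact Filter.Tendsto.atTop_mul_const (abs_pos.2 hd) tendsto_natCast_atTop_atTop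
          have h6 := (Filter.tendsto_pow_atTop (α := ℝ) (n := 2) (by norm_num)).comp h5
          refine Filter.tendsto_atTop_mono' _ ?_ h6
          filter_upwards [h5.eventually_ge_atTop 0] with n hn
          simp only [Function.comp_apply]
          rw [← sq_abs ((re h x - re h x₀) - (n : ℝ) * (u x - u x₀))]
          refine pow_le_pow_left₀ hn ?_ 2
          rw [abs_sub_comm (re h x - re h x₀)]
          have := abs_sub_abs_le_abs_sub ((n : ℝ) * (u x - u x₀)) (re h x - re h x₀)
          linarith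
        have h2 : Filter.Tendsto (fun n : ℕ => E0g M m (re h - (n : ℝ) • u)) Filter.atTop
            (nhds 0) :=
          squeeze_zero (fun n => (E0g_pos _ _ _).le) (fun n => hE1 _) h1
        have h3 := h2.const_mul (pin w x₀ h)
        rwa [mul_zero] at h3
      · rw [Real.norm_eq_abs, abs_of_nonneg (mul_nonneg (H963.pin_nonneg hw.nn x₀ h)
          (E0g_pos _ _ _).le)]
        have h1 : E0g M m (re h - (n : ℝ) • u) ≤ 1 := by
          refine (hE1 _).trans ?_
          rw [Real.exp_le_one_iff]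
          have := mul_nonneg (by positivity : 0 ≤ c / 2)
            (sq_nonneg ((re h - (n : ℝ) • u) x - (re h - (n : ℝ) • u) x₀))
          linarith
        calc pin w x₀ h * E0g M m (re h - (n : ℝ) • u) ≤ pin w x₀ h * 1 :=
              mul_le_mul_of_nonneg_left h1 (H963.pin_nonneg hw.nn x₀ h)
          _ = _ := mul_one _
    have hlim2 := hlim.const_mul (kap V m)
    rw [tsum_zero, mul_zero] at hlim2
    have h7 : ∀ n : ℕ, kap V m * ∑' h, pin w x₀ h * E0g M m (re h - (n : ℝ) • u) = Zn w M 0 := by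
      intro n
      rw [← hb.Zn_pin hM x₀, hconst]
    simp only [h7] at hlim2
    exact z0.ne' (tendsto_nhds_unique tendsto_const_nhds hlim2)

/-! ### the window -/

variable {I I' J : Type} [Fintype I] [Fintype I'] [Fintype J] [DecidableEq I]
variable {H H' : Matrix V V ℝ} {B : Matrix V I ℝ} {K KH : Matrix I V ℝ} {A : Matrix V I' ℝ}
  {C : Matrix V J ℝ}

lemma chn_K_one (h : Chn H H' B KH) (hH : PC H) : KH *ᵥ (fun _ : V => (1 : ℝ)) = 0 := by
  have h0 : H *ᵥ (fun _ : V => (1 : ℝ)) = 0 := by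
    funext x
    simpa [mulVec, dotProduct] using hH.row x
  obtain ⟨k1, k2⟩ := chn_split h (fun _ : V => (1 : ℝ))
  set v := KH *ᵥ (fun _ : V => (1 : ℝ)) with hv
  have e2 : qf H' (fun _ : V => (1 : ℝ)) = 0 := by
    rw [h.eq2, H37.qf_eq, sub_mulVec, dotProduct_sub, h0]
    have h5 : (H * B * KH) *ᵥ (fun _ : V => (1 : ℝ)) = H *ᵥ (B *ᵥ v) := by
      rw [← mulVec_mulVec, ← mulVec_mulVec]
    rw [h5, dotProduct_mulVec, ← mulVec_transpose, hH.symm, h0]
    simp
  rw [e2] at k2
  have h6 := hH.nn ((fun _ : V => (1 : ℝ)) - B *ᵥ v)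
  have h7 : 0 ≤ v ⬝ᵥ v := by
    simp only [dotProduct]
    exact Finset.sum_nonneg fun i _ => mul_self_nonneg _
  have h8 : v ⬝ᵥ v = 0 := by linarith
  exact dotProduct_self_eq_zero.1 h8

/-- the form at the next level has the same kernel -/
theorem PC.next (hH : PC H) (h : Chn H H' B KH) : PC H' where
  symm := h.sym'
  nn u := by
    obtain ⟨k1, k2⟩ := chn_split h u
    have h6 := hH.nn (u - B *ᵥ (KH *ᵥ u))
    have h7 : 0 ≤ (KH *ᵥ u) ⬝ᵥ (KH *ᵥ u) := by
      simp only [dotProduct]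
      exact Finset.sum_nonneg fun i _ => mul_self_nonneg _
    linarith
  row x := by
    have h0 : H *ᵥ (fun _ : V => (1 : ℝ)) = 0 := by
      funext x
      simpa [mulVec, dotProduct] using hH.row x
    have h1 : H' *ᵥ (fun _ : V => (1 : ℝ)) = 0 := by
      rw [h.eq2, sub_mulVec, h0, ← mulVec_mulVec, chn_K_one h hH]
      simp
    have := congrFun h1 x
    simpa [mulVec, dotProduct] using this
  ker u hu := by
    obtain ⟨k1, k2⟩ := chn_split h u
    rw [hu] at k2
    have h6 := hH.nn (u - B *ᵥ (KH *ᵥ u))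
    have h7 : 0 ≤ (KH *ᵥ u) ⬝ᵥ (KH *ᵥ u) := by
      simp only [dotProduct]
      exact Finset.sum_nonneg fun i _ => mul_self_nonneg _
    have h8 : (KH *ᵥ u) ⬝ᵥ (KH *ᵥ u) = 0 := by linarith
    have h9 : KH *ᵥ u = 0 := dotProduct_self_eq_zero.1 h8
    rw [h9] at k2
    simp only [mulVec_zero, sub_zero, dotProduct_zero, zero_add] at k2
    exact hH.ker u k2

/-- the data of a window: `H` the form at the upper level, `A` root of the conditional covariance,
`C` root of the covariance of the next level -/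
structure Win (H H' : Matrix V V ℝ) (B : Matrix V I ℝ) (KH : Matrix I V ℝ) (A : Matrix V I' ℝ)
    (C : Matrix V J ℝ) : Prop where
  chn : Chn H H' B KH
  covA : A * Aᵀ = B * (1 + QB H B)⁻¹ * Bᵀ
  covC : H' * (C * Cᵀ) * H' = H'

/-- existence -/
theorem exists_Win (hH : PC H) (B : Matrix V I ℝ) : ∃ (H' : Matrix V V ℝ) (KH : Matrix I V ℝ)
    (A : Matrix V I ℝ) (C : Matrix V V ℝ), Win H H' B KH A C := by
  have h1 := exists_chn hH.symm hH.nn B
  obtain ⟨A1, hA1⟩ := exists_win hH.symm hH.nn B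
  obtain ⟨C, hC⟩ := (hH.next h1).exists_C
  refine ⟨_, _, B * A1, C, h1, ?_, hC⟩
  rw [transpose_mul, Matrix.mul_assoc, ← Matrix.mul_assoc A1, hA1, ← Matrix.mul_assoc]

/-- `F₀ = ah C` -/
def F0m (B : Matrix V I ℝ) (KH : Matrix I V ℝ) (C : Matrix V J ℝ) : Matrix V J ℝ :=
  C - B * KH * C

lemma fl_eq (B : Matrix V I ℝ) (KH : Matrix I V ℝ) (C : Matrix V J ℝ) (A : Matrix V I' ℝ)
    (a : J → ℝ) (g : I' → ℝ) :
    fl (F0m B KH C) A (a, g) = (C *ᵥ a - B *ᵥ (KH *ᵥ (C *ᵥ a))) + A *ᵥ g := by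
  unfold fl F0m
  rw [sub_mulVec, ← mulVec_mulVec, ← mulVec_mulVec]

/-- covariance of the upper level -/
theorem Win.cov (hW : Win H H' B KH A C) :
    H * (F0m B KH C * (F0m B KH C)ᵀ + A * Aᵀ) * H = H := by
  have h := hW.chn
  have e1 : H * F0m B KH C = H' * C := by
    unfold F0m
    rw [Matrix.mul_sub, h.eq2, Matrix.sub_mul]
    simp only [Matrix.mul_assoc]
  have e2 : (F0m B KH C)ᵀ * H = Cᵀ * H' := by
    have := congrArg Matrix.transpose e1
    rwa [transpose_mul, transpose_mul, h.sym, h.sym'] at this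
  have e3 : H * (F0m B KH C * (F0m B KH C)ᵀ) * H = H' := by
    calc _ = (H * F0m B KH C) * ((F0m B KH C)ᵀ * H) := by simp only [Matrix.mul_assoc]
      _ = H' * (C * Cᵀ) * H' := by rw [e1, e2]; simp only [Matrix.mul_assoc]
      _ = H' := hW.covC
  have hu := isUnit_QB h.sym h.nn B
  have e4 : (1 + QB H B)⁻¹ * Bᵀ * H = KH := by
    have h1 : (1 + QB H B) * KH = Bᵀ * H := by
      rw [Matrix.add_mul, Matrix.one_mul]
      unfold QB
      rw [h.eq1]
    rw [Matrix.mul_assoc, ← h1, ← Matrix.mul_assoc, Matrix.nonsing_inv_mul _ hu, Matrix.one_mul]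
  have e5 : H * (A * Aᵀ) * H = H - H' := by
    rw [hW.covA]
    calc H * (B * (1 + QB H B)⁻¹ * Bᵀ) * H = H * B * ((1 + QB H B)⁻¹ * Bᵀ * H) := by
          simp only [Matrix.mul_assoc]
      _ = H * B * KH := by rw [e4]
      _ = H - H' := by rw [h.eq2]; abel
  rw [Matrix.mul_add, Matrix.add_mul, e3, e5]
  abel

/-- the Gaussian of the upper level is `fl` -/
theorem PC.leb_fl (hH : PC H) (hW : Win H H' B KH A C) (x₀ : V) {Φ : (V → ℝ) → ENNReal}
    (hc : CI Φ) (hΦ : Measurable Φ) :
    ∫⁻ F in slab x₀, ENNReal.ofReal (Real.exp (-(qf H F / 2))) * Φ F =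
      ENNReal.ofReal (lg H x₀) *
        ∫⁻ p, Φ (fl (F0m B KH C) A p) ∂((gau J).prod (gau I')) := by
  have h1 := hH.leb_lint (J := J ⊕ I') (C := Matrix.fromCols (F0m B KH C) A) (by
    rw [transpose_fromCols, fromCols_mul_fromRows]
    exact hW.cov) x₀ hc hΦ
  rw [h1]
  congr 1
  have h2 := (H37.gau_sum (I₁ := J) (I₂ := I')).lintegral_comp
    (f := fun p : (J → ℝ) × (I' → ℝ) => Φ (fl (F0m B KH C) A p))
    (hΦ.comp (H686.measurable_fl _ _))
  rw [← h2]
  refine lintegral_congr fun g => ?_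
  congr 1
  unfold fl
  funext x
  simp only [mulVec, dotProduct, Fintype.sum_sum_type, fromCols_apply_inl, fromCols_apply_inr,
    Pi.add_apply]
  rfl

end

end Vale.Agent.P159.H883
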