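import Vale.Agent.P159.H883.Brg3

/-!
P159, module BRG (helper883), part 4: the bridge. With `W = Wt w M m x₀ = e^R ≥ 1`,
`fl (a, g) = F₀ a + A g`, `Z = ∬ W(fl)`:
`EF w M B Φ f = P(WΦ)/P(W)`, `Enu w M Φ = ∬ W Φ / Z`, `Enu w M' Φ = ∫ mg Φ(C ·) / Z`.
-/

set_option linter.unusedSectionVars false

namespace Vale.Agent.P159.H883

open Finset Matrix MeasureTheory ProbabilityTheory
open Vale.Agent.P159.TM.H104 (EM nh Gr li)
open Vale.Agent.P159.H37 (wM ZM qf bf Zn Un Rs Zs re gau Gm)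
open Vale.Agent.P159.H963 (GrI pin MF ntr GW nM An)
open Vale.Agent.P159.H896 (Chn cN)
open Vale.Agent.P159.H363 (law_integral_eq law_integral_eq_add measurable_mulVec)
open Vale.Agent.P159.H686 (fl mg tl)

noncomputable section

variable {V : Type} [Fintype V] [DecidableEq V] [Nonempty V]
variable {w wD : (V → ℤ) → ℝ} {M M' : Matrix V V ℝ} {m m' : ℝ} {x₀ : V}
variable {I I' J : Type} [Fintype I] [Fintype I'] [Fintype J] [DecidableEq I]
variable {H' : Matrix V V ℝ} {B : Matrix V I ℝ} {K KH : Matrix I V ℝ} {A : Matrix V I' ℝ}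
  {C : Matrix V J ℝ}

/-- conditional mean -/
def ah (B : Matrix V I ℝ) (KH : Matrix I V ℝ) (f : V → ℝ) : V → ℝ := f - B *ᵥ (KH *ᵥ f)

lemma fl_ah (B : Matrix V I ℝ) (KH : Matrix I V ℝ) (C : Matrix V J ℝ) (A : Matrix V I' ℝ)
    (a : J → ℝ) (g : I' → ℝ) : fl (F0m B KH C) A (a, g) = ah B KH (C *ᵥ a) + A *ᵥ g :=
  fl_eq B KH C A a g

lemma ah_addc (hw : GW w) (hb : BW w) (hM : MF M m)
    (hW : Win (An w M m x₀) H' B KH A C) (f : V → ℝ) (c : ℝ) :
    ah B KH (fun x => f x + c) = fun x => ah B KH f x + c := by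
  have h1 := chn_K_one hW.chn (pc_An hw hb hM x₀)
  have h2 : KH *ᵥ (fun x => f x + c) = KH *ᵥ f := by
    have e : (fun x => f x + c) = f + c • fun _ : V => (1 : ℝ) := by
      funext x
      simp
    rw [e, mulVec_add, mulVec_smul, h1, smul_zero, add_zero]
  unfold ah
  rw [h2]
  funext x
  simp only [Pi.sub_apply]
  ring

/-- the marginal weight as a function of the field -/
def mgf (w : (V → ℤ) → ℝ) (M : Matrix V V ℝ) (m : ℝ) (x₀ : V) (B : Matrix V I ℝ)
    (KH : Matrix I V ℝ) (A : Matrix V I' ℝ) (f : V → ℝ) : ℝ :=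
  ∫ g, Wt w M m x₀ (ah B KH f + A *ᵥ g) ∂(gau I')

lemma mg_eq (w : (V → ℤ) → ℝ) (M : Matrix V V ℝ) (m : ℝ) (x₀ : V) (B : Matrix V I ℝ)
    (KH : Matrix I V ℝ) (A : Matrix V I' ℝ) (C : Matrix V J ℝ) (a : J → ℝ) :
    mg (gau I') (fun p => Wt w M m x₀ (fl (F0m B KH C) A p)) a = mgf w M m x₀ B KH A (C *ᵥ a) := by
  unfold mg mgf
  simp only [fl_ah]

lemma ci_mgf (hw : GW w) (hb : BW w) (hM : MF M m) (hW : Win (An w M m x₀) H' B KH A C) :
    CI (mgf w M m x₀ B KH A) := by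
  intro f c
  unfold mgf
  refine integral_congr_ae (Filter.Eventually.of_forall fun g => ?_)
  simp only
  rw [ah_addc hw hb hM hW]
  have e : ((fun x => ah B KH f x + c) + A *ᵥ g) = fun x => (ah B KH f + A *ᵥ g) x + c := by
    funext x
    simp only [Pi.add_apply]
    ring
  rw [e, ci_Wt hM x₀]

/-- **next level partition function** -/
theorem Zn_next (h : Chn M M' B K) (hw : GW w) (hb : BW w) (hM : MF M m) (hM' : MF M' m')
    (hW : Win (An w M m x₀) H' B KH A C) (f : V → ℝ) :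
    Zn w M' f = Zn w M 0 * cN (An w M m x₀) B / cN M B *
      (Real.exp (-(qf H' f / 2)) * mgf w M m x₀ B KH A f) := by
  have hc := H896.cN_pos (B := B) h.nn
  have h1 := hb.chn_Zn h hM hM' f
  have e1 : ∀ g : I → ℝ, Zn w M (f + B *ᵥ g) = Zn w M 0 *
      (Real.exp (-(qf (An w M m x₀) (f + B *ᵥ g) / 2)) * Wt w M m x₀ (f + B *ᵥ g)) := fun g =>
    Zn_Wt hw hM x₀ _
  simp only [e1] at h1
  rw [integral_const_mul, tiltB_int hW.chn hW.covA f (continuous_Wt hw hM x₀).measurable] at h1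
  have h2 : Zn w M' f = (cN M B)⁻¹ * (cN M B * Zn w M' f) := by
    rw [← mul_assoc, inv_mul_cancel₀ hc.ne', one_mul]
  rw [h2, ← h1]
  unfold mgf ah
  ring

lemma mgf_pos (h : Chn M M' B K) (hw : GW w) (hb : BW w) (hM : MF M m) (hM' : MF M' m')
    (hW : Win (An w M m x₀) H' B KH A C) (f : V → ℝ) : 0 < mgf w M m x₀ B KH A f := by
  have h1 := Zn_next h hw hb hM hM' hW f
  have h2 := hw.Zn_pos hM' f
  rw [h1] at h2
  have hc := H896.cN_pos (B := B) h.nn
  have hc2 := H896.cN_pos (B := B) hW.chn.nn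
  have z0 := hw.Zn_pos hM (0 : V → ℝ)
  have h3 : 0 < Zn w M 0 * cN (An w M m x₀) B / cN M B := by positivity
  have h4 := (pos_iff_pos_of_mul_pos h2).1 h3
  exact (pos_iff_pos_of_mul_pos h4).1 (Real.exp_pos _)

lemma measurable_mgf (h : Chn M M' B K) (hw : GW w) (hb : BW w) (hM : MF M m) (hM' : MF M' m')
    (hW : Win (An w M m x₀) H' B KH A C) : Measurable (mgf w M m x₀ B KH A) := by
  have hc := H896.cN_pos (B := B) h.nn
  have hc2 := H896.cN_pos (B := B) hW.chn.nn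
  have z0 := hw.Zn_pos hM (0 : V → ℝ)
  have e : mgf w M m x₀ B KH A = fun f => (Zn w M 0 * cN (An w M m x₀) B / cN M B)⁻¹ *
      (Real.exp (qf H' f / 2) * Zn w M' f) := by
    funext f
    rw [Zn_next h hw hb hM hM' hW f]
    have h5 : Real.exp (qf H' f / 2) * Real.exp (-(qf H' f / 2)) = 1 := by
      rw [← Real.exp_add]
      simp
    have h3 : Zn w M 0 * cN (An w M m x₀) B / cN M B ≠ 0 := by positivity
    generalize Zn w M 0 * cN (An w M m x₀) B / cN M B = k at h3 ⊢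
    generalize Real.exp (qf H' f / 2) = s at h5 ⊢
    generalize Real.exp (-(qf H' f / 2)) = t at h5 ⊢
    generalize mgf w M m x₀ B KH A f = y
    calc y = (k⁻¹ * k) * (s * t) * y := by rw [inv_mul_cancel₀ h3, h5]; ring
      _ = k⁻¹ * (s * (k * (t * y))) := by ac_rfl
  rw [e]
  exact ((Real.measurable_exp.comp (H896.continuous_qf.measurable.div_const 2)).mul
    (hb.contZn hM').measurable).const_mul _

/-- **(1) the conditional law as a tilted Gaussian** -/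
theorem EF_eq (hw : GW w) (hM : MF M m) (hW : Win (An w M m x₀) H' B KH A C)
    {Φ : (V → ℝ) → ℝ} (hΦ : Measurable Φ) (f : V → ℝ) :
    EF w M B Φ f = (∫ g, Wt w M m x₀ (ah B KH f + A *ᵥ g) * Φ (ah B KH f + A *ᵥ g) ∂(gau I')) /
      ∫ g, Wt w M m x₀ (ah B KH f + A *ᵥ g) ∂(gau I') := by
  have hc2 := H896.cN_pos (B := B) hW.chn.nn
  have z0 := hw.Zn_pos hM (0 : V → ℝ)
  have hmW := (continuous_Wt hw hM x₀).measurable
  have e1 : ∀ g : I → ℝ, Φ (f + B *ᵥ g) * Zn w M (f + B *ᵥ g) = Zn w M 0 *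
      (Real.exp (-(qf (An w M m x₀) (f + B *ᵥ g) / 2)) *
        (fun F => Wt w M m x₀ F * Φ F) (f + B *ᵥ g)) := fun g => by
    rw [Zn_Wt hw hM x₀ (f + B *ᵥ g)]
    ring
  have e2 : ∀ g : I → ℝ, Zn w M (f + B *ᵥ g) = Zn w M 0 *
      (Real.exp (-(qf (An w M m x₀) (f + B *ᵥ g) / 2)) * Wt w M m x₀ (f + B *ᵥ g)) := fun g =>
    Zn_Wt hw hM x₀ _
  have n1 : ∫ g, Φ (f + B *ᵥ g) * Zn w M (f + B *ᵥ g) ∂(gau I) = Zn w M 0 *
      (cN (An w M m x₀) B * Real.exp (-(qf H' f / 2))) *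
        ∫ g, Wt w M m x₀ (ah B KH f + A *ᵥ g) * Φ (ah B KH f + A *ᵥ g) ∂(gau I') := by
    simp only [e1]
    rw [integral_const_mul,
      tiltB_int hW.chn hW.covA f (G := fun F => Wt w M m x₀ F * Φ F) (hmW.mul hΦ), ← mul_assoc]
    rfl
  have d1 : ∫ g, Zn w M (f + B *ᵥ g) ∂(gau I) = Zn w M 0 *
      (cN (An w M m x₀) B * Real.exp (-(qf H' f / 2))) *
        ∫ g, Wt w M m x₀ (ah B KH f + A *ᵥ g) ∂(gau I') := by
    simp only [e2]
    rw [integral_const_mul, tiltB_int hW.chn hW.covA f hmW, ← mul_assoc]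
    rfl
  have h3 : Zn w M 0 * (cN (An w M m x₀) B * Real.exp (-(qf H' f / 2))) ≠ 0 := by positivity
  unfold EF
  rw [n1, d1, mul_div_mul_left _ _ h3]

/-- in the letters of SWIN -/
theorem EF_tl (hw : GW w) (hM : MF M m) (hW : Win (An w M m x₀) H' B KH A C)
    {Φ : (V → ℝ) → ℝ} (hΦ : Measurable Φ) (a : J → ℝ) :
    EF w M B Φ (C *ᵥ a) = tl (gau I') (fun p => Wt w M m x₀ (fl (F0m B KH C) A p))
      (fun p => Φ (fl (F0m B KH C) A p)) a := by
  rw [EF_eq hw hM hW hΦ]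
  unfold tl mg
  simp only [fl_ah]

/-- level `M`, nonnegative functions -/
theorem lint_M (hw : GW w) (hb : BW w) (hM : MF M m) (hW : Win (An w M m x₀) H' B KH A C)
    {Ψ : (V → ℝ) → ENNReal} (hc : CI Ψ) (hΨ : Measurable Ψ) :
    ∫⁻ F in slab x₀, ENNReal.ofReal (Zn w M F) * Ψ F =
      ENNReal.ofReal (Zn w M 0 * lg (An w M m x₀) x₀) *
        ∫⁻ p, ENNReal.ofReal (Wt w M m x₀ (fl (F0m B KH C) A p)) * Ψ (fl (F0m B KH C) A p)
          ∂((gau J).prod (gau I')) := by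
  have hH := pc_An hw hb hM x₀
  have z0 := hw.Zn_pos hM (0 : V → ℝ)
  have hmW := (continuous_Wt hw hM x₀).measurable
  have h1 := hH.leb_fl hW x₀ (Φ := fun F => ENNReal.ofReal (Wt w M m x₀ F) * Ψ F)
    (fun F c => by simp only [ci_Wt hM x₀ F c, hc F c]) (hmW.ennreal_ofReal.mul hΨ)
  rw [ENNReal.ofReal_mul z0.le, mul_assoc, ← h1, ← lintegral_const_mul]
  · refine lintegral_congr fun F => ?_
    rw [Zn_Wt hw hM x₀ F, ENNReal.ofReal_mul z0.le, ENNReal.ofReal_mul (Real.exp_pos _).le]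
    ring
  · exact (Real.measurable_exp.comp (H896.continuous_qf.measurable.div_const 2).neg).ennreal_ofReal.mul
      (hmW.ennreal_ofReal.mul hΨ)

/-- level `M'`, nonnegative functions -/
theorem lint_M' (h : Chn M M' B K) (hw : GW w) (hb : BW w) (hM : MF M m) (hM' : MF M' m')
    (hW : Win (An w M m x₀) H' B KH A C)
    {Ψ : (V → ℝ) → ENNReal} (hc : CI Ψ) (hΨ : Measurable Ψ) :
    ∫⁻ F in slab x₀, ENNReal.ofReal (Zn w M' F) * Ψ F =
      ENNReal.ofReal (Zn w M 0 * cN (An w M m x₀) B / cN M B * lg H' x₀) *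
        ∫⁻ a, ENNReal.ofReal (mg (gau I') (fun p => Wt w M m x₀ (fl (F0m B KH C) A p)) a) *
          Ψ (C *ᵥ a) ∂(gau J) := by
  have hH' := (pc_An hw hb hM x₀).next hW.chn
  have z0 := hw.Zn_pos hM (0 : V → ℝ)
  have hc1 := H896.cN_pos (B := B) h.nn
  have hc2 := H896.cN_pos (B := B) hW.chn.nn
  have hk : 0 < Zn w M 0 * cN (An w M m x₀) B / cN M B := by positivity
  have hmg := measurable_mgf h hw hb hM hM' hW
  simp only [mg_eq]
  have h1 := hH'.leb_lint hW.covC x₀ (Φ := fun F => ENNReal.ofReal (mgf w M m x₀ B KH A F) * Ψ F)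
    (fun F c => by simp only [ci_mgf hw hb hM hW F c, hc F c]) (hmg.ennreal_ofReal.mul hΨ)
  rw [ENNReal.ofReal_mul hk.le, mul_assoc, ← h1, ← lintegral_const_mul]
  · refine lintegral_congr fun F => ?_
    rw [Zn_next h hw hb hM hM' hW F, ENNReal.ofReal_mul hk.le,
      ENNReal.ofReal_mul (Real.exp_pos _).le]
    ring
  · exact (Real.measurable_exp.comp (H896.continuous_qf.measurable.div_const 2).neg).ennreal_ofReal.mul
      (hmg.ennreal_ofReal.mul hΨ)

/-- **(2a)** integrals at the level `M` -/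
theorem int_M (hw : GW w) (hb : BW w) (hM : MF M m) (hW : Win (An w M m x₀) H' B KH A C)
    {Φ : (V → ℝ) → ℝ} (hc : CI Φ) (hΦ : Measurable Φ) :
    (IN w M x₀ Φ ↔ Integrable (fun p => Wt w M m x₀ (fl (F0m B KH C) A p) *
      Φ (fl (F0m B KH C) A p)) ((gau J).prod (gau I'))) ∧
    SI x₀ (fun F => Φ F * Zn w M F) = (Zn w M 0 * lg (An w M m x₀) x₀) *
      ∫ p, Wt w M m x₀ (fl (F0m B KH C) A p) * Φ (fl (F0m B KH C) A p)
        ∂((gau J).prod (gau I')) := by
  have hH := pc_An hw hb hM x₀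
  have z0 := hw.Zn_pos hM (0 : V → ℝ)
  have hmW := (continuous_Wt hw hM x₀).measurable
  have hfl : Measurable (fl (F0m B KH C) A) := H686.measurable_fl _ _
  have ht := transfer (Ω := V → ℝ) (μ := volume.restrict (slab x₀)) (ν := (gau J).prod (gau I'))
    (ρ := Zn w M) (σ := fun p => Wt w M m x₀ (fl (F0m B KH C) A p)) (p := q0 x₀)
    (r := fun p => q0 x₀ (fl (F0m B KH C) A p)) (hb.contZn hM).measurable (hmW.comp hfl)
    (measurable_q0 x₀) ((measurable_q0 x₀).comp hfl) (fun F => (hw.Zn_pos hM F).le)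
    (fun p => (Wt_pos w M m x₀ _).le) (mul_pos z0 (hH.lg_pos x₀))
    (fun Ψ hΨ => lint_M hw hb hM hW ((ci_q0 x₀).comp Ψ) (hΨ.comp (measurable_q0 x₀))) hΦ
  simp only [hc.q0] at ht
  constructor
  · rw [← ht.1]
    unfold IN
    refine integrable_congr (Filter.Eventually.of_forall fun F => ?_)
    simp only
    ring
  · rw [← ht.2]
    unfold SI
    refine integral_congr_ae (Filter.Eventually.of_forall fun F => ?_)
    simp only
    ring

/-- **(3a)** integrals at the level `M'` -/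
theorem int_M' (h : Chn M M' B K) (hw : GW w) (hb : BW w) (hM : MF M m) (hM' : MF M' m')
    (hW : Win (An w M m x₀) H' B KH A C)
    {Φ : (V → ℝ) → ℝ} (hc : CI Φ) (hΦ : Measurable Φ) :
    (IN w M' x₀ Φ ↔ Integrable (fun a => mg (gau I')
      (fun p => Wt w M m x₀ (fl (F0m B KH C) A p)) a * Φ (C *ᵥ a)) (gau J)) ∧
    SI x₀ (fun F => Φ F * Zn w M' F) = (Zn w M 0 * cN (An w M m x₀) B / cN M B * lg H' x₀) *
      ∫ a, mg (gau I') (fun p => Wt w M m x₀ (fl (F0m B KH C) A p)) a * Φ (C *ᵥ a)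
        ∂(gau J) := by
  have hH' := (pc_An hw hb hM x₀).next hW.chn
  have z0 := hw.Zn_pos hM (0 : V → ℝ)
  have hc1 := H896.cN_pos (B := B) h.nn
  have hc2 := H896.cN_pos (B := B) hW.chn.nn
  have hk : 0 < Zn w M 0 * cN (An w M m x₀) B / cN M B := by positivity
  have hmg := measurable_mgf h hw hb hM hM' hW
  have hmg' : Measurable fun a : J → ℝ =>
      mg (gau I') (fun p => Wt w M m x₀ (fl (F0m B KH C) A p)) a := by
    simp only [mg_eq]
    exact hmg.comp (measurable_mulVec C)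
  have ht := transfer (Ω := V → ℝ) (μ := volume.restrict (slab x₀)) (ν := gau J)
    (ρ := Zn w M') (σ := fun a => mg (gau I') (fun p => Wt w M m x₀ (fl (F0m B KH C) A p)) a)
    (p := q0 x₀) (r := fun a => q0 x₀ (C *ᵥ a)) (hb.contZn hM').measurable hmg'
    (measurable_q0 x₀) ((measurable_q0 x₀).comp (measurable_mulVec C))
    (fun F => (hw.Zn_pos hM' F).le)
    (fun a => by rw [mg_eq]; exact (mgf_pos h hw hb hM hM' hW _).le) (mul_pos hk (hH'.lg_pos x₀))
    (fun Ψ hΨ => lint_M' h hw hb hM hM' hW ((ci_q0 x₀).comp Ψ) (hΨ.comp (measurable_q0 x₀))) hΦ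
  simp only [hc.q0] at ht
  constructor
  · rw [← ht.1]
    unfold IN
    refine integrable_congr (Filter.Eventually.of_forall fun F => ?_)
    simp only
    ring
  · rw [← ht.2]
    unfold SI
    refine integral_congr_ae (Filter.Eventually.of_forall fun F => ?_)
    simp only
    ring

/-- `W` is integrable -/
theorem integrable_W (hw : GW w) (hb : BW w) (hM : MF M m) (hW : Win (An w M m x₀) H' B KH A C) :
    Integrable (fun p => Wt w M m x₀ (fl (F0m B KH C) A p)) ((gau J).prod (gau I')) := by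
  have h1 := (int_M hw hb hM hW (Φ := fun _ => (1 : ℝ)) (fun _ _ => rfl) measurable_const).1
  have h2 : IN w M x₀ fun _ => (1 : ℝ) := (XG.const 1).in_ (fun _ _ => rfl) hb hM x₀
  have h3 := h1.1 h2
  simpa using h3

/-- the total mass -/
def Zt (w : (V → ℤ) → ℝ) (M : Matrix V V ℝ) (m : ℝ) (x₀ : V) (B : Matrix V I ℝ)
    (KH : Matrix I V ℝ) (A : Matrix V I' ℝ) (C : Matrix V J ℝ) : ℝ :=
  ∫ p, Wt w M m x₀ (fl (F0m B KH C) A p) ∂((gau J).prod (gau I'))

theorem one_le_Zt (hw : GW w) (hb : BW w) (hM : MF M m) (hW : Win (An w M m x₀) H' B KH A C) :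
    1 ≤ Zt w M m x₀ B KH A C :=
  H363.one_le_intW (fun _ => one_le_Wt hw hM x₀ _) (integrable_W hw hb hM hW)

/-- **(2) the law of the level `M`** -/
theorem Enu_M (hw : GW w) (hb : BW w) (hM : MF M m) (hW : Win (An w M m x₀) H' B KH A C)
    {Φ : (V → ℝ) → ℝ} (hc : CI Φ) (hΦ : Measurable Φ) :
    Enu w M x₀ Φ = (∫ p, Wt w M m x₀ (fl (F0m B KH C) A p) * Φ (fl (F0m B KH C) A p)
      ∂((gau J).prod (gau I'))) / Zt w M m x₀ B KH A C := by
  have h1 := (int_M hw hb hM hW hc hΦ).2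
  have h2 := (int_M hw hb hM hW (Φ := fun _ => (1 : ℝ)) (fun _ _ => rfl) measurable_const).2
  simp only [one_mul, mul_one] at h2
  have h3 : 0 < Zn w M 0 * lg (An w M m x₀) x₀ :=
    mul_pos (hw.Zn_pos hM 0) ((pc_An hw hb hM x₀).lg_pos x₀)
  unfold Enu
  rw [h1]
  have h4 : SI x₀ (Zn w M) = Zn w M 0 * lg (An w M m x₀) x₀ * Zt w M m x₀ B KH A C := h2
  rw [h4, mul_div_mul_left _ _ h3.ne']

/-- **(3) the law of the level `M'`** -/
theorem Enu_M' (h : Chn M M' B K) (hw : GW w) (hb : BW w) (hM : MF M m) (hM' : MF M' m')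
    (hW : Win (An w M m x₀) H' B KH A C)
    {Φ : (V → ℝ) → ℝ} (hc : CI Φ) (hΦ : Measurable Φ) :
    Enu w M' x₀ Φ = (∫ a, mg (gau I') (fun p => Wt w M m x₀ (fl (F0m B KH C) A p)) a *
      Φ (C *ᵥ a) ∂(gau J)) / Zt w M m x₀ B KH A C := by
  have h1 := (int_M' h hw hb hM hM' hW hc hΦ).2
  have h2 := (int_M' h hw hb hM hM' hW (Φ := fun _ => (1 : ℝ)) (fun _ _ => rfl)
    measurable_const).2
  simp only [one_mul, mul_one] at h2
  have hc1 := H896.cN_pos (B := B) h.nn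
  have hc2 := H896.cN_pos (B := B) hW.chn.nn
  have z0 := hw.Zn_pos hM (0 : V → ℝ)
  have h3 : 0 < Zn w M 0 * cN (An w M m x₀) B / cN M B * lg H' x₀ :=
    mul_pos (by positivity) (((pc_An hw hb hM x₀).next hW.chn).lg_pos x₀)
  have h5 : ∫ a, mg (gau I') (fun p => Wt w M m x₀ (fl (F0m B KH C) A p)) a ∂(gau J) =
      Zt w M m x₀ B KH A C := H686.int_mg (integrable_W hw hb hM hW)
  unfold Enu
  rw [h1]
  have h4 : SI x₀ (Zn w M') = Zn w M 0 * cN (An w M m x₀) B / cN M B * lg H' x₀ *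
      Zt w M m x₀ B KH A C := by rw [← h5]; exact h2
  rw [h4, mul_div_mul_left _ _ h3.ne']

end

end Vale.Agent.P159.H883
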