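import Vale.Agent.P159.H883.Brg5

/-!
P159, module BRG (helper883), part 6: one window of SWIN as the property `H686.Stp` of the laws
`nuM w M x₀` and `nuM w M' x₀` of two consecutive levels.
-/

set_option linter.unusedSectionVars false

namespace Vale.Agent.P159.H883

open Finset Matrix MeasureTheory ProbabilityTheory
open Vale.Agent.P159.TM.H104 (EM nh Gr li)
open Vale.Agent.P159.H37 (wM ZM qf bf Zn Un Rs Zs re gau Gm)
open Vale.Agent.P159.H963 (GrI pin MF ntr GW nM An)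
open Vale.Agent.P159.H896 (Chn cN)
open Vale.Agent.P159.H363 (law_integral_eq law_integral_eq_add measurable_mulVec)
open Vale.Agent.P159.H686 (fl mg tl pu wn InL Stp dst dW wn_sq wn_nonneg)

noncomputable section

variable {V : Type} [Fintype V] [DecidableEq V] [Nonempty V]
variable {w wD : (V → ℤ) → ℝ} {M M' : Matrix V V ℝ} {m m' : ℝ} {x₀ : V}
variable {I I' J : Type} [Fintype I] [Fintype I'] [Fintype J] [DecidableEq I]
variable {H' : Matrix V V ℝ} {B : Matrix V I ℝ} {K KH : Matrix I V ℝ} {A : Matrix V I' ℝ}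
  {C : Matrix V J ℝ}
variable {β X : Type*} [Fintype β] [MeasurableSpace X]

lemma q0_q0 (x₀ : V) (F : V → ℝ) : q0 x₀ (q0 x₀ F) = q0 x₀ F := by
  funext x
  simp [q0]

/-- the bad event in the letters of the two laws -/
lemma bad_eq (hw : GW w) (hb : BW w) (hM : MF M m) (hW : Win (An w M m x₀) H' B KH A C)
    {Bd : Set (V → ℝ)} (hBd : MeasurableSet Bd) :
    ∫ p in (fun p => q0 x₀ (fl (F0m B KH C) A p)) ⁻¹' Bd, Wt w M m x₀ (fl (F0m B KH C) A p)
      ∂((gau J).prod (gau I')) = (nuM w M x₀).real Bd * Zt w M m x₀ B KH A C := by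
  have hfl : Measurable (fl (F0m B KH C) A) := H686.measurable_fl _ _
  have hr : Measurable fun p => q0 x₀ (fl (F0m B KH C) A p) := (measurable_q0 x₀).comp hfl
  have hz0 : 0 < Zt w M m x₀ B KH A C := by linarith [one_le_Zt hw hb hM hW]
  have := prob_nuM hw hb hM x₀
  have h1 := law_int (ν := (gau J).prod (gau I'))
    (σ := fun p => Wt w M m x₀ (fl (F0m B KH C) A p))
    (r := fun p => q0 x₀ (fl (F0m B KH C) A p)) (z := Zt w M m x₀ B KH A C)
    ((continuous_Wt hw hM x₀).measurable.comp hfl) hr (fun p => (Wt_pos w M m x₀ _).le) hz0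
    (Φ := Bd.indicator 1) (measurable_one.indicator hBd)
  rw [← nuM_fl hw hb hM hW] at h1
  have h2 := h1.2
  rw [integral_indicator_one hBd] at h2
  rw [h2, div_mul_cancel₀ _ hz0.ne', ← integral_indicator (hr hBd)]
  refine integral_congr_ae (Filter.Eventually.of_forall fun p => ?_)
  simp only
  by_cases hp : q0 x₀ (fl (F0m B KH C) A p) ∈ Bd
  · rw [Set.indicator_of_mem (show p ∈ (fun p => q0 x₀ (fl (F0m B KH C) A p)) ⁻¹' Bd from hp),
      Set.indicator_of_mem hp, Pi.one_apply, mul_one]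
  · rw [Set.indicator_of_notMem
      (show p ∉ (fun p => q0 x₀ (fl (F0m B KH C) A p)) ⁻¹' Bd from hp),
      Set.indicator_of_notMem hp, mul_zero]

/-- **one window** in the letters of `H686.GlueS` -/
theorem stp (h : Chn M M' B K) (hw : GW w) (hb : BW w) (hM : MF M m) (hM' : MF M' m')
    (hW : Win (An w M m x₀) H' B KH A C) (D : Matrix β V ℝ) {ρ : ℝ} (hρ0 : 0 ≤ ρ)
    (hD : ∀ l : β → ℝ, ∑ j, (l ᵥ* (D * F0m B KH C)) j ^ 2 ≤
      ρ ^ 2 * ∑ i, (l ᵥ* (D * A)) i ^ 2)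
    {Bd : Set (V → ℝ)} (hBd : MeasurableSet Bd) {η : ℝ} (hη0 : 0 ≤ η)
    (hη : ∀ F, F ∉ Bd → Wt w M m x₀ F ≤ 1 + η) {wm : (V → ℝ) → X} (hwm : Measurable wm)
    (hci : CI wm) (hloc : ∀ F G : V → ℝ, D *ᵥ F = D *ᵥ G → wm F = wm G)
    {Ψ : (V → ℝ) → ℝ} (hΨm : Measurable Ψ) (hΨc : CI Ψ) (hΨi : IN w M x₀ Ψ) {c : ℝ} (hc : c ≠ 0)
    (hmean : Enu w M x₀ Ψ = c) {b : ℝ} (hbd : (nuM w M x₀).real Bd ≤ b) :
    Stp (nuM w M x₀) (nuM w M' x₀) Ψ (EF w M B Ψ) c wm (√(Real.pi ^ 2 / 8) * ρ) η b := by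
  intro G e₂ e₁ L D₀ e q hG hG0 hGL hL hD0 he0 hq0 he2m he1m hdec hdst hi2 hn2 hi1 hn1
  have hfl : Measurable (fl (F0m B KH C) A) := H686.measurable_fl _ _
  have hq := measurable_q0 (V := V) x₀
  set ν₀ := (gau J).prod (gau I') with hν₀
  set W : (J → ℝ) × (I' → ℝ) → ℝ := fun p => Wt w M m x₀ (fl (F0m B KH C) A p) with hWdef
  set Z := Zt w M m x₀ B KH A C with hZdef
  have hZ1 : 1 ≤ Z := one_le_Zt hw hb hM hW
  have hZ0 : 0 < Z := by linarith
  have hW1 : ∀ p, 1 ≤ W p := fun p => one_le_Wt hw hM x₀ _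
  have hW0 : ∀ p, 0 ≤ W p := fun p => (Wt_pos w M m x₀ _).le
  have hWm : Measurable W := (continuous_Wt hw hM x₀).measurable.comp hfl
  have hWi : Integrable W ν₀ := integrable_W hw hb hM hW
  have hfq : Measurable fun p => q0 x₀ (fl (F0m B KH C) A p) := hq.comp hfl
  -- integrals at the level `M`
  have key : ∀ {Φ : (V → ℝ) → ℝ}, Measurable Φ →
      (Integrable Φ (nuM w M x₀) ↔ Integrable (fun p => W p * Φ (q0 x₀ (fl (F0m B KH C) A p))) ν₀) ∧
      ∫ F, Φ F ∂(nuM w M x₀) = (∫ p, W p * Φ (q0 x₀ (fl (F0m B KH C) A p)) ∂ν₀) / Z := by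
    intro Φ hΦ
    rw [nuM_fl hw hb hM hW]
    exact law_int hWm hfq hW0 hZ0 hΦ
  -- the invariant versions
  set loc : (V → ℝ) → ℝ := fun F => G (wm F) - 1 with hlocdef
  have hlocm : Measurable loc := (hG.comp hwm).sub_const 1
  have hlocc : CI loc := fun F s => by simp only [hlocdef, hci F s]
  have hlocL : ∀ F, |loc F| ≤ L := fun F => H686.abs_sub_one_le hL (hG0 _) (hGL _)
  set E₂ : (V → ℝ) → ℝ := fun F => e₂ (q0 x₀ F) with hE₂
  set E₁ : (V → ℝ) → ℝ := fun F => e₁ (q0 x₀ F) with hE₁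
  have hE2m : Measurable E₂ := he2m.comp hq
  have hE1m : Measurable E₁ := he1m.comp hq
  have hE2c : CI E₂ := (ci_q0 x₀).comp e₂
  have hE1c : CI E₁ := (ci_q0 x₀).comp e₁
  have hdec' : ∀ F, Ψ F / c - 1 = loc F + E₂ F + E₁ F := by
    intro F
    have h1 := hdec (q0 x₀ F)
    rw [hΨc.q0, hci.q0] at h1
    exact h1
  -- integrability
  have i2 : Integrable (fun p => W p * E₂ (fl (F0m B KH C) A p) ^ 2) ν₀ :=
    (key (Φ := fun F => e₂ F ^ 2) (he2m.pow_const 2)).1.1 hi2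
  have n2 : ∫ p, W p * E₂ (fl (F0m B KH C) A p) ^ 2 ∂ν₀ ≤ e ^ 2 * Z := by
    rw [(key (Φ := fun F => e₂ F ^ 2) (he2m.pow_const 2)).2, div_le_iff₀ hZ0] at hn2
    exact hn2
  have i1 : Integrable (fun p => W p * |E₁ (fl (F0m B KH C) A p)|) ν₀ :=
    (key (Φ := fun F => |e₁ F|) he1m.norm).1.1 hi1
  have n1 : ∫ p, W p * |E₁ (fl (F0m B KH C) A p)| ∂ν₀ ≤ q * Z := by
    rw [(key (Φ := fun F => |e₁ F|) he1m.norm).2, div_le_iff₀ hZ0] at hn1
    exact hn1
  have hlocq : ∀ F, loc (q0 x₀ F) = loc F := hlocc.q0 x₀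
  have iloc : Integrable (fun p => W p * loc (fl (F0m B KH C) A p) ^ 2) ν₀ := by
    refine (hWi.mul_const (L ^ 2)).mono'
      (hWm.mul ((hlocm.comp hfl).pow_const 2)).aestronglyMeasurable
      (Filter.Eventually.of_forall fun p => ?_)
    rw [Real.norm_eq_abs, abs_of_nonneg (mul_nonneg (hW0 p) (sq_nonneg _)), ← sq_abs]
    exact mul_le_mul_of_nonneg_left (pow_le_pow_left₀ (abs_nonneg _) (hlocL _) 2) (hW0 p)
  have nloc : wn ν₀ W (fun p => loc (fl (F0m B KH C) A p)) ≤ D₀ * √Z := by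
    have h1 := (key (Φ := fun F => loc F ^ 2) (hlocm.pow_const 2)).2
    simp only [hlocq] at h1
    have h2 : ∫ F, loc F ^ 2 ∂(nuM w M x₀) ≤ D₀ ^ 2 := by
      have h3 : √(∫ F, loc F ^ 2 ∂(nuM w M x₀)) ≤ D₀ := hdst
      exact (Real.sqrt_le_left hD0).1 h3
    rw [h1, div_le_iff₀ hZ0] at h2
    unfold wn
    calc √(∫ p, W p * loc (fl (F0m B KH C) A p) ^ 2 ∂ν₀) ≤ √(D₀ ^ 2 * Z) := Real.sqrt_le_sqrt h2
      _ = D₀ * √Z := by rw [Real.sqrt_mul (sq_nonneg _), Real.sqrt_sq hD0]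
  have ne2 : wn ν₀ W (fun p => E₂ (fl (F0m B KH C) A p)) ≤ e * √Z := by
    unfold wn
    calc √(∫ p, W p * E₂ (fl (F0m B KH C) A p) ^ 2 ∂ν₀) ≤ √(e ^ 2 * Z) := Real.sqrt_le_sqrt n2
      _ = e * √Z := by rw [Real.sqrt_mul (sq_nonneg _), Real.sqrt_sq he0]
  have IE2 : InL ν₀ W (fun p => E₂ (fl (F0m B KH C) A p)) :=
    ⟨(hE2m.comp hfl).aestronglyMeasurable, i2⟩
  have Iloc : InL ν₀ W (fun p => loc (fl (F0m B KH C) A p)) :=
    ⟨(hlocm.comp hfl).aestronglyMeasurable, iloc⟩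
  have IU : InL ν₀ W (fun p => loc (fl (F0m B KH C) A p) + E₂ (fl (F0m B KH C) A p)) :=
    Iloc.add hW0 hWi.1 IE2
  have nU : wn ν₀ W (fun p => loc (fl (F0m B KH C) A p) + E₂ (fl (F0m B KH C) A p))
      ≤ (D₀ + e) * √Z := by
    refine (H686.wn_add_le hW0 hWi.1 Iloc IE2).trans ?_
    rw [add_mul]
    exact add_le_add nloc ne2
  -- the bad set
  have hbb : ∫ p in (fun p => q0 x₀ (fl (F0m B KH C) A p)) ⁻¹' Bd, W p ∂ν₀ ≤ b * Z := by
    rw [hWdef, hν₀, bad_eq hw hb hM hW hBd]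
    exact mul_le_mul_of_nonneg_right hbd hZ0.le
  have hηB : ∀ p, p ∉ (fun p => q0 x₀ (fl (F0m B KH C) A p)) ⁻¹' Bd → W p ≤ 1 + η := by
    intro p hp
    have h1 := hη _ hp
    rwa [(ci_Wt hM x₀).q0] at h1
  -- centring
  have hΨI : Integrable Ψ (nuM w M x₀) := (nuM_ci hw hb hM x₀ hΨc hΨm).1.2 hΨi
  have hΨE : ∫ F, Ψ F ∂(nuM w M x₀) = c := (nuM_ci hw hb hM x₀ hΨc hΨm).2.trans hmean
  have hpr := prob_nuM hw hb hM x₀
  have hm0 : ∫ F, (Ψ F / c - 1) ∂(nuM w M x₀) = 0 := by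
    rw [integral_sub (hΨI.div_const c) (integrable_const _), integral_div, hΨE, div_self hc]
    simp
  have hmean' : ∫ p, W p * ((loc (fl (F0m B KH C) A p) + E₂ (fl (F0m B KH C) A p)) +
      E₁ (fl (F0m B KH C) A p)) ∂ν₀ = 0 := by
    have h1 := (key (Φ := fun F => Ψ F / c - 1) ((hΨm.div_const c).sub_const 1)).2
    rw [hm0] at h1
    have h2 : ∫ p, W p * (Ψ (q0 x₀ (fl (F0m B KH C) A p)) / c - 1) ∂ν₀ = 0 := by
      rcases div_eq_zero_iff.1 h1.symm with h3 | h3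
      · exact h3
      · exact absurd h3 hZ0.ne'
    rw [← h2]
    refine integral_congr_ae (Filter.Eventually.of_forall fun p => ?_)
    simp only
    rw [hΨc.q0, hdec']
  -- the window
  obtain ⟨T, hT1, hT2⟩ := H686.exists_T D hD (loc := loc) fun F F' hF => by
    simp only [hlocdef, hloc F F' hF]
  obtain ⟨m₁, hm₁, hκ⟩ := H686.pob_pu hlocm hlocL hρ0 T hT1 hT2
  obtain ⟨s1, s2, s3, s4, s5⟩ := swin_ex (μ₁ := gau J) (μ₂ := gau I') (W := W)
    (loc := fun p => loc (fl (F0m B KH C) A p))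
    (B := (fun p => q0 x₀ (fl (F0m B KH C) A p)) ⁻¹' Bd) (η := η) (L := L) (m := m₁)
    (κ := √(Real.pi ^ 2 / 8) * ρ)
    (u := fun p => loc (fl (F0m B KH C) A p) + E₂ (fl (F0m B KH C) A p))
    (v := fun p => E₁ (fl (F0m B KH C) A p)) (e₂ := fun p => E₂ (fl (F0m B KH C) A p))
    (e₁ := fun p => E₁ (fl (F0m B KH C) A p)) (d := D₀ + e) (e := e) (q := q) (q₀ := q) (b := b)
    (Z := Z) hW1 hWi (hfq hBd) hη0 hηB (hlocm.comp hfl) (by linarith) (fun p => hlocL _) hm₁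
    (by positivity) hκ rfl (fun p => rfl) IU (hE1m.comp hfl).aestronglyMeasurable i1 IE2
    (hE1m.comp hfl).aestronglyMeasurable i1 nU n1 ne2 n1 hbb hmean'
  -- integrals at the level `M'`
  have hmgm : Measurable fun a : J → ℝ => mg (gau I') W a := by
    have := measurable_mgf h hw hb hM hM' hW
    have e1 : (fun a : J → ℝ => mg (gau I') W a) = fun a => mgf w M m x₀ B KH A (C *ᵥ a) :=
      funext fun a => mg_eq w M m x₀ B KH A C a
    rw [e1]
    exact this.comp (measurable_mulVec C)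
  have hmg0 : ∀ a, 0 ≤ mg (gau I') W a := H686.mg_nonneg hW0
  have key' : ∀ {Φ : (V → ℝ) → ℝ}, Measurable Φ →
      (Integrable Φ (nuM w M' x₀) ↔
        Integrable (fun a => mg (gau I') W a * Φ (q0 x₀ (C *ᵥ a))) (gau J)) ∧
      ∫ F, Φ F ∂(nuM w M' x₀) = (∫ a, mg (gau I') W a * Φ (q0 x₀ (C *ᵥ a)) ∂(gau J)) / Z := by
    intro Φ hΦ
    rw [nuM_next h hw hb hM hM' hW]
    exact law_int hmgm (hq.comp (measurable_mulVec C)) hmg0 hZ0 hΦ
  -- the outputs
  set U : (V → ℝ) → ℝ := EF w M B fun F => loc F + E₂ F with hU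
  have hUm : Measurable U := measurable_EF hb hM B (hlocm.add hE2m)
  have hUc : CI U := CI.EF (fun F s => by simp only [hlocc F s, hE2c F s]) hb M B
  have hUa : ∀ a : J → ℝ, U (C *ᵥ a) =
      tl (gau I') W (fun p => loc (fl (F0m B KH C) A p) + E₂ (fl (F0m B KH C) A p)) a :=
    fun a => EF_tl hw hM hW (hlocm.add hE2m) a
  have hΨ2m : Measurable (EF w M B Ψ) := measurable_EF hb hM B hΨm
  have hΨ2c : CI (EF w M B Ψ) := hΨc.EF hb M B
  set v' : (V → ℝ) → ℝ := fun F => EF w M B Ψ F / c - 1 - U F with hv'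
  have hvm : Measurable v' := ((hΨ2m.div_const c).sub_const 1).sub hUm
  have hvc : CI v' := fun F s => by simp only [hv', hΨ2c F s, hUc F s]
  have hva : ∀ᵐ a ∂(gau J), v' (C *ᵥ a) = tl (gau I') W (fun p => E₁ (fl (F0m B KH C) A p)) a := by
    -- `EF Ψ / c - 1 = EF (Ψ / c - 1)`
    have hΨp : Integrable (fun p => W p * Ψ (fl (F0m B KH C) A p)) ν₀ := by
      have h1 := (key hΨm).1.1 hΨI
      simpa only [hΨc.q0] using h1
    have ha := H686.tl_add (μ₁ := gau J) (μ₂ := gau I') (W := W)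
      (ψ := fun p => Ψ (fl (F0m B KH C) A p) / c) (φ := fun _ => (-1 : ℝ))
      (by
        refine (hΨp.div_const c).congr (Filter.Eventually.of_forall fun p => ?_)
        simp only
        ring)
      (by
        refine (hWi.neg).congr (Filter.Eventually.of_forall fun p => ?_)
        simp)
    filter_upwards [ha, s1, H686.mg_ge_one hW1 hWi] with a h1 h2 h3
    have hm0' : mg (gau I') W a ≠ 0 := by
      have : 0 < mg (gau I') W a := by linarith
      exact this.ne'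
    have e0 : tl (gau I') W (fun _ => (-1 : ℝ)) a = -1 := by
      unfold tl
      rw [integral_mul_const]
      unfold mg at hm0' ⊢
      rw [mul_neg_one, neg_div, div_self hm0']
    have e1 : tl (gau I') W (fun p => Ψ (fl (F0m B KH C) A p) / c) a = EF w M B Ψ (C *ᵥ a) / c := by
      rw [EF_tl hw hM hW hΨm a]
      unfold tl
      have e5 : ∀ g : I' → ℝ, W (a, g) * (Ψ (fl (F0m B KH C) A (a, g)) / c) =
          (W (a, g) * Ψ (fl (F0m B KH C) A (a, g))) / c := fun g => by rw [mul_div_assoc]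
      simp only [e5]
      rw [integral_div, div_right_comm]
    have e2 : (fun p : (J → ℝ) × (I' → ℝ) => Ψ (fl (F0m B KH C) A p) / c + -1) = fun p =>
        (loc (fl (F0m B KH C) A p) + E₂ (fl (F0m B KH C) A p)) + E₁ (fl (F0m B KH C) A p) := by
      funext p
      have := hdec' (fl (F0m B KH C) A p)
      linarith
    rw [e0, e1, e2, h2] at h1
    simp only [hv']
    rw [hUa a]
    linarith
  have hUI : Integrable (fun a => mg (gau I') W a * U (C *ᵥ a) ^ 2) (gau J) := by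
    simp only [hUa]
    exact s2.int
  have hvI : Integrable (fun a => mg (gau I') W a * |v' (C *ᵥ a)|) (gau J) := by
    refine s3.congr ?_
    filter_upwards [hva] with a ha
    rw [ha]
  have hd0 : 0 ≤ dW (√(Real.pi ^ 2 / 8) * ρ) η b L D₀ e q := by
    unfold dW
    have := hpr
    have hb0 : 0 ≤ b := measureReal_nonneg.trans hbd
    positivity
  refine ⟨U, v', hUm.aestronglyMeasurable, hvm.aestronglyMeasurable, ?_, ?_, ?_, ?_, ?_⟩
  · rw [(key' (Φ := fun F => U F ^ 2) (hUm.pow_const 2)).1]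
    simpa only [hUc.q0] using hUI
  · rw [(key' (Φ := fun F => |v' F|) hvm.norm).1]
    simpa only [hvc.q0] using hvI
  · refine Filter.Eventually.of_forall fun F => ?_
    simp only [hv']
    ring
  · rw [(key' (Φ := fun F => U F ^ 2) (hUm.pow_const 2)).2, div_le_iff₀ hZ0]
    simp only [hUc.q0, hUa]
    rw [← wn_sq hmg0]
    refine (pow_le_pow_left₀ wn_nonneg s5 2).trans (le_of_eq ?_)
    have e3 : L * (q + q) = 2 * L * q := by ring
    have e4 : D₀ + e + e = D₀ + 2 * e := by ring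
    rw [mul_pow, Real.sq_sqrt hZ0.le, e3, e4]
    rfl
  · rw [(key' (Φ := fun F => |v' F|) hvm.norm).2, div_le_iff₀ hZ0]
    simp only [hvc.q0]
    refine le_trans (le_of_eq ?_) s4
    refine integral_congr_ae ?_
    filter_upwards [hva] with a ha
    rw [ha]

/-- one window for the dislocation functional: `Ψ_s → Ψ_{s'}`, the mean is the two point number -/
theorem stp_Psi (h : Chn M M' B K) (hw : GW w) (hb : BW w) (hbD : BW wD) (hM : MF M m)
    (hM' : MF M' m')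
    (hW : Win (An w M m x₀) H' B KH A C) (D : Matrix β V ℝ) {ρ : ℝ} (hρ0 : 0 ≤ ρ)
    (hD : ∀ l : β → ℝ, ∑ j, (l ᵥ* (D * F0m B KH C)) j ^ 2 ≤
      ρ ^ 2 * ∑ i, (l ᵥ* (D * A)) i ^ 2)
    {Bd : Set (V → ℝ)} (hBd : MeasurableSet Bd) {η : ℝ} (hη0 : 0 ≤ η)
    (hη : ∀ F, F ∉ Bd → Wt w M m x₀ F ≤ 1 + η) {wm : (V → ℝ) → X} (hwm : Measurable wm)
    (hci : CI wm) (hloc : ∀ F G : V → ℝ, D *ᵥ F = D *ᵥ G → wm F = wm G) (φ : V → ℝ)
    {b : ℝ} (hbd : (nuM w M x₀).real Bd ≤ b) :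
    Stp (nuM w M x₀) (nuM w M' x₀) (Psi w wD M φ) (Psi w wD M' φ) (Zp wD x₀ / Zp w x₀) wm
      (√(Real.pi ^ 2 / 8) * ρ) η b := by
  have h1 := stp h hw hb hM hM' hW D hρ0 hD hBd hη0 hη hwm hci hloc
    (continuous_Psi hb hbD hM φ).measurable (ci_Psi hb hbD φ) (in_Psi hb hbD hM x₀ φ)
    (div_pos (hbD.Zp_pos x₀) (hb.Zp_pos x₀)).ne' (Enu_Psi hb hbD hM x₀ φ) hbd
  have h2 : EF w M B (Psi w wD M φ) = Psi w wD M' φ :=
    funext fun f => Psi_tower h hb hbD hM hM' φ f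
  rwa [h2] at h1

end

end Vale.Agent.P159.H883
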