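import Vale.Agent.P159.H963.Core2
import Vale.Agent.P159.H276.Uf1

/-!
P159 / module E4 (helper883): the pairing of a rough local field `X` with a field `v` which is
harmonic around the support of `X`.

* `bf_FM_zero` : the flat form has finite range, so `⟨X, FM v⟩ = 0` exactly;
* `e4_flat` : `|⟨X, An v⟩| ≤ kap1 √(nS X · |gr v|²)`;
* `nS_le_Qa` : the smoothed Dirichlet energy `nS` is bounded by 276's form `Qa`.
-/

set_option linter.unusedSectionVars false

namespace Vale.Agent.P159.H883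

open Finset Matrix Polynomial
open Vale.Agent.P159.TM.Spec (V)
open Vale.Agent.P159.TM.SpecC (wT)
open Vale.Agent.P159.H37 (qf bf)
open Vale.Agent.P159.H864 (TI sym lapM ti_lapM sym_lapM)
open Vale.Agent.P159.H817 (gr dv nrm sz FM PM pb pb_deg PM_supp ti_FM lp e1 e2)
open Vale.Agent.P159.H963 (Anm Pin Ank)
open Vale.Agent.P159.H864 (mlt sym_mlt ti_mlt)
open Vale.Agent.P159.TM.H764 (EE EE_nonneg EE_zero)
open Vale.Agent.P159.H963.Core (sS nS kap1 sS_neg)

noncomputable section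

variable {N : ℕ} [NeZero N] {a t : ℝ} {n : ℕ}

/-- the flat form in terms of the Laplacian of the second argument -/
lemma bf_FM_eq (m : ℝ) (X v : V N → ℝ) :
    bf (FM a m n) X v = a * ∑ x, (X x - (PM (pb n m) *ᵥ (lapM *ᵥ X)) x) * (lapM *ᵥ v) x := by
  have h1 : bf (FM a m n) X v =
      a * ((X ⬝ᵥ (lapM *ᵥ v)) - (X ⬝ᵥ (lapM *ᵥ (PM (pb n m) *ᵥ (lapM *ᵥ v))))) := by
    rw [H37.bf_eq]
    unfold FM
    rw [smul_mulVec, sub_mulVec, dotProduct_smul, smul_eq_mul, dotProduct_sub,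
      ← mulVec_mulVec, ← mulVec_mulVec]
  have h2 : X ⬝ᵥ (lapM *ᵥ (PM (pb n m) *ᵥ (lapM *ᵥ v))) =
      (PM (pb n m) *ᵥ (lapM *ᵥ X)) ⬝ᵥ (lapM *ᵥ v) := by
    rw [dotProduct_mulVec, ← mulVec_transpose, ti_lapM.transpose, dotProduct_mulVec,
      ← mulVec_transpose, (H817.ti_PM _).transpose]
  rw [h1, h2, ← sub_dotProduct]
  rfl

/-- **the flat form has finite range** -/
theorem bf_FM_zero {m : ℝ} {w : V N} {R0 : ℕ} {X v : V N → ℝ}
    (hX : ∀ x, R0 < sz (x - w) → X x = 0)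
    (hv : ∀ x, sz (x - w) ≤ R0 + n + 1 → (lapM *ᵥ v) x = 0) : bf (FM a m n) X v = 0 := by
  rw [bf_FM_eq]
  have h0 : ∀ x, R0 + 1 < sz (x - w) → (lapM *ᵥ X) x = 0 := by
    intro x hx
    have := H817.pow_supp hX 1 x (by omega)
    rwa [pow_one] at this
  have h1 : ∀ x, R0 + 1 + n < sz (x - w) → (PM (pb n m) *ᵥ (lapM *ᵥ X)) x = 0 :=
    fun x hx => PM_supp (pb_deg n m) h0 hx
  have h2 : ∑ x, (X x - (PM (pb n m) *ᵥ (lapM *ᵥ X)) x) * (lapM *ᵥ v) x = 0 := by
    refine Finset.sum_eq_zero fun x _ => ?_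
    rcases le_or_gt (sz (x - w)) (R0 + n + 1) with h | h
    · rw [hv x h, mul_zero]
    · rw [hX x (by omega), h1 x (by omega), sub_zero, zero_mul]
  rw [h2, mul_zero]

/-- the Laplacian of a potential of `β` vanishes where `β` is divergence free -/
lemma lapM_of_gr {v : V N → ℝ} {β : V N × Bool → ℝ} {w : V N} {R : ℕ}
    (hg : ∀ e, sz (e.1 - w) ≤ R + 1 → gr v e = β e) (hd : ∀ x, sz (x - w) ≤ R → dv β x = 0)
    (x : V N) (hx : sz (x - w) ≤ R) : (lapM *ᵥ v) x = 0 := by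
  have h1 : (lapM *ᵥ v) x = dv (gr v) x := by
    rw [H817.lapM_mulVec, H817.dv_gr]
  rw [h1, ← hd x hx]
  have s1 : sz (x - e1 - w) ≤ R + 1 := by
    have h3 := H817.sz_e1 (x - e1 - w)
    have e3 : x - e1 - w + e1 = x - w := by abel
    rw [e3] at h3
    omega
  have s2 : sz (x - e2 - w) ≤ R + 1 := by
    have h3 := H817.sz_e2 (x - e2 - w)
    have e3 : x - e2 - w + e2 = x - w := by abel
    rw [e3] at h3
    omega
  unfold H817.dv
  rw [hg (x - e1, false) s1, hg (x, false) (by simp only; omega), hg (x - e2, true) s2,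
    hg (x, true) (by simp only; omega)]

/-- **the pairing of a rough local field with a field harmonic around it** -/
theorem e4_flat {b η c0 : ℝ} (hb : 0 < b) (ht : 0 < t) (ha : 0 < a) (hη : 0 ≤ η) (hn : 1 ≤ n)
    (hc : 0 < c0)
    (hP : ∀ k : V N, k ≠ 0 → |Pin N b t k - a * EE k| ≤
      η * EE k * (1 + EE k / t))
    (hC : ∀ k : V N, k ≠ 0 → c0 * EE k ≤ Pin N b t k) {w : V N} {R0 : ℕ} {X v : V N → ℝ}
    (hX : ∀ x, R0 < sz (x - w) → X x = 0)
    (hv : ∀ x, sz (x - w) ≤ R0 + n + 1 → (lapM *ᵥ v) x = 0) :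
    |bf (Anm N b t) X v| ≤ kap1 c0 a t η n * √(nS a t X * nrm (gr v)) := by
  have h1 := H963.Core.flat_cross hb ht ha hη hn hc hP hC X v
  have h2 : bf (Anm N b t - FM a (t / a) n) X v = bf (Anm N b t) X v := by
    rw [H37.bf_eq, H37.bf_eq, sub_mulVec, dotProduct_sub, ← H37.bf_eq (FM a (t / a) n),
      bf_FM_zero hX hv, sub_zero]
  rwa [h2] at h1

lemma qf_conj {G L : Matrix (V N) (V N) ℝ} (tG : TI G) (u : V N → ℝ) :
    qf L (G *ᵥ u) = qf (G * (L * G)) u := by
  rw [H37.qf_eq, H37.qf_eq, ← mulVec_mulVec, ← mulVec_mulVec,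
    dotProduct_mulVec u G, ← mulVec_transpose, tG.transpose]

/-- 276's form `Qa` bounds the smoothed Dirichlet energy -/
theorem nS_le_Qa (ha : 0 < a) (ht : 0 < t) {κ C : ℝ} (hκ : 0 ≤ κ) (hC1 : 1 ≤ C)
    (hC : κ ≤ C * (a / t)) {u f : V N → ℝ} (hu : f = u + κ • (lapM *ᵥ u)) :
    nS a t f ≤ C / a * H276.Qa t κ u := by
  set S : Matrix (V N) (V N) ℝ := mlt (sS a t) with hS
  have tS : TI S := ti_mlt _
  have tI : TI ((1 : Matrix (V N) (V N) ℝ) + κ • lapM) := TI.one.add (ti_lapM.smul κ)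
  set G : Matrix (V N) (V N) ℝ := S * (1 + κ • lapM) with hG
  have tG : TI G := tS.mul tI
  have e1 : S *ᵥ f = G *ᵥ u := by
    rw [hG, ← mulVec_mulVec, add_mulVec, one_mulVec, smul_mulVec, ← hu]
  have e2 : nS a t f = qf (G * (lapM * G)) u := by
    unfold H963.Core.nS
    rw [← hS, e1, qf_conj tG]
  have e3 : C / a * H276.Qa t κ u =
      qf ((C / a) • (t • (1 : Matrix (V N) (V N) ℝ) + (t * κ) • lapM)) u := by
    rw [H864.qf_smul_mat, H37.qf_add_mat, H37.qf_smul_one, H864.qf_smul_mat, H817.qf_lap]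
    unfold H276.Qa
    ring
  rw [e2, e3]
  refine (H864.qf_le_iff (tG.mul (ti_lapM.mul tG))
    (((TI.one.smul t).add (ti_lapM.smul _)).smul _)).2 (fun k => ?_) u
  rw [H864.sym_mul tG (ti_lapM.mul tG), H864.sym_mul ti_lapM tG, hG, H864.sym_mul tS tI,
    H864.sym_add, H864.sym_one, H864.sym_smul, H864.sym_smul, H864.sym_add, H864.sym_smul_one,
    H864.sym_smul, sym_lapM, hS, sym_mlt _ (sS_neg a t)]
  have hE := EE_nonneg k
  set E := EE k with hEd
  have d1 : 0 < t + a * E := by positivity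
  -- the symbol
  have b1 : sS a t k * E ≤ t / a := by
    unfold H963.Core.sS
    rw [← hEd, div_mul_eq_mul_div, div_le_div_iff₀ d1 ha]
    nlinarith
  have b2 : sS a t k * (1 + κ * E) ≤ C := by
    unfold H963.Core.sS
    rw [← hEd, div_mul_eq_mul_div, div_le_iff₀ d1]
    have h1 : κ * t ≤ C * a := by
      have := mul_le_mul_of_nonneg_right hC ht.le
      have e : C * (a / t) * t = C * a := by field_simp
      rwa [e] at this
    have h2 : κ * t * E ≤ C * a * E := mul_le_mul_of_nonneg_right h1 hE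
    have h3 : t ≤ C * t := le_mul_of_one_le_left ht.le hC1
    nlinarith
  have s0 : 0 ≤ sS a t k := by
    unfold H963.Core.sS
    rw [← hEd]
    positivity
  have b3 : 0 ≤ 1 + κ * E := by positivity
  calc sS a t k * (1 + κ * E) * (E * (sS a t k * (1 + κ * E)))
      = (sS a t k * E) * (sS a t k * (1 + κ * E)) * (1 + κ * E) := by ring
    _ ≤ (t / a) * C * (1 + κ * E) := by
        refine mul_le_mul_of_nonneg_right ?_ b3
        exact mul_le_mul b1 b2 (mul_nonneg s0 b3) (by positivity)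
    _ = C / a * (t + t * κ * E) := by ring

end

end Vale.Agent.P159.H883
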