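import Vale.Agent.P159.H191.Ct7
import Vale.Agent.P159.H883.E4

/-!
P159 / module E4 (helper883), part 2: the pieces of the path of helper191 at the nodes.

* `hps_split` : the piece is `alp · (H - mn μ c H) + rmd`, the second term smooth;
* `GB_hps` : the pieces of a smooth field are smooth;
* `nS_of_Rl` : `nS a t X ≤ (t / a) ⟨X, Rl (a / t) X⟩`;
* `nS_YJ` : the number `nS` of all pieces.
-/

set_option linter.unusedSectionVars false

namespace Vale.Agent.P159.H883e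

open Finset Matrix
open Vale.Agent.P159.TM.Spec (V)
open Vale.Agent.P159.H37 (qf)
open Vale.Agent.P159.H864 (TI sym lapM ti_lapM sym_lapM mlt sym_mlt ti_mlt)
open Vale.Agent.P159.H817 (gr nrm sz GB gr_eq eb U abs_U U_nonneg U_le_one)
open Vale.Agent.P159.H191 (mn chi a0 Wts Plt hp hps hps_supp YP_sub YJ YS YJ_zero_eq YJ_succ_eq
  YP th ps nd th_succ mn_shift)
open Vale.Agent.P159.H963.Core (sS nS sS_neg nS_add3 nS_le nS_eq_qf ti_nS)
open Vale.Agent.P159.H340 (Rl ti_Rl sym_Rl)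
open Vale.Agent.P159.TM.H764 (EE)

noncomputable section

variable {N n l : ℕ} [NeZero N] [NeZero n]

/-! ### averages -/

lemma GB_avg {w : V N → ℝ} {s : ℕ} (hw : Wts w s) {σ : ℝ} {f : V N → V N → ℝ}
    (hf : ∀ v, w v ≠ 0 → GB σ (f v)) : GB σ (fun x => ∑ v, w v * f v x) := by
  rintro ⟨x, d⟩
  have e : gr (fun x => ∑ v, w v * f v x) (x, d) = ∑ v, w v * gr (f v) (x, d) := by
    rw [gr_eq, ← Finset.sum_sub_distrib]
    refine Finset.sum_congr rfl fun v _ => ?_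
    rw [gr_eq]
    ring
  rw [e]
  calc |∑ v, w v * gr (f v) (x, d)| ≤ ∑ v, |w v * gr (f v) (x, d)| :=
        Finset.abs_sum_le_sum_abs _ _
    _ ≤ ∑ v, w v * σ := Finset.sum_le_sum fun v _ => by
        rw [abs_mul, abs_of_nonneg (hw.nn v)]
        by_cases h : w v = 0
        · rw [h, zero_mul, zero_mul]
        · exact mul_le_mul_of_nonneg_left (hf v h _) (hw.nn v)
    _ = σ := by rw [← Finset.sum_mul, hw.one, one_mul]

lemma abs_avg {w : V N → ℝ} {s : ℕ} (hw : Wts w s) {σ : ℝ} {f : V N → ℝ}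
    (hf : ∀ v, w v ≠ 0 → |f v| ≤ σ) : |∑ v, w v * f v| ≤ σ := by
  calc |∑ v, w v * f v| ≤ ∑ v, |w v * f v| := Finset.abs_sum_le_sum_abs _ _
    _ ≤ ∑ v, w v * σ := Finset.sum_le_sum fun v _ => by
        rw [abs_mul, abs_of_nonneg (hw.nn v)]
        by_cases h : w v = 0
        · rw [h, zero_mul, zero_mul]
        · exact mul_le_mul_of_nonneg_left (hf v h) (hw.nn v)
    _ = σ := by rw [← Finset.sum_mul, hw.one, one_mul]

lemma mn_diff {μ : V N → ℝ} (h0 : ∀ z, 0 ≤ μ z) (h1 : ∑ z, μ z = 1) {H : V N → ℝ} {Ω : ℝ}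
    (h : ∀ x y, |H x - H y| ≤ Ω) (c c' : V N) : |mn μ c H - mn μ c' H| ≤ Ω := by
  have e : ∀ c : V N, mn μ c H = ∑ z, μ z * H (z + c) := by
    intro c
    unfold H191.mn
    rw [← Equiv.sum_comp (Equiv.addRight c)]
    refine Finset.sum_congr rfl fun z _ => ?_
    simp only [Equiv.coe_addRight, add_sub_cancel_right]
  rw [e, e, ← Finset.sum_sub_distrib]
  calc |∑ z, (μ z * H (z + c) - μ z * H (z + c'))|
      ≤ ∑ z, |μ z * H (z + c) - μ z * H (z + c')| := Finset.abs_sum_le_sum_abs _ _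
    _ ≤ ∑ z, μ z * Ω := Finset.sum_le_sum fun z _ => by
        rw [← mul_sub, abs_mul, abs_of_nonneg (h0 z)]
        exact mul_le_mul_of_nonneg_left (h _ _) (h0 z)
    _ = Ω := by rw [← Finset.sum_mul, h1, one_mul]

lemma mn_pt {μ : V N → ℝ} (h0 : ∀ z, 0 ≤ μ z) (h1 : ∑ z, μ z = 1) {H : V N → ℝ} {Ω : ℝ}
    (h : ∀ x y, |H x - H y| ≤ Ω) (c x : V N) : |H x - mn μ c H| ≤ Ω := by
  have e : H x - mn μ c H = ∑ z, μ (z - c) * (H x - H z) := by
    have e2 : ∑ z : V N, μ (z - c) = ∑ z, μ z := Equiv.sum_comp (Equiv.subRight c) μ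
    unfold H191.mn
    simp only [mul_sub]
    rw [Finset.sum_sub_distrib, ← Finset.sum_mul, e2, h1, one_mul]
  rw [e]
  calc |∑ z, μ (z - c) * (H x - H z)| ≤ ∑ z, |μ (z - c) * (H x - H z)| :=
        Finset.abs_sum_le_sum_abs _ _
    _ ≤ ∑ z, μ (z - c) * Ω := Finset.sum_le_sum fun z _ => by
        rw [abs_mul, abs_of_nonneg (h0 _)]
        exact mul_le_mul_of_nonneg_left (h _ _) (h0 _)
    _ = Ω := by
        have e2 : ∑ z : V N, μ (z - c) = ∑ z, μ z := Equiv.sum_comp (Equiv.subRight c) μ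
        rw [← Finset.sum_mul, e2, h1, one_mul]

/-! ### the cut-off functions -/

lemma chi_01 (z : V N) : 0 ≤ chi l z ∧ chi l z ≤ 1 := ⟨U_nonneg _ _ _, U_le_one _ _ _⟩

lemma abs_a0 (p q x : V N) : |a0 l p q x| ≤ 1 := by
  obtain ⟨a1, a2⟩ := chi_01 (l := l) (x - p)
  obtain ⟨b1, b2⟩ := chi_01 (l := l) (x - q)
  unfold H191.a0
  rw [abs_le]
  constructor <;> linarith

lemma GB_chi (hl : 0 < l) (p : V N) : GB (1 / (2 * (l : ℝ))) (fun x => chi l (x - p)) := by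
  have h1 := H817.U_shift_GB (N := N) (18 * l) (l := 2 * l) (by omega) p
  have e : 1 / (((2 * l : ℕ)) : ℝ) = 1 / (2 * (l : ℝ)) := by push_cast; rfl
  rw [e] at h1
  exact h1

lemma GB_a0 (hl : 0 < l) (p q : V N) : GB (1 / (l : ℝ)) (a0 l p q) := by
  have hl' : (0 : ℝ) < l := by exact_mod_cast hl
  have h3 := ((GB.const (N := N) le_rfl 1).sub (GB_chi hl p)).sub (GB_chi hl q)
  refine GB.mono (s := 0 + 1 / (2 * (l : ℝ)) + 1 / (2 * (l : ℝ))) h3 (le_of_eq ?_)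
  field_simp
  norm_num

/-! ### the split of a piece -/

/-- the weight of the local field of the piece -/
def alp (l : ℕ) (w : V N → ℝ) (p q : V N) (ψ : V N → ℝ) (x : V N) : ℝ :=
  ∑ v, w v * (ψ (x - v) * a0 l p q (x - v))

/-- the smooth remainder -/
def rmd (l : ℕ) (pl μ w : V N → ℝ) (p q c : V N) (ψ H : V N → ℝ) (x : V N) : ℝ :=
  ∑ v, w v * (ψ (x - v) * (a0 l p q (x - v) * (mn μ c H - mn μ (p + v) H) -
    (mn μ (q + v) H - mn μ (p + v) H) * (pl (x - v - q) - chi l (x - v - q))))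

lemma hps_split (pl μ w : V N → ℝ) (p q c : V N) (ψ H : V N → ℝ) (x : V N) :
    hps l pl μ w p q ψ H x =
      alp l w p q ψ x * (H x - mn μ c H) + rmd l pl μ w p q c ψ H x := by
  unfold H191.hps alp rmd H191.hp
  rw [Finset.sum_mul, ← Finset.sum_add_distrib]
  refine Finset.sum_congr rfl fun v _ => ?_
  simp only [mn_shift, sub_add_cancel]
  ring

lemma hps_add (pl μ w : V N → ℝ) (p q : V N) (ψ H K : V N → ℝ) (x : V N) :
    hps l pl μ w p q ψ (fun y => H y + K y) x =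
      hps l pl μ w p q ψ H x + hps l pl μ w p q ψ K x := by
  unfold H191.hps
  rw [← Finset.sum_add_distrib]
  refine Finset.sum_congr rfl fun v _ => ?_
  have h := H191.hp_add (l := l) pl μ p q (fun y => H (y + v)) (fun y => K (y + v)) (x - v)
  rw [h]
  ring

section num

variable {w : V N → ℝ} {s : ℕ} {p q c : V N} {ψ : V N → ℝ}

lemma alp_supp (hw : Wts w s) (hs : s ≤ l) (hψ : ∀ x, l < sz (x - c) → ψ x = 0) {x : V N}
    (hx : 2 * l < sz (x - c)) : alp l w p q ψ x = 0 := by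
  unfold alp
  refine Finset.sum_eq_zero fun v _ => ?_
  by_cases hv : w v = 0
  · rw [hv, zero_mul]
  · have h1 := hw.sup v hv
    have h2 := H817.sz_add_le (x - v - c) v
    have e : x - v - c + v = x - c := by ring
    rw [e] at h2
    rw [hψ _ (by omega), zero_mul, mul_zero]

lemma rmd_supp (hw : Wts w s) (hs : s ≤ l) (pl μ : V N → ℝ)
    (hψ : ∀ x, l < sz (x - c) → ψ x = 0) (H : V N → ℝ) {x : V N}
    (hx : 2 * l < sz (x - c)) : rmd l pl μ w p q c ψ H x = 0 := by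
  unfold rmd
  refine Finset.sum_eq_zero fun v _ => ?_
  by_cases hv : w v = 0
  · rw [hv, zero_mul]
  · have h1 := hw.sup v hv
    have h2 := H817.sz_add_le (x - v - c) v
    have e : x - v - c + v = x - c := by ring
    rw [e] at h2
    rw [hψ _ (by omega), zero_mul, mul_zero]

lemma abs_alp (hw : Wts w s) (h1 : ∀ x, |ψ x| ≤ 1) (x : V N) : |alp l w p q ψ x| ≤ 1 := by
  refine abs_avg hw fun v _ => ?_
  rw [abs_mul]
  exact mul_le_one₀ (h1 _) (abs_nonneg _) (abs_a0 _ _ _)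

lemma GB_alp (hl : 0 < l) (hw : Wts w s) (h1 : ∀ x, |ψ x| ≤ 1) (g1 : GB (2 / (l : ℝ)) ψ) :
    GB (3 / (l : ℝ)) (alp l w p q ψ) := by
  refine GB_avg hw fun v _ => ?_
  have h3 := (g1.mul (GB_a0 hl p q) h1 (B := 1) fun x => abs_a0 p q x).shift v
  refine GB.mono (s := 1 / (l : ℝ) + 2 / (l : ℝ) * 1) h3 (le_of_eq ?_)
  ring

/-- **the remainder is smooth** -/
theorem GB_rmd (hl : 0 < l) (hw : Wts w s) {pl μ : V N → ℝ} (hp0 : ∀ z, 0 ≤ pl z)
    (hp1 : ∀ z, pl z ≤ 1) (gpl : GB (1 / (l : ℝ)) pl) (h1 : ∀ x, |ψ x| ≤ 1)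
    (g1 : GB (2 / (l : ℝ)) ψ) {H : V N → ℝ} {M : ℝ}
    (hM : ∀ x y, |mn μ x H - mn μ y H| ≤ M) :
    GB (7 * M / (l : ℝ)) (rmd l pl μ w p q c ψ H) := by
  have hl' : (0 : ℝ) < l := by exact_mod_cast hl
  have hM0 : 0 ≤ M := (abs_nonneg _).trans (hM 0 0)
  refine GB_avg hw fun v _ => ?_
  set A := mn μ c H - mn μ (p + v) H with hA
  set B := mn μ (q + v) H - mn μ (p + v) H with hB
  have hA1 : |A| ≤ M := hM _ _
  have hB1 : |B| ≤ M := hM _ _
  have c1 : ∀ x : V N, |pl (x - q) - chi l (x - q)| ≤ 1 := by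
    intro x
    obtain ⟨a1, a2⟩ := chi_01 (l := l) (x - q)
    have a3 := hp0 (x - q)
    have a4 := hp1 (x - q)
    rw [abs_le]
    constructor <;> linarith
  have d1 : GB (|A| * (1 / (l : ℝ)) + |B| * (1 / (l : ℝ) + 1 / (2 * (l : ℝ))))
      (fun x => A * a0 l p q x - B * (pl (x - q) - chi l (x - q))) :=
    ((GB_a0 hl p q).smul A).sub (((gpl.shift q).sub (GB_chi hl q)).smul B)
  have d2 : ∀ x : V N, |A * a0 l p q x - B * (pl (x - q) - chi l (x - q))| ≤ 2 * M := by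
    intro x
    have e1 : |A * a0 l p q x| ≤ M := by
      rw [abs_mul]
      calc |A| * |a0 l p q x| ≤ M * 1 := mul_le_mul hA1 (abs_a0 _ _ _) (abs_nonneg _) hM0
        _ = M := mul_one M
    have e2 : |B * (pl (x - q) - chi l (x - q))| ≤ M := by
      rw [abs_mul]
      calc |B| * |pl (x - q) - chi l (x - q)| ≤ M * 1 := mul_le_mul hB1 (c1 x) (abs_nonneg _) hM0
        _ = M := mul_one M
    exact (abs_sub _ _).trans (by linarith)
  have h3 := (g1.mul d1 h1 (B := 2 * M) d2).shift v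
  have e3 : (fun x : V N => ψ (x - v) * (a0 l p q (x - v) * A -
      B * (pl (x - v - q) - chi l (x - v - q)))) =
      fun x => ψ (x - v) * (A * a0 l p q (x - v) - B * (pl (x - v - q) - chi l (x - v - q))) := by
    funext x
    ring
  rw [e3]
  refine GB.mono (s := |A| * (1 / (l : ℝ)) + |B| * (1 / (l : ℝ) + 1 / (2 * (l : ℝ))) +
    2 / (l : ℝ) * (2 * M)) h3 ?_
  have k1 : |A| * (1 / (l : ℝ)) ≤ M * (1 / (l : ℝ)) :=
    mul_le_mul_of_nonneg_right hA1 (by positivity)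
  have k2 : |B| * (1 / (l : ℝ) + 1 / (2 * (l : ℝ))) ≤ M * (1 / (l : ℝ) + 1 / (2 * (l : ℝ))) :=
    mul_le_mul_of_nonneg_right hB1 (by positivity)
  have k3 : M * (1 / (l : ℝ)) + M * (1 / (l : ℝ) + 1 / (2 * (l : ℝ))) + 2 / (l : ℝ) * (2 * M) =
      (13 / 2) * M / l := by
    field_simp
    ring
  have k4 : (13 / 2) * M / (l : ℝ) ≤ 7 * M / l :=
    div_le_div_of_nonneg_right (by linarith) hl'.le
  linarith

/-- **the pieces of a smooth field are smooth** -/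
theorem GB_hps (hl : 0 < l) (hw : Wts w s) {pl μ : V N → ℝ} (hp0 : ∀ z, 0 ≤ pl z)
    (hp1 : ∀ z, pl z ≤ 1) (gpl : GB (1 / (l : ℝ)) pl) (h0 : ∀ z, 0 ≤ μ z)
    (hμ : ∑ z, μ z = 1) (h1 : ∀ x, |ψ x| ≤ 1) (g1 : GB (2 / (l : ℝ)) ψ) {H : V N → ℝ}
    {σ Ω : ℝ} (gH : GB (σ / (l : ℝ)) H) (hH : ∀ x y, |H x - H y| ≤ Ω) (c : V N) :
    GB ((σ + 10 * Ω) / (l : ℝ)) (hps l pl μ w p q ψ H) := by
  have hl' : (0 : ℝ) < l := by exact_mod_cast hl
  have e : hps l pl μ w p q ψ H = fun x =>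
      alp l w p q ψ x * (H x - mn μ c H) + rmd l pl μ w p q c ψ H x := by
    funext x
    exact hps_split pl μ w p q c ψ H x
  rw [e]
  have k1 := (GB_alp (p := p) (q := q) hl hw h1 g1).mul
    (gH.sub (GB.const (N := N) le_rfl (mn μ c H))) (abs_alp hw h1) (B := Ω)
    (fun x => mn_pt h0 hμ hH c x)
  have k2 := GB_rmd (c := c) (p := p) (q := q) hl hw hp0 hp1 gpl h1 g1
    (fun x y => mn_diff h0 hμ hH x y)
  refine GB.mono (s := σ / (l : ℝ) + 0 + 3 / (l : ℝ) * Ω + 7 * Ω / (l : ℝ)) (k1.add k2)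
    (le_of_eq ?_)
  field_simp
  ring

end num

/-! ### the number `nS` -/

variable {a t : ℝ}

/-- the smoothed Dirichlet energy against the local form of the resolvent -/
theorem nS_of_Rl (ha : 0 < a) (ht : 0 < t) (X : V N → ℝ) :
    nS a t X ≤ t / a * qf (Rl (a / t)) X := by
  rw [nS_eq_qf, ← H864.qf_smul_mat]
  refine (H864.qf_le_iff (ti_nS a t) ((ti_Rl (a / t)).smul _)).2 (fun k => ?_) X
  rw [H864.sym_mul (ti_mlt _) (ti_lapM.mul (ti_mlt _)), H864.sym_mul ti_lapM (ti_mlt _),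
    sym_mlt _ (sS_neg a t), sym_lapM, H864.sym_smul, sym_Rl]
  have hE := H340.EE_nonneg k
  have hE' : TM.H764.EE k = EE k := rfl
  set E := EE k with hEd
  have d1 : 0 < t + a * E := by positivity
  have h2 : 1 + a / t * E = (t + a * E) / t := by
    field_simp
  have h1 : sS a t k = t / (t + a * E) := rfl
  rw [h1, h2, inv_div]
  have b1 : E * (t / (t + a * E)) ≤ t / a := by
    rw [mul_div_assoc', div_le_div_iff₀ d1 ha]
    nlinarith
  have b2 : 0 ≤ t / (t + a * E) := by positivity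
  calc t / (t + a * E) * (E * (t / (t + a * E))) ≤ t / (t + a * E) * (t / a) :=
        mul_le_mul_of_nonneg_left b1 b2
    _ = t / a * (t / (t + a * E)) := by ring

/-- a smooth local field -/
lemma nS_local (ha : 0 < a) (ht : 0 < t) (hl : 0 < l) {Λ : ℝ} {X : V N → ℝ} {c : V N}
    (hX : GB (Λ / (l : ℝ)) X) (hs : ∀ x, 2 * l < sz (x - c) → X x = 0) :
    nS a t X ≤ 3528 * Λ ^ 2 :=
  (nS_le ha ht X).trans (H817.nrm_local (w := c) (by omega) hX fun x hx => hs x (by omega))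

/-- **the number of a piece**: rough field `f`, smooth field `h` -/
theorem nS_piece (ha : 0 < a) (ht : 0 < t) (hl : 0 < l) {w : V N → ℝ} {s : ℕ}
    (hw : Wts w s) (hs : s ≤ l) {p q c : V N} {ψ pl μ : V N → ℝ} (hp0 : ∀ z, 0 ≤ pl z)
    (hp1 : ∀ z, pl z ≤ 1) (gpl : GB (1 / (l : ℝ)) pl) (h0 : ∀ z, 0 ≤ μ z)
    (hμ : ∑ z, μ z = 1) (h1 : ∀ x, |ψ x| ≤ 1) (g1 : GB (2 / (l : ℝ)) ψ)
    (hψ : ∀ x, l < sz (x - c) → ψ x = 0) {f h : V N → ℝ} {A M σ Ω : ℝ}
    (hA : t / a * qf (Rl (a / t)) (fun x => alp l w p q ψ x * (f x - mn μ c f)) ≤ A)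
    (hM : ∀ x y, |mn μ x f - mn μ y f| ≤ M)
    (gh : GB (σ / (l : ℝ)) h) (hh : ∀ x y, |h x - h y| ≤ Ω) :
    nS a t (hps l pl μ w p q ψ (fun y => f y + h y)) ≤
      3 * (A + 3528 * (7 * M) ^ 2 + 3528 * (σ + 10 * Ω) ^ 2) := by
  have e : hps l pl μ w p q ψ (fun y => f y + h y) =
      (fun x => alp l w p q ψ x * (f x - mn μ c f)) + rmd l pl μ w p q c ψ f +
        hps l pl μ w p q ψ h := by
    funext x
    rw [hps_add, hps_split pl μ w p q c ψ f x]
    rfl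
  rw [e]
  refine (nS_add3 a t _ _ _).trans (mul_le_mul_of_nonneg_left ?_ (by norm_num))
  have k1 := (nS_of_Rl ha ht (fun x => alp l w p q ψ x * (f x - mn μ c f))).trans hA
  have k2 := nS_local ha ht hl (GB_rmd (c := c) (p := p) (q := q) hl hw hp0 hp1 gpl h1 g1 hM)
    (fun x hx => rmd_supp (p := p) (q := q) hw hs pl μ hψ f hx)
  have k3 := nS_local ha ht hl (GB_hps (p := p) (q := q) hl hw hp0 hp1 gpl h0 hμ h1 g1 gh hh c)
    (fun x hx => hps_supp hw hs pl μ p q hψ h hx)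
  linarith

/-! ### the whole path -/

lemma YJ_sub_zero (pl μ w : V N → ℝ) (p q : V N) (K gs : V N → ℝ) {i : ℕ} (hi : i < n * n) :
    YJ N n l pl μ w p q K gs 0 i - YJ N n l pl μ w p q K gs 0 (i + 1) =
      hps l pl μ w p q (ps N n l i) K := by
  rw [YJ_zero_eq, YJ_zero_eq]
  funext x
  have h := YP_sub (l := l) pl μ w p q (θ := fun x => 0 + 1 * th N n l i x)
    (θ' := fun x => 0 + 1 * th N n l (i + 1) x) (ψ := ps N n l i) (fun x => by
      rw [th_succ hi]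
      ring) K x
  rw [← h]
  unfold YS
  simp only [Pi.add_apply, Pi.sub_apply]
  ring

lemma YJ_sub_succ (pl μ w : V N → ℝ) (p q : V N) (K gs : V N → ℝ) (j : ℕ) {i : ℕ}
    (hi : i < n * n) :
    YJ N n l pl μ w p q K gs (j + 1) i - YJ N n l pl μ w p q K gs (j + 1) (i + 1) =
      hps l pl μ w p q (fun x => 1 / (n : ℝ) * ps N n l i x) gs := by
  rw [YJ_succ_eq, YJ_succ_eq]
  funext x
  have h := YP_sub (l := l) pl μ w p q (θ := fun x => (j : ℝ) / n + 1 / n * th N n l i x)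
    (θ' := fun x => (j : ℝ) / n + 1 / n * th N n l (i + 1) x)
    (ψ := fun x => 1 / (n : ℝ) * ps N n l i x) (fun x => by
      rw [th_succ hi]
      ring) gs x
  rw [← h]
  unfold YS
  simp only [Pi.add_apply, Pi.sub_apply]
  ring

lemma GB_ps (hN : N = n * l) (hl : 0 < l) {i : ℕ} (hi : i < n * n) :
    GB (2 / (l : ℝ)) (ps N n l i) := by
  have e : ps N n l i = fun x => th N n l (i + 1) x - th N n l i x := by
    funext x
    rw [th_succ hi]
    ring
  rw [e]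
  refine GB.mono (s := 1 / (l : ℝ) + 1 / (l : ℝ))
    ((H191.gr_th hN hl (i + 1)).sub (H191.gr_th hN hl i)) (le_of_eq ?_)
  ring

/-- **the number of all pieces** of the path of helper191, `K = f + h` -/
theorem nS_YJ (ha : 0 < a) (ht : 0 < t) (hN : N = n * l) (hl : 0 < l) {w : V N → ℝ} {s : ℕ}
    (hw : Wts w s) (hs : s ≤ l) (p q : V N) {pl μ : V N → ℝ} (hp0 : ∀ z, 0 ≤ pl z)
    (hp1 : ∀ z, pl z ≤ 1) (gpl : GB (1 / (l : ℝ)) pl) (h0 : ∀ z, 0 ≤ μ z)
    (hμ : ∑ z, μ z = 1) {f h gs : V N → ℝ} {A M σ Ω : ℝ} (hA0 : 0 ≤ A)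
    (hA : ∀ i < n * n, t / a * qf (Rl (a / t)) (fun x =>
      alp l w p q (ps N n l i) x * (f x - mn μ (nd N n l i) f)) ≤ A)
    (hM : ∀ x y, |mn μ x f - mn μ y f| ≤ M)
    (gh : GB (σ / (l : ℝ)) h) (hh : ∀ x y, |h x - h y| ≤ Ω)
    (gg : GB (σ / (l : ℝ)) gs) (hg : ∀ x y, |gs x - gs y| ≤ Ω) (j : ℕ) {i : ℕ}
    (hi : i < n * n) :
    nS a t (YJ N n l pl μ w p q (f + h) gs j i - YJ N n l pl μ w p q (f + h) gs j (i + 1)) ≤
      3 * (A + 3528 * (7 * M) ^ 2 + 3528 * (σ + 10 * Ω) ^ 2) := by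
  have hl' : (0 : ℝ) < l := by exact_mod_cast hl
  have hn : (1 : ℝ) ≤ n := by exact_mod_cast NeZero.one_le
  cases j with
  | zero =>
    rw [YJ_sub_zero pl μ w p q (f + h) gs hi]
    exact nS_piece ha ht hl hw hs hp0 hp1 gpl h0 hμ (H191.abs_ps i) (GB_ps hN hl hi)
      (fun x hx => H191.ps_zero hN hl i hx) (hA i hi) hM gh hh
  | succ j =>
    rw [YJ_sub_succ pl μ w p q (f + h) gs j hi]
    have c0 : 0 ≤ 1 / (n : ℝ) := by positivity
    have c1 : 1 / (n : ℝ) ≤ 1 := by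
      rw [div_le_one (by linarith)]
      exact hn
    have h1 : ∀ x, |1 / (n : ℝ) * ps N n l i x| ≤ 1 := fun x => by
      rw [abs_mul, abs_of_nonneg c0]
      exact mul_le_one₀ c1 (abs_nonneg _) (H191.abs_ps i x)
    have g1 : GB (2 / (l : ℝ)) (fun x => 1 / (n : ℝ) * ps N n l i x) := by
      refine GB.mono ((GB_ps hN hl hi).smul (1 / (n : ℝ))) ?_
      rw [abs_of_nonneg c0]
      exact mul_le_of_le_one_left (by positivity) c1
    have hψ : ∀ x, l < sz (x - nd N n l i) → 1 / (n : ℝ) * ps N n l i x = 0 := fun x hx => by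
      rw [H191.ps_zero hN hl i hx, mul_zero]
    have k3 := nS_local ha ht hl
      (GB_hps (p := p) (q := q) hl hw hp0 hp1 gpl h0 hμ h1 g1 gg hg (nd N n l i))
      (fun x hx => hps_supp hw hs pl μ p q hψ gs hx)
    have k4 : 0 ≤ 3528 * (σ + 10 * Ω) ^ 2 := by positivity
    have k5 : 0 ≤ 3528 * (7 * M) ^ 2 := by positivity
    linarith

end

end Vale.Agent.P159.H883e
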