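import Vale.Agent.P159.H883.E4q

/-!
P159 / module E4 (helper883), part 8: the numbers of the flow form of e4.
-/

set_option linter.unusedSectionVars false

namespace Vale.Agent.P159.H883e

open Filter Topology

noncomputable section

/-- `2 ^ (k / 16)` against `y ^ (-ck / 16)` for `k = ⌈ck log₂ (1/y)⌉` -/
lemma pow16 {ck y : ℝ} {k : ℕ} (hy : 0 < y) (h1 : ck * Real.logb 2 (1 / y) ≤ k)
    (h2 : (k : ℝ) ≤ ck * Real.logb 2 (1 / y) + 1) :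
    y ^ (-(ck / 16)) ≤ 2 * (2 : ℝ) ^ (k / 16) ∧ (2 : ℝ) ^ (k / 16) ≤ 2 * y ^ (-(ck / 16)) := by
  have e : (2 : ℝ) ^ (ck / 16 * Real.logb 2 (1 / y)) = y ^ (-(ck / 16)) := by
    rw [mul_comm, Real.rpow_mul two_pos.le, Real.rpow_logb two_pos (by norm_num) (by positivity),
      one_div, Real.inv_rpow hy.le, Real.rpow_neg hy.le]
  constructor
  · have h3 : ck / 16 * Real.logb 2 (1 / y) ≤ ((1 + k / 16 : ℕ) : ℝ) := by
      have h4 : (k : ℝ) ≤ 16 * ((1 + k / 16 : ℕ) : ℝ) := by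
        have : k ≤ 16 * (1 + k / 16) := by omega
        exact_mod_cast this
      linarith
    rw [← e]
    calc (2 : ℝ) ^ (ck / 16 * Real.logb 2 (1 / y)) ≤ (2 : ℝ) ^ (((1 + k / 16 : ℕ) : ℝ)) :=
          Real.rpow_le_rpow_of_exponent_le one_lt_two.le h3
      _ = 2 ^ (1 + k / 16) := Real.rpow_natCast _ _
      _ = 2 * 2 ^ (k / 16) := by rw [pow_add, pow_one]
  · have h3 : ((k / 16 : ℕ) : ℝ) ≤ 1 + ck / 16 * Real.logb 2 (1 / y) := by
      have h4 : 16 * ((k / 16 : ℕ) : ℝ) ≤ k := by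
        have : 16 * (k / 16) ≤ k := by omega
        exact_mod_cast this
      linarith
    rw [← e]
    calc (2 : ℝ) ^ (k / 16) = (2 : ℝ) ^ (((k / 16 : ℕ) : ℝ)) := (Real.rpow_natCast _ _).symm
      _ ≤ (2 : ℝ) ^ (1 + ck / 16 * Real.logb 2 (1 / y)) :=
          Real.rpow_le_rpow_of_exponent_le one_lt_two.le h3
      _ = 2 * 2 ^ (ck / 16 * Real.logb 2 (1 / y)) := by
          rw [Real.rpow_add two_pos, Real.rpow_one]

/-- the final number -/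
lemma fin_num (b C M : ℝ) (hb : 0 < b) {c3 ck s u : ℝ} (h : u < s - 4 * c3 - ck / 16) :
    ∀ᶠ y : ℝ in 𝓝[>] 0, ∀ η W : ℝ, 0 ≤ η → η ≤ 17 * y ^ s → 0 ≤ W → W ≤ 2 * y ^ (-(ck / 16)) →
      2 * η * (5 + b) * √(C * (lx y ^ 4 * (y ^ (-(2 * c3))) ^ 3 * (y ^ (-c3)) ^ 2 * W ^ 2) * M) ≤
        y ^ u := by
  have h1 : ∀ᶠ y : ℝ in 𝓝[>] 0, y ≤ 1 := by
    have : ∀ᶠ y : ℝ in 𝓝 0, y < 1 := gt_mem_nhds one_pos
    exact (this.filter_mono nhdsWithin_le_nhds).mono fun y hy => hy.le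
  filter_upwards [ev_lxp (68 * (5 + b) * √(C * M)) 2 h, h1, self_mem_nhdsWithin]
    with y g1 hy1 hy0 η W hη0 hη hW0 hW
  have hy : 0 < y := hy0
  have hx := lx_ge hy hy1
  have hx0 : 0 ≤ lx y := by linarith
  obtain ⟨T, hT⟩ : ∃ T, T = y ^ (-c3) := ⟨_, rfl⟩
  have hT0 : 0 < T := by rw [hT]; exact Real.rpow_pos_of_pos hy _
  have e2 : y ^ (-(2 * c3)) = T ^ 2 := by
    rw [hT, ← Real.rpow_natCast, ← Real.rpow_mul hy.le]
    congr 1
    push_cast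
    ring
  have e4 : y ^ (-(4 * c3)) = T ^ 4 := by
    rw [hT, ← Real.rpow_natCast, ← Real.rpow_mul hy.le]
    congr 1
    push_cast
    ring
  have e5 : C * (lx y ^ 4 * (y ^ (-(2 * c3))) ^ 3 * (y ^ (-c3)) ^ 2 * W ^ 2) * M =
      (lx y ^ 2 * T ^ 4 * W) ^ 2 * (C * M) := by
    rw [e2, ← hT]
    ring
  have hQ := Real.sqrt_nonneg (C * M)
  rw [e5, Real.sqrt_mul (by positivity), Real.sqrt_sq (by positivity)]
  have hys : 0 < y ^ s := Real.rpow_pos_of_pos hy _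
  have hyk : 0 < y ^ (-(ck / 16)) := Real.rpow_pos_of_pos hy _
  have e6 : y ^ (s - 4 * c3 - ck / 16) = y ^ s * T ^ 4 * y ^ (-(ck / 16)) := by
    rw [← e4, ← Real.rpow_add hy, ← Real.rpow_add hy]
    congr 1
  rw [e6] at g1
  refine le_trans ?_ g1
  calc 2 * η * (5 + b) * (lx y ^ 2 * T ^ 4 * W * √(C * M)) =
        (η * W) * (2 * (5 + b) * (lx y ^ 2 * T ^ 4 * √(C * M))) := by ring
    _ ≤ (17 * y ^ s * (2 * y ^ (-(ck / 16)))) * (2 * (5 + b) * (lx y ^ 2 * T ^ 4 * √(C * M))) :=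
        mul_le_mul_of_nonneg_right (mul_le_mul hη hW hW0 (by positivity)) (by positivity)
    _ = _ := by ring

/-- the level is large -/
lemma q_num {C K c3 : ℝ} (hK : 0 < K) (h3 : 0 < c3) (h7 : 7 * c3 < 1) :
    ∀ᶠ y : ℝ in 𝓝[>] 0, ∀ n s : ℕ, 1 / y ≤ K * n → (s : ℝ) ≤ 2 * y ^ (-(2 * c3)) →
      s ≤ n ∧ (1 + C) * (lx y ^ 3 * (y ^ (-(2 * c3))) ^ 3 * y ^ (-c3)) ≤ (2 : ℝ) ^ (n - s) := by
  have h1 : ∀ᶠ y : ℝ in 𝓝[>] 0, y ≤ 1 := by
    have : ∀ᶠ y : ℝ in 𝓝 0, y < 1 := gt_mem_nhds one_pos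
    exact (this.filter_mono nhdsWithin_le_nhds).mono fun y hy => hy.le
  filter_upwards [ev_lxp (2 * K * (1 + C)) 3 (s := 1 - 7 * c3) (v := 0) (by linarith),
    ev_lxp (4 * K) 0 (s := 1 - 2 * c3) (v := 0) (by linarith), h1, self_mem_nhdsWithin]
    with y g1 g2 hy1 hy0 n s hn hs
  have hy : 0 < y := hy0
  rw [Real.rpow_zero] at g1 g2
  rw [pow_zero, mul_one] at g2
  rw [div_le_iff₀ hy] at hn
  have e1 : y ^ (1 - 2 * c3) = y ^ (-(2 * c3)) * y := by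
    rw [← Real.rpow_add_one hy.ne']
    congr 1
    ring
  have e2 : y ^ (1 - 7 * c3) = (y ^ (-(2 * c3))) ^ 3 * y ^ (-c3) * y := by
    rw [← Real.rpow_natCast, ← Real.rpow_mul hy.le, ← Real.rpow_add hy, ← Real.rpow_add_one hy.ne']
    congr 1
    push_cast
    ring
  rw [e1] at g2
  rw [e2] at g1
  have hKy : 0 < K * y := mul_pos hK hy
  have h5 : 2 * (s : ℝ) ≤ n := by
    have a1 : 4 * K * (y ^ (-(2 * c3)) * y) ≤ K * n * y := by linarith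
    have a2 : K * y * (4 * y ^ (-(2 * c3))) ≤ K * y * n := by linarith
    have a3 := le_of_mul_le_mul_left a2 hKy
    linarith
  have h6 : s ≤ n := by
    have : (s : ℝ) ≤ n := by
      have : (0 : ℝ) ≤ s := Nat.cast_nonneg s
      linarith
    exact_mod_cast this
  refine ⟨h6, ?_⟩
  have h8 : ((n - s : ℕ) : ℝ) ≤ (2 : ℝ) ^ (n - s) := by
    have : n - s ≤ 2 ^ (n - s) := Nat.lt_two_pow_self.le
    exact_mod_cast this
  rw [Nat.cast_sub h6] at h8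
  have a1 : K * y * (2 * ((1 + C) * (lx y ^ 3 * (y ^ (-(2 * c3))) ^ 3 * y ^ (-c3)))) ≤
      K * y * n := by
    calc K * y * (2 * ((1 + C) * (lx y ^ 3 * (y ^ (-(2 * c3))) ^ 3 * y ^ (-c3)))) =
          2 * K * (1 + C) * lx y ^ 3 * ((y ^ (-(2 * c3))) ^ 3 * y ^ (-c3) * y) := by ring
      _ ≤ 1 := g1
      _ ≤ K * n * y := hn
      _ = K * y * n := by ring
  have a2 := le_of_mul_le_mul_left a1 hKy
  linarith

/-- the degree -/
lemma deg_num {ck : ℝ} (hck : 0 < ck) :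
    ∀ᶠ y : ℝ in 𝓝[>] 0, ∀ (η : ℝ) (k : ℕ), 0 < η → y ^ (2 : ℝ) ≤ η →
      y ^ (-(ck / 16)) ≤ 2 * (2 : ℝ) ^ (k / 16) →
      ⌈4 * Real.log (4 / (2 * η))⌉₊ + 3 ≤ 4 * 2 ^ (k / 16) := by
  have h1 : ∀ᶠ y : ℝ in 𝓝[>] 0, y ≤ 1 := by
    have : ∀ᶠ y : ℝ in 𝓝 0, y < 1 := gt_mem_nhds one_pos
    exact (this.filter_mono nhdsWithin_le_nhds).mono fun y hy => hy.le
  filter_upwards [ev_lxp 8 1 (s := 0) (v := -(ck / 16)) (by linarith), h1, self_mem_nhdsWithin]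
    with y g1 hy1 hy0 η k hη0 hη hk
  have hy : 0 < y := hy0
  have hx := lx_ge hy hy1
  rw [Real.rpow_zero, pow_one, mul_one] at g1
  have hl2 : Real.log 2 ≤ 1 := by
    have := Real.log_two_lt_d9
    linarith
  have hl20 : 0 < Real.log 2 := Real.log_pos one_lt_two
  have e1 : Real.log (1 / y) = Real.logb 2 (1 / y) * Real.log 2 := by
    unfold Real.logb
    field_simp
  have hlb : 0 ≤ Real.logb 2 (1 / y) :=
    Real.logb_nonneg one_lt_two (by rw [le_div_iff₀ hy]; linarith)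
  have h2 : Real.log (4 / (2 * η)) ≤ 1 + 2 * Real.logb 2 (1 / y) := by
    have a1 : 4 / (2 * η) ≤ 2 * (1 / y) ^ 2 := by
      have hy2 : y ^ (2 : ℝ) = y ^ 2 := by norm_num
      rw [hy2] at hη
      rw [one_div, inv_pow, div_le_iff₀ (by positivity)]
      have : 0 < y ^ 2 := by positivity
      calc (4 : ℝ) = 2 * (y ^ 2)⁻¹ * (2 * y ^ 2) := by field_simp; ring
        _ ≤ 2 * (y ^ 2)⁻¹ * (2 * η) := mul_le_mul_of_nonneg_left (by linarith) (by positivity)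
    have a2 := Real.log_le_log (by positivity) a1
    rw [Real.log_mul (by norm_num) (by positivity), Real.log_pow, e1] at a2
    push_cast at a2
    have a3 : 2 * (Real.logb 2 (1 / y) * Real.log 2) ≤ 2 * (Real.logb 2 (1 / y) * 1) := by
      have := mul_le_mul_of_nonneg_left hl2 hlb
      linarith
    linarith
  have h3 : 4 * Real.log (4 / (2 * η)) ≤ 8 * lx y := by
    unfold lx
    linarith
  have h4 : (⌈4 * Real.log (4 / (2 * η))⌉₊ : ℝ) ≤ 8 * lx y + 1 := by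
    have a1 : ⌈4 * Real.log (4 / (2 * η))⌉₊ ≤ ⌈8 * lx y⌉₊ := Nat.ceil_mono h3
    have a2 : (⌈8 * lx y⌉₊ : ℝ) ≤ 8 * lx y + 1 := (Nat.ceil_lt_add_one (by linarith)).le
    have a3 : (⌈4 * Real.log (4 / (2 * η))⌉₊ : ℝ) ≤ ⌈8 * lx y⌉₊ := by exact_mod_cast a1
    linarith
  have h5 : ((⌈4 * Real.log (4 / (2 * η))⌉₊ + 3 : ℕ) : ℝ) ≤ ((4 * 2 ^ (k / 16) : ℕ) : ℝ) := by
    push_cast
    linarith
  exact_mod_cast h5

end

end Vale.Agent.P159.H883e
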