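import Vale.Agent.P159.H883.E4r
import Vale.Agent.P159.H883.E4t
import Vale.Agent.P159.H37.Lq4
import Vale.Agent.P159.H446.Pr5

/-!
P159 / module E4 (helper883), part 9: **e4 along the flow** (`e4_flow`): at every pair of every late
level, an event of probability at least `1 - exp (-6 y^(-c3))` on which the cross term of every piece of
the path with every field of bounded energy, closed on the ball of the piece, is at most `y^u`.
-/

set_option linter.unusedSectionVars false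

namespace Vale.Agent.P159.H883e

open Finset Filter Topology MeasureTheory
open Vale.Agent.P159.TM.Spec (V)
open Vale.Agent.P159.H817 (gr nrm sz GB dv U e1)
open Vale.Agent.P159.H191 (nd BT)
open Vale.Agent.P159.H663.Dr (tT kT)
open Vale.Agent.P159.H446.Pr (Y1 nC sd_eq clog_ge lR_le lC_le pow_le_lC wV_eq wts_wV)
open Vale.Agent.P159.H764.Ctg (Cc Cc_pos)
open Vale.Agent.P159.H145.Sp (muK lC lR wB gC)
open Vale.Agent.P159.H773 (sd sd_ge nuF)
open Vale.Agent.P159.H972 (lg tn Par FL)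
open Vale.Agent.P159.H801 (SFlow)
open Vale.Agent.P159.H859.Idl (s0 s0_pos gsR_spec)
open Vale.Agent.P159.H37.Sf (kf kE1 sf_eps sf_ub sf_lb0 sf_lb sf_TT sf_FL sf_big sf_k3 lb_tend lg_le
  le_lg prm_of)

noncomputable section

lemma fl_cast {b t a η : ℝ} {N M : ℕ} [NeZero N] [NeZero M] (h : N = M) (H : FL b t a η N) :
    FL b t a η M := by
  subst h
  exact H

variable {P : Par} {b σ c c1 q2 qx : ℝ} {a y ε xs : ℕ → ℝ} {c' r q A : ℝ} {N : ℕ}

/-- the level is at least a multiple of `1 / y` -/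
lemma sf_yn (h : SFlow P b σ c c1 q2 qx a y ε xs c' r q A N) :
    ∃ K : ℝ, 0 < K ∧ ∀ᶠ n : ℕ in atTop, 1 / y n ≤ K * n := by
  have h1 := h.t3.ny.eventually (gt_mem_nhds (lt_add_one (Real.sqrt (H264.kap * A))))
  have h0 := Real.sqrt_nonneg (H264.kap * A)
  refine ⟨Real.sqrt (H264.kap * A) + 1, by linarith, ?_⟩
  filter_upwards [h1, eventually_gt_atTop 0] with n hn hn0
  have hn' : (0 : ℝ) < n := by exact_mod_cast hn0
  rw [inv_mul_lt_iff₀ hn'] at hn
  linarith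

lemma sf_y0 (h : SFlow P b σ c c1 q2 qx a y ε xs c' r q A N) : Tendsto y atTop (𝓝[>] 0) :=
  tendsto_nhdsWithin_iff.2 ⟨h.fl.yt, Eventually.of_forall h.fl.y0⟩

/-- **e4 along the flow** -/
theorem e4_flow (hb : 0 < b) (hP : P.Adm) (h : SFlow P b σ c c1 q2 qx a y ε xs c' r q A N)
    (hσ0 : 0 ≤ σ) (hσ : σ ≤ 1 / 4) {ck c3 u : ℝ} (hck : 0 < ck) (hck1 : ck ≤ P.thp)
    (hck2 : 2 * P.th ≤ ck) (h3 : 0 < c3) (h7 : 7 * c3 < 1)
    (hu : u < (2 - 3 * σ) * P.pf - 4 * c3 - ck / 16) {i : ℕ} (hi : 6 ≤ i) (sc : ℕ → ℕ)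
    (hsc : ∀ᶠ n in atTop, (sc n : ℝ) ≤ y n ^ (-(2 * c3)) + 1) :
    ∀ᶠ n in atTop, ∀ R, 2 ^ (n + kf ck y n) ≤ R → R ≤ 2 ^ kE1 P ck y ε n →
      ∃ G : Set (V (sd i R) → ℝ), MeasurableSet G ∧
        (nuF b (sd i) (tn n) R).real Gᶜ ≤ Real.exp (-(6 * y n ^ (-c3))) ∧
        ∀ F ∈ G, ∀ j, ∀ i' < nC i n (kf ck y n) R * nC i n (kf ck y n) R, ∀ v : V (sd i R) → ℝ,
          (∀ x, sz (x - nd (sd i R) (nC i n (kf ck y n) R) (lC n (kf ck y n)) i') <
            3 * (2 * lC n (kf ck y n)) → dv (gr v) x = 0) → nrm (gr v) ≤ 3528 * Cc ^ 2 →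
          |BT (sd i R) b (tn n)
            (Y1 (sd i R) (nC i n (kf ck y n) R) (lC n (kf ck y n)) (U (30 * lR n R) (lR n R))
              (muK (sd i R) (lC n (kf ck y n)) (kT (lC n (kf ck y n) / 4))) (wB (sd i R) (2 ^ n))
              0 (R • e1) (tT (sd i R) (2 ^ (n - sc n)) (F + gC i n (kE1 P ck y ε n) R))
              (gC i n (kE1 P ck y ε n) R) j i' -
            Y1 (sd i R) (nC i n (kf ck y n) R) (lC n (kf ck y n)) (U (30 * lR n R) (lR n R))
              (muK (sd i R) (lC n (kf ck y n)) (kT (lC n (kf ck y n) / 4))) (wB (sd i R) (2 ^ n))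
              0 (R • e1) (tT (sd i R) (2 ^ (n - sc n)) (F + gC i n (kE1 P ck y ε n) R))
              (gC i n (kE1 P ck y ε n) R) j (i' + 1)) v| ≤ y n ^ u := by
  have hthp := P.thp0
  have hth := P.th0
  have hthp1 : P.thp ≤ 1 := by
    have := hP.hx
    have := hP.x11
    linarith
  have hs0 := s0_pos
  obtain ⟨K, hK, hKn⟩ := sf_yn h
  have hyt := sf_y0 h
  have hD : (0 : ℝ) ≤ (i : ℝ) + 10 := by positivity
  have hsη : 0 < (2 - 3 * σ) * P.pf := mul_pos (by linarith) hP.pf0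
  filter_upwards [sf_FL h hP hσ, sf_TT h hP hσ0 hσ hck hck1 hck2 (by omega : 1 ≤ i),
    sf_k3 h hσ hck hck1, hKn, hsc,
    hyt.eventually (q_num (C := cB b ((i : ℝ) + 10)) hK h3 h7),
    hyt.eventually (deg_num hck),
    hyt.eventually (fin_num b (cT b ((i : ℝ) + 10) (37 * s0) (656 * s0)) (3528 * Cc ^ 2) hb hu),
    h.fl.ev_pow hsη (e := 1 / 34) (by norm_num),
    sf_big h h3 (M := 14) (by norm_num), sf_big h (p := 2 * c3) (M := 1) (by linarith) one_pos,
    (lb_tend h.fl.y0 h.fl.yt).eventually_ge_atTop (32 / ck),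
    eventually_ge_atTop (max N 2)] with n hFLn hTT hk3 hKy hs hq hdeg hfin hη34 hZ hS hL hn R hR1 hR2
  have hN : N ≤ n := (le_max_left _ _).trans hn
  have hn2 : 2 ≤ n := (le_max_right _ _).trans hn
  have hy := h.fl.y0 n
  have hy1 := h.y1 n hN
  have hε := sf_eps h hN
  have hε1 : ε n ≤ 1 := (h.es n hN).trans (P.es1.trans (by norm_num))
  have hx1 := lx_ge hy hy1
  obtain ⟨ha2, -, hFL⟩ := hFLn
  have ha : 1 ≤ a n := h.a1 n hN
  have hlb := sf_lb0 h hN
  -- the precision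
  have hηy : ε n ^ P.pf ≤ y n ^ ((2 - 3 * σ) * P.pf) := by
    rw [Real.rpow_mul hy.le]
    exact Real.rpow_le_rpow hε.le (h.up n hN) hP.pf0.le
  have hη0 : 0 < 17 * ε n ^ P.pf := by positivity
  have hη1 : 2 * (17 * ε n ^ P.pf) ≤ 1 := by linarith
  have hηe : y n ^ (2 : ℝ) ≤ 17 * ε n ^ P.pf := by
    have g1 : y n ^ (2 : ℝ) ≤ ε n :=
      (Real.rpow_le_rpow_of_exponent_ge hy hy1 (by linarith)).trans (h.lo n hN)
    have g2 : ε n ≤ ε n ^ P.pf := by
      have := Real.rpow_le_rpow_of_exponent_ge hε hε1 hP.pf1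
      rwa [Real.rpow_one] at this
    linarith
  -- the exponents
  have hkL : ck * Real.logb 2 (1 / y n) ≤ (kf ck y n : ℝ) := le_lg _ _
  have hkU : (kf ck y n : ℝ) ≤ ck * Real.logb 2 (1 / y n) + 1 := lg_le (mul_nonneg hck.le hlb)
  obtain ⟨h16a, h16b⟩ := pow16 hy hkL hkU
  have h32 : 32 ≤ kf ck y n := by
    have g1 : 32 ≤ ck * Real.logb 2 (1 / y n) := by
      rw [div_le_iff₀ hck] at hL
      linarith
    exact_mod_cast g1.trans hkL
  have hw : (P.w (ε n) : ℝ) ≤ 2 * lx (y n) := by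
    have g0 : 0 ≤ Real.logb 2 (1 / ε n) :=
      Real.logb_nonneg one_lt_two ((le_div_iff₀ hε).2 (by linarith))
    have g1 : (P.w (ε n) : ℝ) ≤ P.thp * Real.logb 2 (1 / ε n) + 1 :=
      lg_le (mul_nonneg hthp.le g0)
    have g2 : Real.logb 2 (1 / ε n) ≤ 2 * Real.logb 2 (1 / y n) := by
      refine (sf_ub h hN).trans ?_
      exact mul_le_mul_of_nonneg_right (by linarith) hlb
    have g3 : P.thp * Real.logb 2 (1 / ε n) ≤ 1 * Real.logb 2 (1 / ε n) :=
      mul_le_mul_of_nonneg_right hthp1 g0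
    unfold lx
    linarith
  have hclog : Nat.clog 2 R ≤ n + 4 * P.w (ε n) := by
    have g1 : Nat.clog 2 R ≤ kE1 P ck y ε n := by
      have := Nat.clog_mono_right 2 hR2
      rwa [Nat.clog_pow 2 _ one_lt_two] at this
    unfold H37.Sf.kE1 at g1
    omega
  obtain ⟨S, hSd⟩ : ∃ S, S = y n ^ (-(2 * c3)) := ⟨_, rfl⟩
  obtain ⟨Z, hZd⟩ : ∃ Z, Z = y n ^ (-c3) := ⟨_, rfl⟩
  rw [← hSd] at hs hS
  rw [← hZd] at hZ ⊢
  have hsS : (sc n : ℝ) ≤ 2 * S := by linarith
  obtain ⟨hsn, hq2⟩ := hq n (sc n) hKy (by rw [← hSd]; exact hsS)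
  rw [← hSd, ← hZd] at hq2
  have hxS : lx (y n) ≤ lx (y n) * S := le_mul_of_one_le_right (by linarith) hS
  have hSx : S ≤ lx (y n) * S := le_mul_of_one_le_left (by linarith) hx1
  have h1S : (1 : ℝ) ≤ lx (y n) * S := by linarith
  have hi0 : (0 : ℝ) ≤ i := Nat.cast_nonneg i
  -- the numbers of cells
  have hkk : ((i + Nat.clog 2 R - n + sc n : ℕ) : ℝ) ≤ ((i : ℝ) + 10) * (lx (y n) * S) := by
    have g1 : i + Nat.clog 2 R - n + sc n ≤ i + 4 * P.w (ε n) + sc n := by omega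
    have g2 : ((i + Nat.clog 2 R - n + sc n : ℕ) : ℝ) ≤ i + 4 * P.w (ε n) + sc n := by
      exact_mod_cast g1
    have g3 : (i : ℝ) ≤ i * (lx (y n) * S) := le_mul_of_one_le_right hi0 h1S
    linarith
  have hKc : ((i + Nat.clog 2 R - (n + kf ck y n / 16) + 2 : ℕ) : ℝ) ≤
      ((i : ℝ) + 10) * lx (y n) := by
    have g1 : i + Nat.clog 2 R - (n + kf ck y n / 16) + 2 ≤ i + 4 * P.w (ε n) + 2 := by omega
    have g2 : ((i + Nat.clog 2 R - (n + kf ck y n / 16) + 2 : ℕ) : ℝ) ≤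
        i + 4 * P.w (ε n) + 2 := by
      exact_mod_cast g1
    have g3 : (i : ℝ) ≤ i * lx (y n) := le_mul_of_one_le_right hi0 hx1
    linarith
  -- the shift
  have hR0 : 0 < R := lt_of_lt_of_le (by positivity) hR1
  have hRr : (0 : ℝ) < R := by exact_mod_cast hR0
  have hprm := prm_of (K1 := kE1 P ck y ε n) hi h32 hR1 hR2
  have hlR := lR_le (by omega : 24 ≤ kf ck y n) hR1
  have hlC := lC_le hR1
  have h2n := pow_le_lC n (kf ck y n)
  have hn1 : 1 ≤ 2 ^ n := Nat.one_le_two_pow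
  have hl : 0 < lC n (kf ck y n) := by unfold H145.Sp.lC; positivity
  have hgb : GB (37 * s0 / (lC n (kf ck y n) : ℝ)) (gC i n (kE1 P ck y ε n) R) := by
    have g1 : GB (37 * s0 / R) (gC i n (kE1 P ck y ε n) R) := (gsR_spec hprm).gb
    refine g1.mono ?_
    have g2 : (lC n (kf ck y n) : ℝ) ≤ R := by
      have : lC n (kf ck y n) ≤ R := by omega
      exact_mod_cast this
    exact div_le_div_of_nonneg_left (by positivity) (by exact_mod_cast hl) g2
  have hgle : ∀ x, |gC i n (kE1 P ck y ε n) R x| ≤ 328 * s0 := by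
    intro x
    have g1 := (gsR_spec hprm).le x
    refine g1.trans (mul_le_of_le_one_right (by positivity) ?_)
    rw [div_le_one hRr]
    have : 2 ^ (n + 3 * (Nat.log 2 R - n) / 4) ≤ R := by
      have := hprm.hlr
      omega
    exact_mod_cast this
  have hg : ∀ x x', |gC i n (kE1 P ck y ε n) R x - gC i n (kE1 P ck y ε n) R x'| ≤ 656 * s0 := by
    intro x x'
    have g1 := hgle x
    have g2 := hgle x'
    rw [abs_le] at g1 g2 ⊢
    constructor <;> linarith [g1.1, g1.2, g2.1, g2.2]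
  have hsd : 2 ^ i * R ≤ sd i R := sd_ge i R
  have h4R : 4 * R ≤ sd i R := by
    have h2 : 2 ^ 2 ≤ 2 ^ i := Nat.pow_le_pow_right (by norm_num) (by omega)
    exact (Nat.mul_le_mul_right R h2).trans hsd
  have hwB : wB (sd i R) (2 ^ n) = H446.Pr.wV (sd i R) (2 ^ n) := (wV_eq (by omega)).symm
  have hwW : H191.Wts (wB (sd i R) (2 ^ n)) (2 ^ n) := by
    rw [hwB]
    exact wts_wV _
  have hFLR : FL b (tn n) (a n) (17 * ε n ^ P.pf) (sd i R) :=
    fl_cast (sd_eq i R).symm (hFL _ (hTT R hR1 hR2))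
  have hZe : 14 ≤ Real.exp Z := by
    have := Real.add_one_le_exp Z
    linarith
  obtain ⟨G, hG, hGp, hGF⟩ := e4_lvl (w := wB (sd i R) (2 ^ n)) hb hn2 hR1 ha ha2 hη0 hη1 hFLR
    hsn hx1 hS (by linarith) hD hkk hKc hsS hq2 hZe (hdeg _ _ hη0 hηe h16a) hwW 0 (R • e1) hgb hg
  refine ⟨G, hG, hGp, fun F hF j i' hi' v hd hv => ?_⟩
  refine (hGF F hF j i' hi' v hd hv).trans ?_
  have key := hfin (17 * ε n ^ P.pf) (2 ^ (kf ck y n / 16)) hη0.le (by linarith) (by positivity)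
    h16b
  rw [← hSd, ← hZd] at key
  exact key

end

end Vale.Agent.P159.H883e
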