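import Vale.Agent.P159.H883.E4f
import Vale.Agent.P159.H191.Ct13

/-!
P159 / module E4 (helper883), part 10: **the input `E4W` of the nodes of CUT** (helper191's `nd_ev`) is a
theorem: `e4_ev`.
-/

set_option linter.unusedSectionVars false

namespace Vale.Agent.P159.H883e

open Finset Filter Topology MeasureTheory
open Vale.Agent.P159.TM.Spec (V)
open Vale.Agent.P159.H770 (Ed)
open Vale.Agent.P159.H773 (sd nuF)
open Vale.Agent.P159.H972 (tn Par)
open Vale.Agent.P159.H801 (SFlow)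
open Vale.Agent.P159.H191.Cf (E4W E4P)
open Vale.Agent.P159.H145.Sp (lC scF qF sF kapF)
open Vale.Agent.P159.H37.Sf (kf kE1 Win)

noncomputable section

/-- the power of the precision is a constant of the order -/
lemma ev_pf (b1 b2 pf : ℝ) (Q : ℕ) :
    Vale.Agent.P159.H801.Ev b1 b2 pf Q fun P _ => P.pf = pf := by
  unfold Vale.Agent.P159.H801.Ev
  exact Eventually.of_forall fun _ => Eventually.of_forall fun _ => Eventually.of_forall fun _ =>
    Eventually.of_forall fun _ => Eventually.of_forall fun _ => Eventually.of_forall fun _ =>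
    Eventually.of_forall fun _ => Eventually.of_forall fun _ => Eventually.of_forall fun _ P hP =>
    hP.epf

/-- **THE CROSS TERMS OF THE PIECES ALONG THE FLOW** -/
theorem e4_ev {b b1 b2 pf : ℝ} (hb1 : 0 < b1) (h1 : b1 ≤ b) (hpf : 4 / 5 ≤ pf) (Q : ℕ) :
    Vale.Agent.P159.H801.Ev b1 b2 pf Q fun P c1 =>
      ∀ {σ c q2 qx : ℝ} {a y ε xs : ℕ → ℝ} {c' r q A : ℝ} {N : ℕ},
      SFlow P b σ c c1 q2 qx a y ε xs c' r q A N → 0 ≤ σ → σ ≤ 1 / 6 →
      ∀ ck : ℝ, 2 * P.th ≤ ck → ck ≤ P.thp →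
      ∀ (β C2 A0 : ℝ) (Am i : ℕ), 6 ≤ i →
      ∀ (η : ∀ R, Ed (sd i R) → ℤ) (φ : ∀ R, V (sd i R) → ℝ),
        E4W P b β C2 A0 Am i ck c1 a y ε η φ := by
  refine ((ev_pf b1 b2 pf Q).and (H37.Sf.ev_cS b1 b2 pf Q)).mono fun P c1 hA hT => ?_
  obtain ⟨hpf', hc0, hcth, hthp0, hthpx, hth0, h4096, hx0⟩ := hT
  intro σ c q2 qx a y ε xs c' r q A N h hσ0 hσ6 ck hck hck1 β C2 A0 Am i hi η φ
  have hb : 0 < b := hb1.trans_le h1
  have hx1 := hA.x11
  have hck0 : 0 < ck := by linarith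
  have e2 : 2 * (c1 / 2) = c1 := by ring
  have hu : (9 / 8 : ℝ) < (2 - 3 * σ) * P.pf - 4 * (c1 / 2) - ck / 16 := by
    rw [hpf']
    have g1 : (3 / 2 : ℝ) * (4 / 5) ≤ (2 - 3 * σ) * pf :=
      mul_le_mul (by linarith) hpf (by norm_num) (by linarith)
    linarith
  have hsc : ∀ᶠ n in atTop, (scF c1 y n : ℝ) ≤ y n ^ (-(2 * (c1 / 2))) + 1 :=
    Eventually.of_forall fun n => by
      rw [e2]
      exact (Nat.ceil_lt_add_one (Real.rpow_nonneg (h.fl.y0 n).le _)).le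
  have key := e4_flow hb hA h hσ0 (by linarith) hck0 hck1 hck (c3 := c1 / 2) (by linarith)
    (by linarith) hu hi (scF c1 y) hsc
  unfold E4W
  refine Win.of ?_
  filter_upwards [key] with n hn R hR1 hR2
  obtain ⟨G, hG, hGp, hGF⟩ := hn R hR1 hR2
  have hl : 0 < lC n (kf ck y n) := by unfold H145.Sp.lC; positivity
  refine ⟨G, hGp.trans (Real.exp_le_exp.2 ?_), fun F hF _ j _ i' hi' _ _ v W c0 hcut hd => ?_⟩
  · have := Real.rpow_nonneg (h.fl.y0 n).le (-(c1 / 2))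
    linarith
  · exact hGF F hF j i' hi' v hd (nrm_cut hl hcut)

end

end Vale.Agent.P159.H883e
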