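import Vale.Agent.P159.H883.E4n
import Vale.Agent.P159.H446.Cut4

/-!
P159 / module E4 (helper883), part 4: the number e4 at the nodes of the one phase path `Y1` of
helper446.

* `Y1_sub` : the pieces;
* `e4_num1` : `nS` of all pieces on one event;
* `e4_node` : `|BT f v| ≤ kap1 √(B1 Dv)` for every `v` harmonic around the node.
-/

set_option linter.unusedSectionVars false

namespace Vale.Agent.P159.H883e

open Finset Matrix MeasureTheory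
open Vale.Agent.P159.TM.Spec (V)
open Vale.Agent.P159.TM.SpecC (wT)
open Vale.Agent.P159.H37 (qf re bf)
open Vale.Agent.P159.H864 (TI sym lapM)
open Vale.Agent.P159.H817 (gr nrm sz GB gr_eq eb dv)
open Vale.Agent.P159.H191 (mn Wts ps nd hps hps_supp th_succ BT)
open Vale.Agent.P159.H963 (Anm Pin)
open Vale.Agent.P159.H963.Core (nS kap1)
open Vale.Agent.P159.H340 (Rl ti_Rl)
open Vale.Agent.P159.TM.H764 (EE)
open Vale.Agent.P159.H264.Gq (Smo tM smo_tM tM_mulVec HtB Pp)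
open Vale.Agent.P159.H663.Dr (tT)
open Vale.Agent.P159.H883 (nuM e4_flat lapM_of_gr)
open Vale.Agent.P159.H446.Pr (Y1 sj)

noncomputable section

variable {N n l : ℕ} [NeZero N] [NeZero n] {a b t : ℝ}

lemma hps_smul_psi (pl μ w : V N → ℝ) (p q : V N) (c : ℝ) (ψ H : V N → ℝ) :
    hps l pl μ w p q (fun x => c * ψ x) H = c • hps l pl μ w p q ψ H := by
  funext x
  unfold H191.hps
  rw [Pi.smul_apply, smul_eq_mul, Finset.mul_sum]
  exact Finset.sum_congr rfl fun v _ => by ring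

/-- **the pieces of the one phase path** -/
lemma Y1_sub (pl μ w : V N → ℝ) (p q : V N) (H gs : V N → ℝ) (j : ℕ) {i : ℕ}
    (hi : i < n * n) :
    Y1 N n l pl μ w p q H gs j i - Y1 N n l pl μ w p q H gs j (i + 1) =
      (1 / (n : ℝ)) • hps l pl μ w p q (ps N n l i) H := by
  rw [← hps_smul_psi]
  funext x
  have h := H191.YP_sub (l := l) pl μ w p q (θ := sj N n l j i)
    (θ' := sj N n l j (i + 1)) (ψ := fun x => 1 / (n : ℝ) * ps N n l i x) (fun x => by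
      unfold H446.Pr.sj
      rw [th_succ hi]
      ring) H x
  rw [← h]
  unfold H446.Pr.Y1
  simp only [Pi.sub_apply]
  ring

lemma nS_smul (a t c : ℝ) (X : V N → ℝ) : nS a t (c • X) = c ^ 2 * nS a t X := by
  unfold H963.Core.nS
  rw [mulVec_smul, H37.qf_smul]

lemma nS_nonneg (a t : ℝ) (X : V N → ℝ) : 0 ≤ nS a t X := by
  rw [H963.Core.nS_eq]
  exact Finset.sum_nonneg fun e _ => sq_nonneg _

/-- **the number of all pieces** of the one phase path, `H = f + h` -/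
theorem nS_Y1 (ha : 0 < a) (ht : 0 < t) (hN : N = n * l) (hl : 0 < l) {w : V N → ℝ} {s : ℕ}
    (hw : Wts w s) (hs : s ≤ l) (p q : V N) {pl μ : V N → ℝ} (hp0 : ∀ z, 0 ≤ pl z)
    (hp1 : ∀ z, pl z ≤ 1) (gpl : GB (1 / (l : ℝ)) pl) (h0 : ∀ z, 0 ≤ μ z)
    (hμ : ∑ z, μ z = 1) {f h : V N → ℝ} (gs : V N → ℝ) {A M σ Ω : ℝ}
    {i : ℕ} (hA : t / a * qf (Rl (a / t)) (fun x =>
      alp l w p q (ps N n l i) x * (f x - mn μ (nd N n l i) f)) ≤ A)
    (hM : ∀ x y, |mn μ x f - mn μ y f| ≤ M)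
    (gh : GB (σ / (l : ℝ)) h) (hh : ∀ x y, |h x - h y| ≤ Ω) (j : ℕ) (hi : i < n * n) :
    nS a t (Y1 N n l pl μ w p q (f + h) gs j i - Y1 N n l pl μ w p q (f + h) gs j (i + 1)) ≤
      (1 / (n : ℝ)) ^ 2 * (3 * (A + 3528 * (7 * M) ^ 2 + 3528 * (σ + 10 * Ω) ^ 2)) := by
  rw [Y1_sub pl μ w p q (f + h) gs j hi, nS_smul]
  refine mul_le_mul_of_nonneg_left ?_ (sq_nonneg _)
  exact nS_piece ha ht hl hw hs hp0 hp1 gpl h0 hμ (H191.abs_ps i) (GB_ps hN hl hi)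
    (fun x hx => H191.ps_zero hN hl i hx) hA hM gh hh

/-- **the number of all pieces on one event**: `H = T (F + g)`, `T = tT N q0` -/
theorem e4_num1 (hb : 0 < b) (ht : 0 < t) (ha : 0 < a) (x₀ : V N) (hN : N = n * l)
    (hl : 0 < l) {q0 : ℕ} (hq : 0 < q0) {w : V N → ℝ} {s : ℕ} (hw : Wts w s) (hs : s ≤ l)
    (p q : V N) {pl μ : V N → ℝ} (hp0 : ∀ z, 0 ≤ pl z) (hp1 : ∀ z, pl z ≤ 1)
    (gpl : GB (1 / (l : ℝ)) pl) (h0 : ∀ z, 0 ≤ μ z) (hμ : ∑ z, μ z = 1) {s2 : ℝ}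
    (h2 : ∑ z, μ z ^ 2 ≤ s2) {g : V N → ℝ} {σ Ω : ℝ} (gg : GB (σ / (l : ℝ)) g)
    (hg : ∀ x y, |g x - g y| ≤ Ω) {A B E : ℝ}
    (hAB : 16 * (t / a) * (4 * (l : ℝ) + 2) ^ 2 * B ^ 2 < A)
    (hAE : 32 / a * (gU N a t q0 + s2) * (4 * (l : ℝ) + 2) ^ 2 * (E + 1 / 2) ≤ A) :
    ∃ G : Set (V N → ℝ), MeasurableSet G ∧
      (nuM (wT b N) (t • (1 : Matrix (V N) (V N) ℝ)) x₀).real Gᶜ ≤
        Pp (wT b N) x₀ (HtB (tM N q0) B)ᶜ + (n * n : ℕ) * Real.exp (-E) ∧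
      ∀ F ∈ G, ∀ M : ℝ, (∀ x y, |mn μ x (tT N q0 F) - mn μ y (tT N q0 F)| ≤ M) →
        ∀ j, ∀ i < n * n, nS a t (Y1 N n l pl μ w p q (tT N q0 (F + g)) g j i -
          Y1 N n l pl μ w p q (tT N q0 (F + g)) g j (i + 1)) ≤
            (1 / (n : ℝ)) ^ 2 *
              (3 * (A + 3528 * (7 * M) ^ 2 + 3528 * (σ + 10 * Ω) ^ 2)) := by
  obtain ⟨G, hG, hp, hF⟩ := e4_event (w := w) hb ht ha x₀ hN hl hq hw hs p q hμ h0 h2 hAB hAE
  refine ⟨G, hG, hp, fun F hFG M hM j i hi => ?_⟩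
  have hsm := smo_tM (N := N) hq
  have e1 : tT N q0 (F + g) = tT N q0 F + tT N q0 g := by
    rw [← tM_mulVec, ← tM_mulVec, ← tM_mulVec, mulVec_add]
  have k1 : GB (σ / (l : ℝ)) (tT N q0 g) := by
    have h3 := smo_GB hsm gg
    rwa [tM_mulVec] at h3
  have k2 : ∀ x y, |tT N q0 g x - tT N q0 g y| ≤ Ω := by
    intro x y
    have h3 := smo_osc hsm hg x y
    rwa [tM_mulVec] at h3
  rw [e1]
  exact nS_Y1 ha ht hN hl hw hs p q hp0 hp1 gpl h0 hμ g (hF F hFG i hi) hM k1 k2 j hi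

/-- **the number e4 at a node**: `X` supported in the box of radius `2 l`, `v` harmonic in the box
of radius `6 l` -/
theorem e4_node {ηf c0 : ℝ} (hb : 0 < b) (ht : 0 < t) (ha : 0 < a) (hη : 0 ≤ ηf) {m : ℕ}
    (hm : 1 ≤ m) (hml : m + 2 ≤ 4 * l) (hc : 0 < c0)
    (hP : ∀ k : V N, k ≠ 0 → |Pin N b t k - a * EE k| ≤ ηf * EE k * (1 + EE k / t))
    (hC : ∀ k : V N, k ≠ 0 → c0 * EE k ≤ Pin N b t k) {c : V N} {X v : V N → ℝ}
    (hX : ∀ x, 2 * l < sz (x - c) → X x = 0)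
    (hv : ∀ x, sz (x - c) < 3 * (2 * l) → dv (gr v) x = 0) {B1 Dv : ℝ}
    (h1 : nS a t X ≤ B1) (h2 : nrm (gr v) ≤ Dv) :
    |BT N b t X v| ≤ kap1 c0 a t ηf m * √(B1 * Dv) := by
  have hlv : ∀ x, sz (x - c) ≤ 2 * l + m + 1 → (lapM *ᵥ v) x = 0 := by
    intro x hx
    refine lapM_of_gr (β := gr v) (w := c) (R := 2 * l + m + 1) (fun e _ => rfl) (fun y hy => ?_)
      x hx
    exact hv y (by omega)
  have h3 := e4_flat hb ht ha hη hm hc hP hC hX hlv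
  have h4 : 0 ≤ nS a t X := nS_nonneg a t X
  have h5 : 0 ≤ nrm (gr v) := Finset.sum_nonneg fun e _ => sq_nonneg _
  have h6 : √(nS a t X * nrm (gr v)) ≤ √(B1 * Dv) :=
    Real.sqrt_le_sqrt (mul_le_mul h1 h2 h5 (h4.trans h1))
  have hk : 0 ≤ kap1 c0 a t ηf m := H963.Core.kap1_nonneg hc ha ht hη hm
  unfold H191.BT
  exact h3.trans (mul_le_mul_of_nonneg_left h6 hk)

/-- the support of a piece of the one phase path -/
lemma Y1_sub_supp (hN : N = n * l) (hl : 0 < l) {w : V N → ℝ} {s : ℕ} (hw : Wts w s)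
    (hs : s ≤ l) (pl μ : V N → ℝ) (p q : V N) (H gs : V N → ℝ) (j : ℕ) {i : ℕ}
    (hi : i < n * n) {x : V N} (hx : 2 * l < sz (x - nd N n l i)) :
    (Y1 N n l pl μ w p q H gs j i - Y1 N n l pl μ w p q H gs j (i + 1)) x = 0 := by
  rw [Y1_sub pl μ w p q H gs j hi, Pi.smul_apply,
    hps_supp hw hs pl μ p q (fun y hy => H191.ps_zero hN hl i hy) H hx, smul_zero]

end

end Vale.Agent.P159.H883e
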