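import Vale.Agent.P159.H883.E4a
import Vale.Agent.P159.H264.Cl7

/-!
P159 / module E4 (helper883), part 3: the event of the numbers `nS` of all pieces of the path of
helper191 for the smoothed field `tT N q0 F`.

* `e4_event` : off one event all rough local forms are `≤ A`;
* `e4_num` : `nS a t (YJ j i - YJ j (i + 1)) ≤ B1` for all `j`, `i`.
-/

set_option linter.unusedSectionVars false

namespace Vale.Agent.P159.H883e

open Finset Matrix MeasureTheory
open Vale.Agent.P159.TM.Spec (V)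
open Vale.Agent.P159.TM.SpecC (wT)
open Vale.Agent.P159.H37 (qf re)
open Vale.Agent.P159.H864 (TI sym lapM)
open Vale.Agent.P159.H817 (gr nrm sz GB gr_eq eb)
open Vale.Agent.P159.H191 (mn Wts YJ ps nd)
open Vale.Agent.P159.H963.Core (nS)
open Vale.Agent.P159.H340 (Rl ti_Rl)
open Vale.Agent.P159.H264.Gq (Smo tM smo_tM tM_mulVec cutM cutM_mulVec nu_fam tr_a gT gT_le HtB
  Pp symm_conj ck_conj meas_set)
open Vale.Agent.P159.H663.Dr (tT)
open Vale.Agent.P159.H883 (nuM bw_wT mf_scalar)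

noncomputable section

variable {N n l : ℕ} [NeZero N] [NeZero n] {a b t : ℝ}

/-! ### smoothing kernels -/

section smo

variable {q0 : ℕ} {T : Matrix (V N) (V N) ℝ}

lemma smo_tr (h : Smo N q0 T) (g : V N → ℝ) (c x : V N) :
    (T *ᵥ g) (x + c) = (T *ᵥ fun z => g (z + c)) x := by
  show ∑ y, T (x + c) y * g y = ∑ y, T x y * g (y + c)
  rw [← Equiv.sum_comp (Equiv.addRight c) fun y => T (x + c) y * g y]
  refine Finset.sum_congr rfl fun y _ => ?_
  simp only [Equiv.coe_addRight]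
  rw [h.ti.tr]

lemma smo_abs (h : Smo N q0 T) {g : V N → ℝ} {Ω : ℝ} (hg : ∀ x, |g x| ≤ Ω) (x : V N) :
    |(T *ᵥ g) x| ≤ Ω := by
  show |∑ y, T x y * g y| ≤ Ω
  calc |∑ y, T x y * g y| ≤ ∑ y, |T x y * g y| := Finset.abs_sum_le_sum_abs _ _
    _ ≤ ∑ y, T x y * Ω := Finset.sum_le_sum fun y _ => by
        rw [abs_mul, abs_of_nonneg (h.nn x y)]
        exact mul_le_mul_of_nonneg_left (hg y) (h.nn x y)
    _ = Ω := by rw [← Finset.sum_mul, h.row x, one_mul]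

lemma smo_diff (h : Smo N q0 T) {g : V N → ℝ} {Ω : ℝ} (c : V N)
    (hg : ∀ x, |g (x + c) - g x| ≤ Ω) (x : V N) : |(T *ᵥ g) (x + c) - (T *ᵥ g) x| ≤ Ω := by
  rw [smo_tr h]
  have e : (T *ᵥ fun z => g (z + c)) x - (T *ᵥ g) x = (T *ᵥ fun z => g (z + c) - g z) x := by
    show ∑ y, T x y * g (y + c) - ∑ y, T x y * g y = ∑ y, T x y * (g (y + c) - g y)
    rw [← Finset.sum_sub_distrib]
    exact Finset.sum_congr rfl fun y _ => by ring
  rw [e]
  exact smo_abs h hg x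

lemma smo_osc (h : Smo N q0 T) {g : V N → ℝ} {Ω : ℝ} (hg : ∀ x y, |g x - g y| ≤ Ω)
    (x y : V N) : |(T *ᵥ g) x - (T *ᵥ g) y| ≤ Ω := by
  have h1 := smo_diff h (x - y) (fun z => hg (z + (x - y)) z) y
  rwa [add_sub_cancel] at h1

lemma smo_GB (h : Smo N q0 T) {g : V N → ℝ} {σ : ℝ} (hg : GB σ g) : GB σ (T *ᵥ g) := by
  rintro ⟨x, d⟩
  rw [gr_eq]
  refine smo_diff h (eb d) (fun z => ?_) x
  have := hg (z, d)
  rwa [gr_eq] at this

end smo

/-! ### the matrices -/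

/-- the map `F ↦ alp · (T F - mn μ c (T F))` of the piece `i` -/
def Wi (N n l q0 : ℕ) [NeZero N] [NeZero n] (μ w : V N → ℝ) (p q : V N) (i : ℕ) :
    Matrix (V N) (V N) ℝ :=
  cutM (alp l w p q (ps N n l i)) (fun y => μ (y - nd N n l i)) * tM N q0

lemma Wi_mulVec (q0 : ℕ) (μ w : V N → ℝ) (p q : V N) (i : ℕ) (F : V N → ℝ) :
    Wi N n l q0 μ w p q i *ᵥ F = fun x => alp l w p q (ps N n l i) x *
      (tT N q0 F x - mn μ (nd N n l i) (tT N q0 F)) := by
  funext x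
  unfold Wi
  rw [← mulVec_mulVec, tM_mulVec, cutM_mulVec]
  rfl

lemma sum_alp_sq (hN : N = n * l) (hl : 0 < l) {w : V N → ℝ} {s : ℕ} (hw : Wts w s)
    (hs : s ≤ l) (p q : V N) (i : ℕ) :
    ∑ x, alp l w p q (ps N n l i) x ^ 2 ≤ (4 * (l : ℝ) + 2) ^ 2 := by
  classical
  set B : Finset (V N) := (univ : Finset (V N)).filter fun z => sz z ≤ 2 * l with hB
  have hcard := H817.card_box (N := N) (2 * l)
  rw [← hB] at hcard
  have h1 : ∑ x, alp l w p q (ps N n l i) x ^ 2 ≤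
      ∑ x ∈ (univ : Finset (V N)).filter (fun x => sz (x - nd N n l i) ≤ 2 * l), (1 : ℝ) := by
    rw [Finset.sum_filter]
    refine Finset.sum_le_sum fun x _ => ?_
    split_ifs with hx
    · rw [← sq_abs]
      exact pow_le_one₀ (abs_nonneg _) (abs_alp hw (H191.abs_ps i) x)
    · rw [alp_supp hw hs (fun y hy => H191.ps_zero hN hl i hy) (not_le.1 hx)]
      norm_num
  have h3 : ((univ : Finset (V N)).filter (fun x => sz (x - nd N n l i) ≤ 2 * l)).card =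
      B.card := by
    rw [hB]
    refine Finset.card_bij (fun x _ => x - nd N n l i) ?_ ?_ ?_
    · intro x hx
      rw [Finset.mem_filter] at hx ⊢
      exact ⟨Finset.mem_univ _, hx.2⟩
    · intro x _ y _ hxy
      exact sub_left_injective hxy
    · intro y hy
      rw [Finset.mem_filter] at hy
      refine ⟨y + nd N n l i, ?_, by abel⟩
      rw [Finset.mem_filter, add_sub_cancel_right]
      exact ⟨Finset.mem_univ _, hy.2⟩
  refine h1.trans ?_
  rw [Finset.sum_const, nsmul_eq_mul, h3, mul_one]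
  refine hcard.trans (le_of_eq ?_)
  push_cast
  ring

lemma sum_shift_sq (μ : V N → ℝ) (c : V N) : ∑ y, μ (y - c) ^ 2 = ∑ z, μ z ^ 2 :=
  Equiv.sum_comp (Equiv.subRight c) fun z => μ z ^ 2

/-- the number of the trace -/
def gU (N : ℕ) (a t : ℝ) (q0 : ℕ) : ℝ :=
  1 / (N : ℝ) ^ 2 + t / a * (25 * (1 + Real.log (1 + a / t / (q0 : ℝ) ^ 2)) + 1280)

lemma gU_pos (ha : 0 < a) (ht : 0 < t) (q0 : ℕ) : 0 < gU N a t q0 := by
  unfold gU
  have h1 : 0 ≤ Real.log (1 + a / t / (q0 : ℝ) ^ 2) := Real.log_nonneg (by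
    have : 0 ≤ a / t / (q0 : ℝ) ^ 2 := by positivity
    linarith)
  positivity

lemma gT_le' (ha : 0 < a) (ht : 0 < t) {q0 : ℕ} (hq : 0 < q0) :
    gT N (tM N q0) (a / t) ≤ gU N a t q0 := by
  have h := gT_le (smo_tM (N := N) hq) hq (κ := a / t) (div_pos ha ht)
  rw [inv_div] at h
  exact h

/-- **the event of the rough local fields** -/
theorem e4_event (hb : 0 < b) (ht : 0 < t) (ha : 0 < a) (x₀ : V N) (hN : N = n * l)
    (hl : 0 < l) {q0 : ℕ} (hq : 0 < q0) {w : V N → ℝ} {s : ℕ} (hw : Wts w s) (hs : s ≤ l)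
    (p q : V N) {μ : V N → ℝ} (hμ : ∑ z, μ z = 1) (h0 : ∀ z, 0 ≤ μ z) {s2 : ℝ}
    (h2 : ∑ z, μ z ^ 2 ≤ s2) {A B E : ℝ}
    (hAB : 16 * (t / a) * (4 * (l : ℝ) + 2) ^ 2 * B ^ 2 < A)
    (hAE : 32 / a * (gU N a t q0 + s2) * (4 * (l : ℝ) + 2) ^ 2 * (E + 1 / 2) ≤ A) :
    ∃ G : Set (V N → ℝ), MeasurableSet G ∧
      (nuM (wT b N) (t • (1 : Matrix (V N) (V N) ℝ)) x₀).real Gᶜ ≤
        Pp (wT b N) x₀ (HtB (tM N q0) B)ᶜ + (n * n : ℕ) * Real.exp (-E) ∧
      ∀ F ∈ G, ∀ i < n * n, t / a * qf (Rl (a / t)) (fun x =>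
        alp l w p q (ps N n l i) x * (tT N q0 F x - mn μ (nd N n l i) (tT N q0 F))) ≤ A := by
  classical
  have hsm := smo_tM (N := N) hq
  set W := Wi N n l q0 μ w p q with hW
  set S : Matrix (V N) (V N) ℝ := (t / a) • Rl (a / t) with hS
  have hκ : 0 ≤ a / t := (div_pos ha ht).le
  have hta : 0 < t / a := div_pos ht ha
  have s1 : Sᵀ = S := by
    rw [hS, transpose_smul, (ti_Rl _).transpose]
  have qS : ∀ u, qf S u = t / a * qf (Rl (a / t)) u := fun u => by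
    rw [hS, H864.qf_smul_mat]
  have s0 : ∀ u, 0 ≤ qf S u := fun u => by
    rw [qS]
    exact mul_nonneg hta.le (H340.qf_Rl_nonneg hκ u)
  have hs2 : 0 ≤ s2 := (Finset.sum_nonneg fun z _ => sq_nonneg (μ z)).trans h2
  have hgU := gU_pos (N := N) ha ht q0
  have hL : 0 < (4 * (l : ℝ) + 2) ^ 2 := by positivity
  set T' : ℝ := t / a * (2 * (gU N a t q0 + s2) * (4 * (l : ℝ) + 2) ^ 2) with hT'
  have T0 : 0 < T' := by positivity
  have htr : ∀ i, ((W i)ᵀ * S * W i).trace ≤ T' := by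
    intro i
    have e1 : (W i)ᵀ * S * W i = (t / a) • ((W i)ᵀ * Rl (a / t) * W i) := by
      rw [hS, Matrix.mul_smul, Matrix.smul_mul]
    rw [e1, trace_smul, smul_eq_mul, hT']
    refine mul_le_mul_of_nonneg_left ?_ hta.le
    have h3 := tr_a hsm hκ (alp l w p q (ps N n l i)) (fun y => μ (y - nd N n l i))
    refine h3.trans ?_
    have h4 : ∑ y, μ (y - nd N n l i) ^ 2 ≤ s2 := by
      rw [sum_shift_sq]
      exact h2
    have h5 := gT_le' (N := N) ha ht hq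
    refine mul_le_mul ?_ (sum_alp_sq hN hl hw hs p q i)
      (Finset.sum_nonneg fun x _ => sq_nonneg _) (by positivity)
    linarith
  have tc : ∀ i, H264.Gq.TC (W i) := fun i => hsm.cut_tc (by
    have := Equiv.sum_comp (Equiv.subRight (nd N n l i)) μ
    rw [← hμ, ← this]
    rfl)
  have hmeas : MeasurableSet {F : V N → ℝ | ∃ i ∈ Finset.range (n * n),
      A ≤ qf ((W i)ᵀ * S * W i) F} := by
    have e : {F : V N → ℝ | ∃ i ∈ Finset.range (n * n), A ≤ qf ((W i)ᵀ * S * W i) F} =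
        ⋃ i ∈ Finset.range (n * n), {F : V N → ℝ | A ≤ qf ((W i)ᵀ * S * W i) F} := by
      ext F
      simp only [Set.mem_iUnion]
      constructor
      · rintro ⟨i, hi, h⟩
        exact ⟨i, hi, h⟩
      · rintro ⟨i, hi, h⟩
        exact ⟨i, hi, h⟩
    rw [e]
    exact Finset.measurableSet_biUnion _ fun i _ => meas_set _ _
  have key := nu_fam (H963.gw_wT (N := N) hb.le) (bw_wT hb) ht (mf_scalar ht) x₀
    (Finset.range (n * n)) (K := fun i => (W i)ᵀ * S * W i) (A := fun _ => A)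
    (T := fun _ => T') (fun i _ => symm_conj s1 _)
    (fun i _ u => by rw [H264.Gq.qf_conj]; exact s0 _)
    (fun i _ => ck_conj (tc i)) (fun i _ => T0) (fun i _ => htr i)
    (Sh := (HtB (tM N q0) B)ᶜ) (fun h hh i _ => by
      have h1 : h ∈ HtB (tM N q0) B := by
        by_contra hc
        exact hh hc
      obtain ⟨c, hc⟩ := h1
      rw [H264.Gq.qf_conj, qS]
      have k1 := H340.qf_Rl_le hκ (W i *ᵥ re h)
      have k2 : ∑ x, (W i *ᵥ re h) x ^ 2 ≤ (4 * (l : ℝ) + 2) ^ 2 * (2 * B) ^ 2 := by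
        have k3 : ∀ x, (W i *ᵥ re h) x ^ 2 ≤
            alp l w p q (ps N n l i) x ^ 2 * (2 * B) ^ 2 := by
          intro x
          rw [hW, Wi_mulVec]
          simp only
          rw [mul_pow]
          refine mul_le_mul_of_nonneg_left ?_ (sq_nonneg _)
          have k4 : |tT N q0 (re h) x - mn μ (nd N n l i) (tT N q0 (re h))| ≤ 2 * B :=
            mn_pt h0 hμ (fun x y => by
              have c1 := hc x
              have c2 := hc y
              rw [tM_mulVec] at c1 c2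
              rw [abs_le] at c1 c2 ⊢
              constructor <;> linarith [c1.1, c1.2, c2.1, c2.2]) _ _
          rw [← sq_abs]
          exact pow_le_pow_left₀ (abs_nonneg _) k4 2
        refine (Finset.sum_le_sum fun x _ => k3 x).trans ?_
        rw [← Finset.sum_mul]
        exact mul_le_mul_of_nonneg_right (sum_alp_sq hN hl hw hs p q i) (sq_nonneg _)
      have k5 : t / a * qf (Rl (a / t)) (W i *ᵥ re h) ≤
          t / a * ((4 * (l : ℝ) + 2) ^ 2 * (2 * B) ^ 2) :=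
        mul_le_mul_of_nonneg_left (k1.trans k2) hta.le
      have k6 : t / a * ((4 * (l : ℝ) + 2) ^ 2 * (2 * B) ^ 2) =
          (16 * (t / a) * (4 * (l : ℝ) + 2) ^ 2 * B ^ 2) / 4 := by ring
      linarith)
  refine ⟨_, hmeas.compl, ?_, ?_⟩
  · rw [compl_compl]
    refine key.trans (add_le_add le_rfl ?_)
    rw [Finset.sum_const, Finset.card_range, nsmul_eq_mul]
    refine mul_le_mul_of_nonneg_left (Real.exp_le_exp.2 ?_) (Nat.cast_nonneg _)
    have h3 : E + 1 / 2 ≤ t * A / (16 * T') := by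
      rw [le_div_iff₀ (by positivity)]
      calc (E + 1 / 2) * (16 * T') =
          t * (32 / a * (gU N a t q0 + s2) * (4 * (l : ℝ) + 2) ^ 2 * (E + 1 / 2)) := by
            rw [hT']
            ring
        _ ≤ t * A := mul_le_mul_of_nonneg_left hAE ht.le
    linarith
  · intro F hF i hi
    have h1 : qf ((W i)ᵀ * S * W i) F < A := by
      by_contra hc
      exact hF ⟨i, Finset.mem_range.2 hi, not_lt.1 hc⟩
    rw [H264.Gq.qf_conj, qS, hW, Wi_mulVec] at h1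
    exact h1.le

/-- **the number of all pieces**: `K = T (F + g) - g`, `T = tT N q0` -/
theorem e4_num (hb : 0 < b) (ht : 0 < t) (ha : 0 < a) (x₀ : V N) (hN : N = n * l)
    (hl : 0 < l) {q0 : ℕ} (hq : 0 < q0) {w : V N → ℝ} {s : ℕ} (hw : Wts w s) (hs : s ≤ l)
    (p q : V N) {pl μ : V N → ℝ} (hp0 : ∀ z, 0 ≤ pl z) (hp1 : ∀ z, pl z ≤ 1)
    (gpl : GB (1 / (l : ℝ)) pl) (h0 : ∀ z, 0 ≤ μ z) (hμ : ∑ z, μ z = 1) {s2 : ℝ}
    (h2 : ∑ z, μ z ^ 2 ≤ s2) {g : V N → ℝ} {σ Ω : ℝ} (gg : GB (σ / (l : ℝ)) g)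
    (hg : ∀ x y, |g x - g y| ≤ Ω) {A B E : ℝ} (hA0 : 0 ≤ A)
    (hAB : 16 * (t / a) * (4 * (l : ℝ) + 2) ^ 2 * B ^ 2 < A)
    (hAE : 32 / a * (gU N a t q0 + s2) * (4 * (l : ℝ) + 2) ^ 2 * (E + 1 / 2) ≤ A) :
    ∃ G : Set (V N → ℝ), MeasurableSet G ∧
      (nuM (wT b N) (t • (1 : Matrix (V N) (V N) ℝ)) x₀).real Gᶜ ≤
        Pp (wT b N) x₀ (HtB (tM N q0) B)ᶜ + (n * n : ℕ) * Real.exp (-E) ∧
      ∀ F ∈ G, ∀ M : ℝ, (∀ x y, |mn μ x (tT N q0 F) - mn μ y (tT N q0 F)| ≤ M) →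
        ∀ j, ∀ i < n * n, nS a t (YJ N n l pl μ w p q (tT N q0 (F + g) - g) g j i -
          YJ N n l pl μ w p q (tT N q0 (F + g) - g) g j (i + 1)) ≤
            3 * (A + 3528 * (7 * M) ^ 2 + 3528 * (2 * σ + 20 * Ω) ^ 2) := by
  obtain ⟨G, hG, hp, hF⟩ := e4_event (w := w) hb ht ha x₀ hN hl hq hw hs p q hμ h0 h2 hAB hAE
  refine ⟨G, hG, hp, fun F hFG M hM j i hi => ?_⟩
  have hsm := smo_tM (N := N) hq
  have hl' : (0 : ℝ) < l := by exact_mod_cast hl
  have hσ : 0 ≤ σ / (l : ℝ) := (abs_nonneg _).trans (gg (x₀, false))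
  have hσ0 : 0 ≤ σ := by
    have := mul_nonneg hσ hl'.le
    rwa [div_mul_cancel₀ _ hl'.ne'] at this
  have hΩ0 : 0 ≤ Ω := (abs_nonneg _).trans (hg x₀ x₀)
  have e1 : tT N q0 (F + g) - g = tT N q0 F + (tT N q0 g - g) := by
    have : tT N q0 (F + g) = tT N q0 F + tT N q0 g := by
      rw [← tM_mulVec, ← tM_mulVec, ← tM_mulVec, mulVec_add]
    rw [this, add_sub_assoc]
  have k1 : GB (2 * σ / (l : ℝ)) (tT N q0 g - g) := by
    have h3 := smo_GB hsm gg
    rw [tM_mulVec] at h3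
    refine GB.mono (s := σ / (l : ℝ) + σ / (l : ℝ)) (h3.sub gg) (le_of_eq ?_)
    ring
  have k2 : ∀ x y, |(tT N q0 g - g) x - (tT N q0 g - g) y| ≤ 2 * Ω := by
    intro x y
    have h3 := smo_osc hsm hg x y
    rw [tM_mulVec] at h3
    have h4 := hg x y
    rw [Pi.sub_apply, Pi.sub_apply]
    rw [abs_le] at h3 h4 ⊢
    constructor <;> linarith [h3.1, h3.2, h4.1, h4.2]
  have k3 : GB (2 * σ / (l : ℝ)) g := gg.mono (by
    refine div_le_div_of_nonneg_right ?_ hl'.le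
    linarith)
  have k4 : ∀ x y, |g x - g y| ≤ 2 * Ω := fun x y => (hg x y).trans (by linarith)
  have h5 := nS_YJ ha ht hN hl hw hs p q hp0 hp1 gpl h0 hμ hA0 (hF F hFG) hM k1 k2 k3 k4 j hi
  rw [e1]
  refine h5.trans (le_of_eq ?_)
  ring

end

end Vale.Agent.P159.H883e
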