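import Vale.Agent.P159.H883.E4m
import Vale.Agent.P159.H883.E4s
import Vale.Agent.P159.H789.StK
import Vale.Agent.P159.H264.Cl8

/-!
P159 / module E4 (helper883), part 5: the number e4 of all pieces of the one phase path at a pair,
one event with an explicit probability (`e4_pair`): the profile is `kT` of helper663, the sup event is
the one of helper789, the height part the one of helper264.
-/

set_option linter.unusedSectionVars false

namespace Vale.Agent.P159.H883e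

open Finset Matrix MeasureTheory
open Vale.Agent.P159.TM.Spec (V)
open Vale.Agent.P159.TM.SpecC (wT)
open Vale.Agent.P159.H817 (gr nrm sz GB gr_eq eb dv)
open Vale.Agent.P159.H191 (mn Wts ps nd BT)
open Vale.Agent.P159.H963 (Anm Pin)
open Vale.Agent.P159.H963.Core (nS kap1)
open Vale.Agent.P159.TM.H764 (EE)
open Vale.Agent.P159.H264.Gq (tM HtB Pp ht_prob2)
open Vale.Agent.P159.H663.Dr (tT kT mn_kT wts_kT)
open Vale.Agent.P159.H883 (nuM prob_nuM bw_wT mf_scalar)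
open Vale.Agent.P159.H446.Pr (Y1)
open Vale.Agent.P159.H764.Ctg (Cut Cc Cc_pos)
open Vale.Agent.P159.H145.Sp (muK)
open Vale.Agent.P159.H789 (supE meas_supE supE_prob osc_pair Sv)

noncomputable section

variable {N n l : ℕ} [NeZero N] [NeZero n] {a b t : ℝ}

/-- the energy of the field of a local cut -/
lemma nrm_cut {l : ℕ} (hl : 0 < l) {c : V N} {η : H770.Ed N → ℤ} {φ v : V N → ℝ}
    {W : H474.Cb.GE N} {c0 : ℝ} (h : Cut c (2 * l) η φ v W c0) :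
    nrm (gr v) ≤ 3528 * Cc ^ 2 :=
  H817.nrm_local (w := c) (l := 2 * l) (by omega) h.gb fun x hx => h.out x (by omega)

/-- **e4 of all pieces at a pair** -/
theorem e4_pair (hb : 0 < b) (ht : 0 < t) (ha : 0 < a) (x₀ : V N) {h kk K : ℕ}
    (hN : N = n * l) (hh : 0 < h) (hlh : l = 4 * h) (hNh : N = 2 ^ K * h) {q0 : ℕ}
    (hq : 1 ≤ q0) (hNq : N = q0 * 2 ^ kk) {w : V N → ℝ} {s : ℕ} (hw : Wts w s) (hs : s ≤ l)
    (p q : V N) {pl : V N → ℝ} (hp0 : ∀ z, 0 ≤ pl z) (hp1 : ∀ z, pl z ≤ 1)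
    (gpl : GB (1 / (l : ℝ)) pl) {g : V N → ℝ} {σ Ω : ℝ} (gg : GB (σ / (l : ℝ)) g)
    (hg : ∀ x y, |g x - g y| ≤ Ω) {m m0 : ℕ} {ηf A B E v Λ : ℝ} (hη : 0 ≤ ηf) (hm : 1 ≤ m)
    (hml : m + 2 ≤ 4 * l)
    (hP : ∀ k : V N, k ≠ 0 → |Pin N b t k - a * EE k| ≤ ηf * EE k * (1 + EE k / t))
    (hB : 0 ≤ B) (hv : 0 < v) (hk : 2 * b * (kk : ℝ) ^ 2 ≤ v) (hBv : 2 * B ≤ q0 * v)
    (hΛ : 0 < Λ) (hmΛ : 16 * (m0 : ℝ) ^ 2 * (8 / (t * (h : ℝ) ^ 2) + 2 * b + 1) ≤ Λ ^ 2)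
    (hAB : 16 * (t / a) * (4 * (l : ℝ) + 2) ^ 2 * B ^ 2 < A)
    (hAE : 32 / a * (gU N a t q0 + ((h : ℝ) ^ 2)⁻¹) * (4 * (l : ℝ) + 2) ^ 2 * (E + 1 / 2) ≤ A) :
    ∃ G : Set (V N → ℝ), MeasurableSet G ∧
      (nuM (wT b N) (t • (1 : Matrix (V N) (V N) ℝ)) x₀).real Gᶜ ≤
        2 * (4 : ℝ) ^ kk * Real.exp (-(B ^ 2 / (2 * v))) + (n * n : ℕ) * Real.exp (-E) +
          11 * ((N : ℝ) / h) ^ 2 * (1 / 4) ^ m0 ∧
      ∀ F ∈ G, ∀ j, ∀ i < n * n,
        nS a t (Y1 N n l pl (muK N l (kT h)) w p q (tT N q0 (F + g)) g j i -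
          Y1 N n l pl (muK N l (kT h)) w p q (tT N q0 (F + g)) g j (i + 1)) ≤
            (1 / (n : ℝ)) ^ 2 *
              (3 * (A + 3528 * (7 * (6 * K * Λ)) ^ 2 + 3528 * (σ + 10 * Ω) ^ 2)) ∧
        ∀ v' : V N → ℝ, (∀ x, sz (x - nd N n l i) < 3 * (2 * l) → dv (gr v') x = 0) →
          nrm (gr v') ≤ 3528 * Cc ^ 2 →
          |BT N b t (Y1 N n l pl (muK N l (kT h)) w p q (tT N q0 (F + g)) g j i -
            Y1 N n l pl (muK N l (kT h)) w p q (tT N q0 (F + g)) g j (i + 1)) v'| ≤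
            kap1 (1 / b) a t ηf m * √((1 / (n : ℝ)) ^ 2 *
              (3 * (A + 3528 * (7 * (6 * K * Λ)) ^ 2 + 3528 * (σ + 10 * Ω) ^ 2)) *
                (3528 * Cc ^ 2)) := by
  have hpr : IsProbabilityMeasure (nuM (wT b N) (t • (1 : Matrix (V N) (V N) ℝ)) x₀) :=
    prob_nuM (H963.gw_wT hb.le) (bw_wT hb) (mf_scalar ht) x₀
  have hl : 0 < l := by omega
  have hN0 : 0 < N := NeZero.pos N
  have hn0 : 0 < n := NeZero.pos n
  have hhN : h ≤ N := by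
    rw [hN, hlh]
    nlinarith
  have hh2 : 2 * h ≤ l := by omega
  have hμ := wts_kT (N := N) (h := h) (ρ := l) hh hh2
  obtain ⟨G, hG, hGp, hGF⟩ := e4_num1 (pl := pl) (w := w) hb ht ha x₀ hN hl hq hw hs p q hp0
    hp1 gpl hμ.nn hμ.one (sum_sq_kT hh hh2 hhN) gg hg hAB hAE
  have hS := supE_prob (N := N) (q := q0) (h := h) (m := m0) (K := K) (Λ := Λ) hb ht x₀ hq hh
    hNh hΛ hmΛ
  have hH := ht_prob2 (N := N) (q := q0) (k := kk) hb x₀ hNq hq hB hv hk hBv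
  refine ⟨G ∩ supE N q0 h K Λ, hG.inter (meas_supE K Λ), ?_, ?_⟩
  · rw [Set.compl_inter]
    refine (measureReal_union_le _ _).trans ?_
    linarith
  · rintro F ⟨hF1, hF2⟩ j i hi
    have hM : ∀ x y, |mn (muK N l (kT h)) x (tT N q0 F) - mn (muK N l (kT h)) y (tT N q0 F)| ≤
        6 * K * Λ := by
      intro x y
      rw [mn_kT hh2, mn_kT hh2]
      have hF3 : tT N q0 F ∈ H789.supD N h K Λ := hF2
      have h5 := osc_pair hh hNh hF3 x y
      unfold H789.Sv at h5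
      exact h5
    have h1 := hGF F hF1 (6 * K * Λ) hM j i hi
    have h3 : ∀ x, 2 * l < sz (x - nd N n l i) →
        (Y1 N n l pl (muK N l (kT h)) w p q (tT N q0 (F + g)) g j i -
          Y1 N n l pl (muK N l (kT h)) w p q (tT N q0 (F + g)) g j (i + 1)) x = 0 := fun x hx =>
      Y1_sub_supp hN hl hw hs pl (muK N l (kT h)) p q (tT N q0 (F + g)) g j hi hx
    revert h1 h3
    generalize Y1 N n l pl (muK N l (kT h)) w p q (tT N q0 (F + g)) g j i -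
      Y1 N n l pl (muK N l (kT h)) w p q (tT N q0 (F + g)) g j (i + 1) = X
    intro h1 h3
    refine ⟨h1, fun v' hd h4 => ?_⟩
    exact e4_node (c := nd N n l i) hb ht ha hη hm hml (one_div_pos.2 hb) hP
      (fun k hk => H276.Pin_ge hb ht hk) h3 hd h1 h4

end

end Vale.Agent.P159.H883e
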