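import Vale.Agent.P159.H883.E4p
import Vale.Agent.P159.H770.Sti4

/-!
P159 / module E4 (helper883), part 6: numbers for the flow form.
-/

set_option linter.unusedSectionVars false

namespace Vale.Agent.P159.H883e

open Filter Topology

noncomputable section

/-! ### powers and logarithms near zero -/

/-- `1 + log₂ (1/y)` -/
def lx (y : ℝ) : ℝ := 1 + Real.logb 2 (1 / y)

lemma lx_ge {y : ℝ} (h0 : 0 < y) (h1 : y ≤ 1) : 1 ≤ lx y := by
  unfold lx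
  have := Real.logb_nonneg one_lt_two (x := 1 / y) (by rw [le_div_iff₀ h0]; linarith)
  linarith

lemma lx_le {d : ℝ} (hd : 0 < d) {y : ℝ} (h0 : 0 < y) (h1 : y ≤ 1) :
    lx y ≤ (1 + 2 / d) * y ^ (-d) := by
  have h3 := Real.log_le_rpow_div (x := 1 / y) (by positivity) hd
  have h4 : (1 / y) ^ d = y ^ (-d) := by
    rw [one_div, Real.inv_rpow h0.le, Real.rpow_neg h0.le]
  rw [h4] at h3
  have h5 : (1 : ℝ) / 2 ≤ Real.log 2 := by
    have := Real.log_two_gt_d9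
    linarith
  have h6 : 1 ≤ y ^ (-d) := Real.one_le_rpow_of_pos_of_le_one_of_nonpos h0 h1 (by linarith)
  have h7 : Real.logb 2 (1 / y) ≤ 2 / d * y ^ (-d) := by
    unfold Real.logb
    rw [div_le_iff₀ (by linarith)]
    have h8 : 0 ≤ y ^ (-d) / d := by positivity
    calc Real.log (1 / y) ≤ y ^ (-d) / d := h3
      _ ≤ 2 * (y ^ (-d) / d) * Real.log 2 := by nlinarith
      _ = 2 / d * y ^ (-d) * Real.log 2 := by ring
  unfold lx
  linarith [add_mul 1 (2 / d) (y ^ (-d))]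

/-- a power of the logarithm against a negative power -/
lemma ev_lx (C : ℝ) (m : ℕ) {δ : ℝ} (hδ : 0 < δ) :
    ∀ᶠ y : ℝ in 𝓝[>] 0, C * lx y ^ m ≤ y ^ (-δ) := by
  set d : ℝ := δ / (2 * (m + 1)) with hd
  have hd0 : 0 < d := by positivity
  have hdm : d * m ≤ δ / 2 := by
    rw [hd, div_mul_eq_mul_div, div_le_div_iff₀ (by positivity) (by norm_num)]
    nlinarith
  set K : ℝ := |C| * (1 + 2 / d) ^ m with hK
  have hK0 : 0 ≤ K := by positivity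
  have ht : Tendsto (fun y : ℝ => K * y ^ (δ / 2)) (𝓝[>] 0) (𝓝 (K * 0)) := by
    refine Tendsto.const_mul K ?_
    have h1 : Tendsto (fun y : ℝ => y ^ (δ / 2)) (𝓝 0) (𝓝 ((0 : ℝ) ^ (δ / 2))) :=
      (Real.continuousAt_rpow_const 0 (δ / 2) (Or.inr (by linarith))).tendsto
    rw [Real.zero_rpow (by linarith)] at h1
    exact h1.mono_left nhdsWithin_le_nhds
  rw [mul_zero] at ht
  have h1 : ∀ᶠ y : ℝ in 𝓝[>] 0, K * y ^ (δ / 2) < 1 := ht.eventually (gt_mem_nhds one_pos)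
  have h2 : ∀ᶠ y : ℝ in 𝓝[>] 0, y ≤ 1 := by
    have : ∀ᶠ y : ℝ in 𝓝 0, y < 1 := gt_mem_nhds one_pos
    exact (this.filter_mono nhdsWithin_le_nhds).mono fun y hy => hy.le
  filter_upwards [h1, h2, self_mem_nhdsWithin] with y g1 g2 g3
  have hy : 0 < y := g3
  have hx := lx_ge hy g2
  have h3 := lx_le hd0 hy g2
  have h4 : lx y ^ m ≤ (1 + 2 / d) ^ m * y ^ (-(d * m)) := by
    calc lx y ^ m ≤ ((1 + 2 / d) * y ^ (-d)) ^ m := pow_le_pow_left₀ (by linarith) h3 m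
      _ = (1 + 2 / d) ^ m * y ^ (-(d * m)) := by
        rw [mul_pow, ← Real.rpow_natCast (y ^ (-d)), ← Real.rpow_mul hy.le]
        congr 2
        ring
  have h5 : y ^ (-(d * m)) ≤ y ^ (-(δ / 2)) :=
    Real.rpow_le_rpow_of_exponent_ge hy g2 (by linarith)
  calc C * lx y ^ m ≤ |C| * lx y ^ m :=
        mul_le_mul_of_nonneg_right (le_abs_self C) (by positivity)
    _ ≤ |C| * ((1 + 2 / d) ^ m * y ^ (-(δ / 2))) := by
        refine mul_le_mul_of_nonneg_left (h4.trans ?_) (abs_nonneg C)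
        exact mul_le_mul_of_nonneg_left h5 (by positivity)
    _ = (K * y ^ (δ / 2)) * y ^ (-δ) := by
        have : y ^ (δ / 2) * y ^ (-δ) = y ^ (-(δ / 2)) := by
          rw [← Real.rpow_add hy]
          congr 1
          ring
        calc |C| * ((1 + 2 / d) ^ m * y ^ (-(δ / 2))) = K * y ^ (-(δ / 2)) := by
              rw [hK]
              ring
          _ = K * (y ^ (δ / 2) * y ^ (-δ)) := by rw [this]
          _ = _ := by ring
    _ ≤ 1 * y ^ (-δ) := mul_le_mul_of_nonneg_right g1.le (Real.rpow_nonneg hy.le _)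
    _ = y ^ (-δ) := one_mul _

/-- the same with a power: `C (1 + log)^m y^s ≤ y^v` for `v < s` -/
lemma ev_lxp (C : ℝ) (m : ℕ) {s v : ℝ} (h : v < s) :
    ∀ᶠ y : ℝ in 𝓝[>] 0, C * lx y ^ m * y ^ s ≤ y ^ v := by
  filter_upwards [ev_lx C m (δ := s - v) (by linarith), self_mem_nhdsWithin] with y g1 g2
  have hy : 0 < y := g2
  calc C * lx y ^ m * y ^ s ≤ y ^ (-(s - v)) * y ^ s :=
        mul_le_mul_of_nonneg_right g1 (Real.rpow_nonneg hy.le _)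
    _ = y ^ v := by
        rw [← Real.rpow_add hy]
        congr 1
        ring

/-! ### arithmetic -/

/-- the constant of `B²` -/
def cB (b D : ℝ) : ℝ := 2 * (2 * b * D ^ 2 + 1) * (7 + 2 * D)

lemma ar_B {b D x S Z kk : ℝ} (hb : 0 < b) (hD : 0 ≤ D) (hx : 1 ≤ x) (hS : 1 ≤ S) (hZ : 1 ≤ Z)
    (h0 : 0 ≤ kk) (hk : kk ≤ D * (x * S)) :
    2 * (2 * b * kk ^ 2 + 1) * (7 * Z + 2 * kk) ≤ cB b D * (x ^ 3 * S ^ 3 * Z) := by
  have hxS : 1 ≤ x * S := one_le_mul_of_one_le_of_one_le hx hS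
  have h1 : kk ^ 2 ≤ D ^ 2 * (x * S) ^ 2 := by
    rw [← mul_pow]
    exact pow_le_pow_left₀ h0 hk 2
  have h2 : 1 ≤ (x * S) ^ 2 := one_le_pow₀ hxS
  have h3 : 2 * b * kk ^ 2 + 1 ≤ (2 * b * D ^ 2 + 1) * (x * S) ^ 2 := by
    have := mul_le_mul_of_nonneg_left h1 (by linarith : 0 ≤ 2 * b)
    nlinarith
  have h4 : 7 * Z + 2 * kk ≤ (7 + 2 * D) * (x * S * Z) := by
    have a1 : Z ≤ x * S * Z := le_mul_of_one_le_left (by linarith) hxS
    have a2 : kk ≤ D * (x * S * Z) := by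
      refine hk.trans (mul_le_mul_of_nonneg_left ?_ hD)
      exact le_mul_of_one_le_right (by linarith) hZ
    nlinarith
  have h5 : 0 ≤ 7 * Z + 2 * kk := by linarith
  calc 2 * (2 * b * kk ^ 2 + 1) * (7 * Z + 2 * kk)
      ≤ 2 * ((2 * b * D ^ 2 + 1) * (x * S) ^ 2) * ((7 + 2 * D) * (x * S * Z)) := by
        refine mul_le_mul ?_ h4 h5 (by positivity)
        linarith
    _ = cB b D * (x ^ 3 * S ^ 3 * Z) := by
        unfold cB
        ring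

/-- the constant of `A` -/
def cA (b D : ℝ) : ℝ := 576 * cB b D + 1695744 * (2 * D + 8) + 1

lemma cB_nonneg {b D : ℝ} (hb : 0 < b) (hD : 0 ≤ D) : 0 ≤ cB b D := by
  unfold cB
  positivity

/-- the constant of the whole number -/
def cT (b D σ Ω : ℝ) : ℝ :=
  3 * (cA b D + 3528 * (42 * D * (4 * (2 * D + 10) * √(129 + 2 * b))) ^ 2 +
    3528 * (σ + 10 * Ω) ^ 2)

lemma ar_T {b D σ Ω x S Z L K m0 A Λ nn : ℝ} (hb : 0 < b) (hD : 0 ≤ D) (hx : 1 ≤ x)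
    (hS : 1 ≤ S) (hZ : 1 ≤ Z) (hL : 1 ≤ L) (hnn : 1 ≤ nn)
    (hA : A = cA b D * (x ^ 3 * S ^ 3 * Z * L ^ 2)) (hK0 : 0 ≤ K) (hK : K ≤ D * x)
    (hm0 : 0 ≤ m0) (hm : m0 ≤ (2 * D + 10) * (x * Z)) (hΛ : Λ = 4 * m0 * √(129 + 2 * b)) :
    (1 / nn) ^ 2 * (3 * (A + 3528 * (7 * (6 * K * Λ)) ^ 2 + 3528 * (σ + 10 * Ω) ^ 2)) ≤
      cT b D σ Ω * (x ^ 4 * S ^ 3 * Z ^ 2 * L ^ 2) := by
  have hq := Real.sqrt_nonneg (129 + 2 * b)
  have hcA : 0 ≤ cA b D := by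
    unfold cA
    have := cB_nonneg hb hD
    positivity
  have x4 : x ^ 3 ≤ x ^ 4 := pow_le_pow_right₀ hx (by norm_num)
  have z2 : Z ≤ Z ^ 2 := by nlinarith
  have p1 : x ^ 3 * S ^ 3 * Z * L ^ 2 ≤ x ^ 4 * S ^ 3 * Z ^ 2 * L ^ 2 := by
    have a1 : x ^ 3 * S ^ 3 ≤ x ^ 4 * S ^ 3 := mul_le_mul_of_nonneg_right x4 (by positivity)
    have a2 : x ^ 3 * S ^ 3 * Z ≤ x ^ 4 * S ^ 3 * Z ^ 2 :=
      mul_le_mul a1 z2 (by linarith) (by positivity)
    exact mul_le_mul_of_nonneg_right a2 (by positivity)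
  have k1 : 7 * (6 * K * Λ) ≤ 42 * D * (4 * (2 * D + 10) * √(129 + 2 * b)) * (x ^ 2 * Z) := by
    rw [hΛ]
    have a1 : K * m0 ≤ D * x * ((2 * D + 10) * (x * Z)) := mul_le_mul hK hm hm0 (by positivity)
    have a2 := mul_le_mul_of_nonneg_right a1 hq
    calc 7 * (6 * K * (4 * m0 * √(129 + 2 * b))) = 168 * (K * m0 * √(129 + 2 * b)) := by ring
      _ ≤ 168 * (D * x * ((2 * D + 10) * (x * Z)) * √(129 + 2 * b)) := by linarith
      _ = _ := by ring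
  have k0 : 0 ≤ 7 * (6 * K * Λ) := by
    rw [hΛ]
    positivity
  have k2 : (7 * (6 * K * Λ)) ^ 2 ≤
      (42 * D * (4 * (2 * D + 10) * √(129 + 2 * b))) ^ 2 * (x ^ 4 * S ^ 3 * Z ^ 2 * L ^ 2) := by
    calc (7 * (6 * K * Λ)) ^ 2
        ≤ (42 * D * (4 * (2 * D + 10) * √(129 + 2 * b)) * (x ^ 2 * Z)) ^ 2 :=
          pow_le_pow_left₀ k0 k1 2
      _ = (42 * D * (4 * (2 * D + 10) * √(129 + 2 * b))) ^ 2 * (x ^ 4 * Z ^ 2) := by ring
      _ ≤ _ := by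
        refine mul_le_mul_of_nonneg_left ?_ (by positivity)
        have a1 : 1 ≤ S ^ 3 * L ^ 2 :=
          one_le_mul_of_one_le_of_one_le (one_le_pow₀ hS) (one_le_pow₀ hL)
        have a2 : 0 ≤ x ^ 4 * Z ^ 2 := by positivity
        nlinarith
  have k3 : (σ + 10 * Ω) ^ 2 ≤ (σ + 10 * Ω) ^ 2 * (x ^ 4 * S ^ 3 * Z ^ 2 * L ^ 2) := by
    refine le_mul_of_one_le_right (sq_nonneg _) ?_
    have a1 : 1 ≤ x ^ 4 * S ^ 3 :=
      one_le_mul_of_one_le_of_one_le (one_le_pow₀ hx) (one_le_pow₀ hS)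
    have a2 : 1 ≤ x ^ 4 * S ^ 3 * Z ^ 2 := one_le_mul_of_one_le_of_one_le a1 (one_le_pow₀ hZ)
    exact one_le_mul_of_one_le_of_one_le a2 (one_le_pow₀ hL)
  have k4 : A ≤ cA b D * (x ^ 4 * S ^ 3 * Z ^ 2 * L ^ 2) := by
    rw [hA]
    exact mul_le_mul_of_nonneg_left p1 hcA
  have k5 : 0 ≤ A := by
    rw [hA]
    positivity
  have k6 : (1 / nn) ^ 2 ≤ 1 := by
    refine pow_le_one₀ (by positivity) ?_
    rw [div_le_one (by linarith)]
    exact hnn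
  have k7 : 0 ≤ 3 * (A + 3528 * (7 * (6 * K * Λ)) ^ 2 + 3528 * (σ + 10 * Ω) ^ 2) := by
    positivity
  refine (mul_le_of_le_one_left k7 k6).trans ?_
  unfold cT
  linarith

end

end Vale.Agent.P159.H883e
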