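import Vale.Agent.P159.H883.E4q
import Vale.Agent.P159.H446.Cut3

/-!
P159 / module E4 (helper883), part 7: the number e4 at one level, all parameters chosen
(`e4_lvl`).
-/

set_option linter.unusedSectionVars false

namespace Vale.Agent.P159.H883e

open Finset Matrix MeasureTheory
open Vale.Agent.P159.TM.Spec (V)
open Vale.Agent.P159.TM.SpecC (wT)
open Vale.Agent.P159.H817 (gr nrm sz GB gr_eq eb dv U U_nonneg U_le_one U_GB Db)
open Vale.Agent.P159.H191 (mn Wts ps nd BT)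
open Vale.Agent.P159.H963 (Anm Pin)
open Vale.Agent.P159.H963.Core (nS kap1)
open Vale.Agent.P159.TM.H764 (EE)
open Vale.Agent.P159.H663.Dr (tT kT)
open Vale.Agent.P159.H446.Pr (Y1 nC sd_nC sd_eq clog_ge lC_le pow_le_lC)
open Vale.Agent.P159.H764.Ctg (Cc Cc_pos)
open Vale.Agent.P159.H145.Sp (muK lC lR)
open Vale.Agent.P159.H773 (sd nuF)
open Vale.Agent.P159.H972 (tn)
open Vale.Agent.P159.H770.Sti (dg dg_pos dg_Db)

noncomputable section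

variable {b a η : ℝ} {i n k R s : ℕ}

lemma tn_eq (n : ℕ) : tn n = ((2 : ℝ) ^ n)⁻¹ ^ 2 := by
  unfold H972.tn
  rw [inv_pow, ← pow_mul, mul_comm n 2, pow_mul]
  norm_num

lemma tn_pos' (n : ℕ) : 0 < tn n := by
  rw [tn_eq]
  positivity

lemma lC_cast (n k : ℕ) : (lC n k : ℝ) = 2 ^ n * 2 ^ (k / 16) := by
  unfold H145.Sp.lC
  push_cast
  rw [pow_add]

lemma tn_lC (n k : ℕ) : tn n * (lC n k : ℝ) ^ 2 = ((2 : ℝ) ^ (k / 16)) ^ 2 := by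
  rw [tn_eq, lC_cast]
  have : (2 : ℝ) ^ n ≠ 0 := by positivity
  field_simp

lemma lC_four {n k : ℕ} (hn : 2 ≤ n) : lC n k = 4 * (lC n k / 4) := by
  have h1 : 4 ∣ lC n k := by
    unfold H145.Sp.lC
    refine (show 4 ∣ 2 ^ 2 from dvd_rfl).trans ?_
    exact pow_dvd_pow 2 (by omega)
  exact (Nat.mul_div_cancel' h1).symm

lemma lC_quarter {n k : ℕ} (hn : 2 ≤ n) : lC n k / 4 = 2 ^ (n + k / 16 - 2) := by
  unfold H145.Sp.lC
  have h1 : n + k / 16 = (n + k / 16 - 2) + 2 := by omega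
  rw [h1, pow_add]
  simp

lemma four_exp (K : ℕ) : (4 : ℝ) ^ K ≤ Real.exp (2 * K) := by
  have h1 : (4 : ℝ) ≤ Real.exp 2 := by
    have h2 := Real.add_one_le_exp (1 : ℝ)
    have h3 : Real.exp 2 = Real.exp 1 * Real.exp 1 := by rw [← Real.exp_add]; norm_num
    nlinarith
  calc (4 : ℝ) ^ K ≤ Real.exp 2 ^ K := pow_le_pow_left₀ (by norm_num) h1 K
    _ = Real.exp (2 * K) := by rw [← Real.exp_nat_mul]; ring_nf

lemma quarter_exp (m : ℕ) : (1 / 4 : ℝ) ^ m ≤ Real.exp (-m) := by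
  have h1 : (1 / 4 : ℝ) ≤ Real.exp (-1) := by
    have h2 : Real.exp 1 ≤ 4 := by
      have := Real.exp_one_lt_d9
      linarith
    have h3 : Real.exp (-1) = 1 / Real.exp 1 := by rw [Real.exp_neg, one_div]
    rw [h3]
    exact one_div_le_one_div_of_le (Real.exp_pos 1) h2
  calc (1 / 4 : ℝ) ^ m ≤ Real.exp (-1) ^ m := pow_le_pow_left₀ (by norm_num) h1 m
    _ = Real.exp (-m) := by rw [← Real.exp_nat_mul]; ring_nf

/-- the trace number in units of the mass -/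
lemma gU_le (ha : 1 ≤ a) (ha2 : a ≤ 2) {N : ℕ} (hN : 2 ^ n ≤ N) (hs : s ≤ n) {S : ℝ}
    (hS : 1 ≤ S) (hsS : (s : ℝ) ≤ 2 * S) : gU N a (tn n) (2 ^ (n - s)) ≤ 1456 * (tn n * S) := by
  have ht := tn_pos' n
  have h2n : (0 : ℝ) < 2 ^ n := by positivity
  have hN' : (2 : ℝ) ^ n ≤ N := by exact_mod_cast hN
  have h1 : 1 / (N : ℝ) ^ 2 ≤ tn n := by
    rw [tn_eq, inv_pow, ← one_div]
    exact one_div_le_one_div_of_le (by positivity) (pow_le_pow_left₀ h2n.le hN' 2)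
  have h2 : a / tn n / (((2 ^ (n - s) : ℕ)) : ℝ) ^ 2 = a * 4 ^ s := by
    have e1 : (2 : ℝ) ^ n = 2 ^ (n - s) * 2 ^ s := by rw [← pow_add]; congr 1; omega
    have e2 : (4 : ℝ) ^ s = (2 ^ s) ^ 2 := by rw [← pow_mul, mul_comm, pow_mul]; norm_num
    rw [tn_eq, e2]
    push_cast
    have : (2 : ℝ) ^ (n - s) ≠ 0 := by positivity
    have : (2 : ℝ) ^ s ≠ 0 := by positivity
    rw [e1]
    field_simp
  have h3 : Real.log (1 + a * 4 ^ s) ≤ 2 + 2 * s := by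
    have e1 : 1 + a * 4 ^ s ≤ Real.exp (2 + 2 * s) := by
      have e2 := four_exp s
      have e3 : (3 : ℝ) ≤ Real.exp 2 := by
        have := Real.add_one_le_exp (2 : ℝ)
        linarith
      have e4 : (1 : ℝ) ≤ 4 ^ s := one_le_pow₀ (by norm_num)
      rw [Real.exp_add]
      calc 1 + a * 4 ^ s ≤ 3 * 4 ^ s := by nlinarith
        _ ≤ Real.exp 2 * Real.exp (2 * s) :=
          mul_le_mul e3 e2 (by positivity) (Real.exp_pos _).le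
    calc Real.log (1 + a * 4 ^ s) ≤ Real.log (Real.exp (2 + 2 * s)) :=
          Real.log_le_log (by positivity) e1
      _ = 2 + 2 * s := Real.log_exp _
  have h4 : 25 * (1 + Real.log (1 + a / tn n / (((2 ^ (n - s) : ℕ)) : ℝ) ^ 2)) + 1280 ≤
      1455 * S := by
    rw [h2]
    linarith
  have h5 : 0 ≤ 25 * (1 + Real.log (1 + a / tn n / (((2 ^ (n - s) : ℕ)) : ℝ) ^ 2)) + 1280 := by
    have : 0 ≤ Real.log (1 + a / tn n / (((2 ^ (n - s) : ℕ)) : ℝ) ^ 2) := Real.log_nonneg (by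
      have : 0 ≤ a / tn n / (((2 ^ (n - s) : ℕ)) : ℝ) ^ 2 := by positivity
      linarith)
    linarith
  have h6 : tn n / a ≤ tn n := div_le_self ht.le ha
  unfold gU
  calc 1 / (N : ℝ) ^ 2 + tn n / a *
        (25 * (1 + Real.log (1 + a / tn n / (((2 ^ (n - s) : ℕ)) : ℝ) ^ 2)) + 1280)
      ≤ tn n + tn n * (1455 * S) := add_le_add h1 (mul_le_mul h6 h4 h5 ht.le)
    _ ≤ 1456 * (tn n * S) := by nlinarith

/-- the constant of the cross term -/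
lemma kap1_le (hb : 0 < b) (ha : 1 ≤ a) (ha2 : a ≤ 2) (hη : 0 < η) (hη1 : 2 * η ≤ 1) :
    kap1 (1 / b) a (tn n) (2 * η) (dg n (2 * η)) ≤ 2 * η * (5 + b) := by
  have h2 := dg_Db (n := n) ha ha2 (η := 2 * η) (by linarith) hη1
  have h4 : 2 * a / Db (dg n (2 * η)) (tn n / a) ≤ 4 * (2 * η) := by
    have h5 : 0 < 1 / (2 * η) := by positivity
    rw [div_le_iff₀ (h5.trans_le h2)]
    have h6 := mul_le_mul_of_nonneg_left h2 (show 0 ≤ 4 * (2 * η) by positivity)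
    have h7 : 4 * (2 * η) * (1 / (2 * η)) = 4 := by field_simp
    linarith
  have h8 : 1 / (1 / b) = b := one_div_one_div b
  unfold H963.Core.kap1
  rw [h8]
  linarith

/-! ### the numbers -/

/-- the probability -/
lemma pr_num {B v Z D x : ℝ} {kk K m0 nn : ℕ} {Nh : ℝ} (hB2 : B ^ 2 = 2 * v * (7 * Z + 2 * kk))
    (hv : 0 < v) (hK : (K : ℝ) ≤ D * x) (hnn : nn ≤ 2 ^ K) (hm0 : 7 * Z + 2 * D * x ≤ m0)
    (hNh : Nh = 2 ^ K) (hZe : 14 ≤ Real.exp Z) :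
    2 * (4 : ℝ) ^ kk * Real.exp (-(B ^ 2 / (2 * v))) +
      (nn * nn : ℕ) * Real.exp (-(7 * Z + 2 * D * x)) + 11 * Nh ^ 2 * (1 / 4) ^ m0 ≤
      Real.exp (-(6 * Z)) := by
  have c1 : 2 * (4 : ℝ) ^ kk * Real.exp (-(B ^ 2 / (2 * v))) ≤ 2 * Real.exp (-(7 * Z)) := by
    have d1 : B ^ 2 / (2 * v) = 7 * Z + 2 * kk := by
      rw [hB2]
      field_simp
    rw [d1]
    have d2 := four_exp kk
    have d3 : Real.exp (-(7 * Z + 2 * (kk : ℝ))) =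
        Real.exp (-(7 * Z)) * Real.exp (-(2 * (kk : ℝ))) := by
      rw [← Real.exp_add]
      ring_nf
    have d4 : Real.exp (2 * (kk : ℝ)) * Real.exp (-(2 * (kk : ℝ))) = 1 := by
      rw [← Real.exp_add]
      simp
    rw [d3]
    calc 2 * (4 : ℝ) ^ kk * (Real.exp (-(7 * Z)) * Real.exp (-(2 * (kk : ℝ))))
        ≤ 2 * Real.exp (2 * (kk : ℝ)) * (Real.exp (-(7 * Z)) * Real.exp (-(2 * (kk : ℝ)))) :=
          mul_le_mul_of_nonneg_right (by linarith) (by positivity)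
      _ = 2 * Real.exp (-(7 * Z)) * (Real.exp (2 * (kk : ℝ)) * Real.exp (-(2 * (kk : ℝ)))) := by
          ring
      _ = 2 * Real.exp (-(7 * Z)) := by rw [d4, mul_one]
  have hKe : Real.exp (2 * (K : ℝ)) ≤ Real.exp (2 * D * x) := by
    refine Real.exp_le_exp.2 ?_
    linarith
  have c2 : ((nn * nn : ℕ) : ℝ) * Real.exp (-(7 * Z + 2 * D * x)) ≤ Real.exp (-(7 * Z)) := by
    have d1 : ((nn * nn : ℕ) : ℝ) ≤ 4 ^ K := by
      have d2 : nn * nn ≤ 4 ^ K := by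
        calc nn * nn ≤ 2 ^ K * 2 ^ K := Nat.mul_le_mul hnn hnn
          _ = (2 * 2) ^ K := by rw [← mul_pow]
      exact_mod_cast d2
    have d4 := (d1.trans (four_exp K)).trans hKe
    have d5 : Real.exp (-(7 * Z + 2 * D * x)) =
        Real.exp (-(7 * Z)) * Real.exp (-(2 * D * x)) := by
      rw [← Real.exp_add]
      ring_nf
    have d6 : Real.exp (2 * D * x) * Real.exp (-(2 * D * x)) = 1 := by
      rw [← Real.exp_add]
      simp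
    rw [d5]
    calc ((nn * nn : ℕ) : ℝ) * (Real.exp (-(7 * Z)) * Real.exp (-(2 * D * x)))
        ≤ Real.exp (2 * D * x) * (Real.exp (-(7 * Z)) * Real.exp (-(2 * D * x))) :=
          mul_le_mul_of_nonneg_right d4 (by positivity)
      _ = Real.exp (-(7 * Z)) * (Real.exp (2 * D * x) * Real.exp (-(2 * D * x))) := by ring
      _ = Real.exp (-(7 * Z)) := by rw [d6, mul_one]
  have c3 : 11 * Nh ^ 2 * (1 / 4) ^ m0 ≤ 11 * Real.exp (-(7 * Z)) := by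
    have d2 : ((2 : ℝ) ^ K) ^ 2 = 4 ^ K := by
      rw [← pow_mul, mul_comm, pow_mul]
      norm_num
    rw [hNh, d2]
    have d4 := (four_exp K).trans hKe
    have d5 := quarter_exp m0
    have d6 : Real.exp (-(m0 : ℝ)) ≤ Real.exp (-(7 * Z + 2 * D * x)) :=
      Real.exp_le_exp.2 (by linarith)
    have d7 : Real.exp (2 * D * x) * Real.exp (-(7 * Z + 2 * D * x)) =
        Real.exp (-(7 * Z)) := by
      rw [← Real.exp_add]
      ring_nf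
    calc 11 * (4 : ℝ) ^ K * (1 / 4) ^ m0
        ≤ 11 * Real.exp (2 * D * x) * Real.exp (-(7 * Z + 2 * D * x)) :=
          mul_le_mul (by linarith) (d5.trans d6) (by positivity) (by positivity)
      _ = 11 * (Real.exp (2 * D * x) * Real.exp (-(7 * Z + 2 * D * x))) := by ring
      _ = 11 * Real.exp (-(7 * Z)) := by rw [d7]
  have c4 : 14 * Real.exp (-(7 * Z)) ≤ Real.exp (-(6 * Z)) := by
    have d1 : Real.exp (-(6 * Z)) = Real.exp Z * Real.exp (-(7 * Z)) := by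
      rw [← Real.exp_add]
      ring_nf
    rw [d1]
    exact mul_le_mul_of_nonneg_right hZe (Real.exp_pos _).le
  linarith

/-- the degree -/
lemma dg_num {l : ℕ} (hl : l = 2 ^ n * 2 ^ (k / 16))
    (hdeg : ⌈4 * Real.log (4 / (2 * η))⌉₊ + 3 ≤ 4 * 2 ^ (k / 16)) :
    dg n (2 * η) + 2 ≤ 4 * l := by
  have c1 : 1 ≤ 2 ^ n := Nat.one_le_two_pow
  have c2 := Nat.mul_le_mul_left (2 ^ n) hdeg
  have c4 : dg n (2 * η) + 2 ≤ 2 ^ n * (⌈4 * Real.log (4 / (2 * η))⌉₊ + 3) := by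
    unfold H770.Sti.dg
    nlinarith
  rw [hl]
  calc dg n (2 * η) + 2 ≤ 2 ^ n * (⌈4 * Real.log (4 / (2 * η))⌉₊ + 3) := c4
    _ ≤ 2 ^ n * (4 * 2 ^ (k / 16)) := c2
    _ = 4 * (2 ^ n * 2 ^ (k / 16)) := by ring

/-- the heights in the form -/
lemma ab_num {D X L t l B2 : ℝ} (hb : 0 < b) (hD : 0 ≤ D) (ha : 1 ≤ a) (ht : 0 < t)
    (hl : 1 ≤ l) (htl : t * l ^ 2 = L ^ 2) (hL : 0 < L) (hX : 0 < X) (hB0 : 0 ≤ B2)
    (hB : B2 ≤ cB b D * X) :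
    16 * (t / a) * (4 * l + 2) ^ 2 * B2 < cA b D * (X * L ^ 2) := by
  have hcB := cB_nonneg hb hD
  have h42 : (4 * l + 2) ^ 2 ≤ 36 * l ^ 2 := by nlinarith
  have c1 : t / a ≤ t := div_le_self ht.le ha
  have c2 : 16 * (t / a) * (4 * l + 2) ^ 2 * B2 ≤ 16 * t * (36 * l ^ 2) * (cB b D * X) :=
    mul_le_mul (mul_le_mul (by linarith) h42 (by positivity) (by positivity)) hB
      hB0 (by positivity)
  have c3 : 16 * t * (36 * l ^ 2) * (cB b D * X) = 576 * cB b D * (X * L ^ 2) := by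
    rw [← htl]
    ring
  have c4 : 0 < X * L ^ 2 := by positivity
  have c5 : 0 ≤ 1695744 * (2 * D + 8) * (X * L ^ 2) := by positivity
  unfold cA
  calc 16 * (t / a) * (4 * l + 2) ^ 2 * B2 ≤ 576 * cB b D * (X * L ^ 2) := c2.trans c3.le
    _ < 576 * cB b D * (X * L ^ 2) + 1695744 * (2 * D + 8) * (X * L ^ 2) + X * L ^ 2 := by
        linarith
    _ = (576 * cB b D + 1695744 * (2 * D + 8) + 1) * (X * L ^ 2) := by ring

/-- the noise in the form -/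
lemma ae_num {D x S Z L t l g2 E : ℝ} (hb : 0 < b) (hD : 0 ≤ D) (ha : 1 ≤ a) (ht : 0 < t)
    (hx : 1 ≤ x) (hS : 1 ≤ S) (hZ : 1 ≤ Z)
    (hl : 1 ≤ l) (htl : t * l ^ 2 = L ^ 2) (hL : 0 < L) (hg0 : 0 ≤ g2)
    (hg : g2 ≤ 1472 * (t * S)) (hE0 : 0 ≤ E) (hE : E ≤ (2 * D + 8) * (x * Z)) :
    32 / a * g2 * (4 * l + 2) ^ 2 * E ≤ cA b D * (x ^ 3 * S ^ 3 * Z * L ^ 2) := by
  have hcB := cB_nonneg hb hD
  have h42 : (4 * l + 2) ^ 2 ≤ 36 * l ^ 2 := by nlinarith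
  have c3 : 32 / a ≤ 32 := div_le_self (by norm_num) ha
  have ha0 : 0 < a := by linarith
  have c6 : 32 / a * g2 * (4 * l + 2) ^ 2 * E ≤
      32 * (1472 * (t * S)) * (36 * l ^ 2) * ((2 * D + 8) * (x * Z)) :=
    mul_le_mul (mul_le_mul (mul_le_mul c3 hg hg0 (by norm_num)) h42
      (by positivity) (by positivity)) hE hE0 (by positivity)
  have c7 : 32 * (1472 * (t * S)) * (36 * l ^ 2) * ((2 * D + 8) * (x * Z)) =
      1695744 * (2 * D + 8) * (x * S * Z * L ^ 2) := by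
    rw [← htl]
    ring
  have hL2 : 0 ≤ L ^ 2 := by positivity
  have c8 : x * S * Z * L ^ 2 ≤ x ^ 3 * S ^ 3 * Z * L ^ 2 := by
    refine mul_le_mul_of_nonneg_right (mul_le_mul_of_nonneg_right ?_ (by linarith)) hL2
    exact mul_le_mul (le_self_pow₀ hx (by norm_num)) (le_self_pow₀ hS (by norm_num))
      (by linarith) (by positivity)
  have c9 : 1695744 * (2 * D + 8) * (x * S * Z * L ^ 2) ≤
      1695744 * (2 * D + 8) * (x ^ 3 * S ^ 3 * Z * L ^ 2) :=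
    mul_le_mul_of_nonneg_left c8 (by positivity)
  have c10 : 0 ≤ (576 * cB b D + 1) * (x ^ 3 * S ^ 3 * Z * L ^ 2) := by positivity
  unfold cA
  calc 32 / a * g2 * (4 * l + 2) ^ 2 * E ≤
        1695744 * (2 * D + 8) * (x ^ 3 * S ^ 3 * Z * L ^ 2) := (c6.trans c7.le).trans c9
    _ ≤ 1695744 * (2 * D + 8) * (x ^ 3 * S ^ 3 * Z * L ^ 2) +
        (576 * cB b D + 1) * (x ^ 3 * S ^ 3 * Z * L ^ 2) := by linarith
    _ = _ := by ring

/-- **all parameters of the event** -/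
lemma core_num {N l h kk : ℕ} [NeZero N] (hb : 0 < b) (e2 : l = 4 * h) (hh0 : 0 < h)
    (hl : l = 2 ^ n * 2 ^ (k / 16)) (hN2 : 2 ^ n ≤ N) (ha : 1 ≤ a) (ha2 : a ≤ 2)
    (hs : s ≤ n) {x S Z D : ℝ} (hx : 1 ≤ x) (hS : 1 ≤ S) (hZ : 1 ≤ Z) (hD : 0 ≤ D)
    (hkk : (kk : ℝ) ≤ D * (x * S)) (hsS : (s : ℝ) ≤ 2 * S)
    (hq : (1 + cB b D) * (x ^ 3 * S ^ 3 * Z) ≤ 2 ^ (n - s)) :
    ∃ (v B Λ A : ℝ) (m0 : ℕ), 0 < v ∧ 2 * b * (kk : ℝ) ^ 2 ≤ v ∧ 0 ≤ B ∧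
      B ^ 2 = 2 * v * (7 * Z + 2 * kk) ∧ 2 * B ≤ ((2 ^ (n - s) : ℕ) : ℝ) * v ∧
      7 * Z + 2 * D * x ≤ m0 ∧ (m0 : ℝ) ≤ (2 * D + 10) * (x * Z) ∧ 0 < Λ ∧
      Λ = 4 * m0 * √(129 + 2 * b) ∧
      16 * (m0 : ℝ) ^ 2 * (8 / (tn n * (h : ℝ) ^ 2) + 2 * b + 1) ≤ Λ ^ 2 ∧
      A = cA b D * (x ^ 3 * S ^ 3 * Z * ((2 : ℝ) ^ (k / 16)) ^ 2) ∧
      16 * (tn n / a) * (4 * (l : ℝ) + 2) ^ 2 * B ^ 2 < A ∧
      32 / a * (gU N a (tn n) (2 ^ (n - s)) + ((h : ℝ) ^ 2)⁻¹) *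
        (4 * (l : ℝ) + 2) ^ 2 * ((7 * Z + 2 * D * x) + 1 / 2) ≤ A := by
  have ht := tn_pos' n
  have ha0 : 0 < a := by linarith
  set L : ℝ := (2 : ℝ) ^ (k / 16) with hL
  have hL1 : 1 ≤ L := one_le_pow₀ (by norm_num)
  have hl0 : 0 < l := by omega
  have hl1 : (1 : ℝ) ≤ l := by exact_mod_cast hl0
  have h2n : (2 : ℝ) ^ n ≠ 0 := by positivity
  have htl : tn n * (l : ℝ) ^ 2 = L ^ 2 := by
    rw [hl, tn_eq]
    push_cast
    rw [mul_pow ((2 : ℝ) ^ n), ← mul_assoc, ← mul_pow, inv_mul_cancel₀ h2n, one_pow, one_mul]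
  have hth : tn n * (h : ℝ) ^ 2 = L ^ 2 / 16 := by
    have d2 : (l : ℝ) = 4 * h := by exact_mod_cast e2
    rw [← htl, d2]
    ring
  have hhp : (0 : ℝ) < (h : ℝ) ^ 2 := by positivity
  have hkk0 : (0 : ℝ) ≤ (kk : ℝ) := Nat.cast_nonneg _
  have hv1 : 1 ≤ 2 * b * (kk : ℝ) ^ 2 + 1 := by
    have := mul_nonneg (mul_nonneg (by norm_num : (0 : ℝ) ≤ 2) hb.le) (sq_nonneg (kk : ℝ))
    linarith
  have hB2 : √(2 * (2 * b * (kk : ℝ) ^ 2 + 1) * (7 * Z + 2 * kk)) ^ 2 =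
      2 * (2 * b * (kk : ℝ) ^ 2 + 1) * (7 * Z + 2 * kk) := Real.sq_sqrt (by positivity)
  have hBc : √(2 * (2 * b * (kk : ℝ) ^ 2 + 1) * (7 * Z + 2 * kk)) ^ 2 ≤
      cB b D * (x ^ 3 * S ^ 3 * Z) := by
    rw [hB2]
    exact ar_B hb hD hx hS hZ hkk0 hkk
  have hX1 : 1 ≤ x ^ 3 * S ^ 3 * Z :=
    one_le_mul_of_one_le_of_one_le (one_le_mul_of_one_le_of_one_le (one_le_pow₀ hx)
      (one_le_pow₀ hS)) hZ
  have hDx : 0 ≤ D * x := by positivity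
  have c2 : Z ≤ x * Z := le_mul_of_one_le_left (by linarith) hx
  have c3 : x ≤ x * Z := le_mul_of_one_le_right (by linarith) hZ
  have c4 := mul_le_mul_of_nonneg_left c3 hD
  have c1 := Nat.ceil_lt_add_one (a := 7 * Z + 2 * D * x) (by positivity)
  have c0 := Nat.le_ceil (7 * Z + 2 * D * x)
  have hsq : 0 < √(129 + 2 * b) := Real.sqrt_pos.2 (by linarith)
  have hm0 : (((⌈7 * Z + 2 * D * x⌉₊ + 1 : ℕ)) : ℝ) = (⌈7 * Z + 2 * D * x⌉₊ : ℝ) + 1 := by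
    push_cast
    rfl
  have hmp : (0 : ℝ) < ((⌈7 * Z + 2 * D * x⌉₊ + 1 : ℕ) : ℝ) := by
    exact_mod_cast Nat.succ_pos _
  refine ⟨2 * b * (kk : ℝ) ^ 2 + 1, √(2 * (2 * b * (kk : ℝ) ^ 2 + 1) * (7 * Z + 2 * kk)),
    4 * ((⌈7 * Z + 2 * D * x⌉₊ + 1 : ℕ) : ℝ) * √(129 + 2 * b),
    cA b D * (x ^ 3 * S ^ 3 * Z * L ^ 2), ⌈7 * Z + 2 * D * x⌉₊ + 1, by linarith, by linarith,
    Real.sqrt_nonneg _, hB2, ?_, ?_, ?_, by positivity, rfl, ?_, rfl, ?_, ?_⟩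
  · generalize √(2 * (2 * b * (kk : ℝ) ^ 2 + 1) * (7 * Z + 2 * kk)) = B at hBc
    have d1 : 2 * B ≤ 1 + B ^ 2 := by nlinarith [sq_nonneg (B - 1)]
    have d2 : 1 + B ^ 2 ≤ (1 + cB b D) * (x ^ 3 * S ^ 3 * Z) := by
      rw [add_mul, one_mul]
      linarith
    have d3 : ((2 ^ (n - s) : ℕ) : ℝ) = 2 ^ (n - s) := by push_cast; rfl
    rw [d3]
    exact (d1.trans (d2.trans hq)).trans (le_mul_of_one_le_right (by positivity) hv1)
  · rw [hm0]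
    linarith
  · rw [hm0]
    have : (2 * D + 10) * (x * Z) = 2 * (D * (x * Z)) + 10 * (x * Z) := by ring
    rw [this]
    have d1 : 2 * D * x = 2 * (D * x) := by ring
    have d2 : 1 ≤ x * Z := one_le_mul_of_one_le_of_one_le hx hZ
    linarith
  · generalize ((⌈7 * Z + 2 * D * x⌉₊ + 1 : ℕ) : ℝ) = m
    have d1 : 8 / (tn n * (h : ℝ) ^ 2) ≤ 128 := by
      rw [hth, div_le_iff₀ (by positivity)]
      have := one_le_pow₀ (n := 2) hL1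
      linarith
    have d2 : (4 * m * √(129 + 2 * b)) ^ 2 = 16 * m ^ 2 * (129 + 2 * b) := by
      rw [mul_pow, mul_pow, Real.sq_sqrt (by linarith)]
      ring
    rw [d2]
    refine mul_le_mul_of_nonneg_left ?_ (by positivity)
    linarith
  · exact ab_num hb hD ha ht hl1 htl (by linarith) (by linarith) (sq_nonneg _) hBc
  · have d0 := gU_le (N := N) ha ha2 hN2 hs hS hsS
    have d1 : ((h : ℝ) ^ 2)⁻¹ ≤ 16 * (tn n * S) := by
      rw [inv_le_iff_one_le_mul₀ hhp]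
      have d4 : 16 * (tn n * S) * (h : ℝ) ^ 2 = L ^ 2 * S := by
        calc 16 * (tn n * S) * (h : ℝ) ^ 2 = 16 * (tn n * (h : ℝ) ^ 2) * S := by ring
          _ = L ^ 2 * S := by rw [hth]; ring
      rw [d4]
      exact one_le_mul_of_one_le_of_one_le (one_le_pow₀ hL1) hS
    have d5 := (gU_pos (N := N) ha0 ht (2 ^ (n - s))).le
    have d6 : 7 * Z + 2 * D * x + 1 / 2 ≤ (2 * D + 8) * (x * Z) := by
      have : (2 * D + 8) * (x * Z) = 2 * (D * (x * Z)) + 8 * (x * Z) := by ring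
      rw [this]
      have d1 : 2 * D * x = 2 * (D * x) := by ring
      have d2 : 1 ≤ x * Z := one_le_mul_of_one_le_of_one_le hx hZ
      linarith
    exact ae_num hb hD ha ht hx hS hZ hl1 htl (by linarith) (by positivity) (by linarith)
      (by positivity) d6

/-- **e4 on one torus**, all parameters chosen -/
theorem e4_core {N nn l h kk K lr : ℕ} [NeZero N] [NeZero nn] (hb : 0 < b)
    (e1 : N = nn * l) (e2 : l = 4 * h) (hh0 : 0 < h) (e3 : N = 2 ^ K * h)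
    (e4 : N = 2 ^ (n - s) * 2 ^ kk) (hl : l = 2 ^ n * 2 ^ (k / 16)) (hnK : nn ≤ 2 ^ K)
    (hlr : l ≤ lr) (ha : 1 ≤ a) (ha2 : a ≤ 2)
    (hη0 : 0 < η) (hη1 : 2 * η ≤ 1) (hF : H972.FL b (tn n) a η N) (hs : s ≤ n)
    {x S Z D : ℝ} (hx : 1 ≤ x) (hS : 1 ≤ S) (hZ : 1 ≤ Z) (hD : 0 ≤ D)
    (hkk : (kk : ℝ) ≤ D * (x * S)) (hK : (K : ℝ) ≤ D * x) (hsS : (s : ℝ) ≤ 2 * S)
    (hq : (1 + cB b D) * (x ^ 3 * S ^ 3 * Z) ≤ 2 ^ (n - s)) (hZe : 14 ≤ Real.exp Z)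
    (hdeg : ⌈4 * Real.log (4 / (2 * η))⌉₊ + 3 ≤ 4 * 2 ^ (k / 16))
    {w : V N → ℝ} (hw : Wts w (2 ^ n)) (p q : V N) {g : V N → ℝ}
    {σ Ω : ℝ} (gg : GB (σ / (l : ℝ)) g) (hg : ∀ x y, |g x - g y| ≤ Ω) :
    ∃ G : Set (V N → ℝ), MeasurableSet G ∧
      (H883.nuM (wT b N) (tn n • (1 : Matrix (V N) (V N) ℝ)) 0).real Gᶜ ≤
        Real.exp (-(6 * Z)) ∧
      ∀ F ∈ G, ∀ j, ∀ i' < nn * nn, ∀ v' : V N → ℝ,
        (∀ x, sz (x - nd N nn l i') < 3 * (2 * l) → dv (gr v') x = 0) →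
        nrm (gr v') ≤ 3528 * Cc ^ 2 →
        |BT N b (tn n) (Y1 N nn l (U (30 * lr) lr) (muK N l (kT h)) w p q
            (tT N (2 ^ (n - s)) (F + g)) g j i' -
          Y1 N nn l (U (30 * lr) lr) (muK N l (kT h)) w p q
            (tT N (2 ^ (n - s)) (F + g)) g j (i' + 1)) v'| ≤
          2 * η * (5 + b) * √(cT b D σ Ω * (x ^ 4 * S ^ 3 * Z ^ 2 * ((2 : ℝ) ^ (k / 16)) ^ 2) *
            (3528 * Cc ^ 2)) := by
  have ht := tn_pos' n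
  have ha0 : 0 < a := by linarith
  have hL1 : (1 : ℝ) ≤ 2 ^ (k / 16) := one_le_pow₀ (by norm_num)
  have h2nl : 2 ^ n ≤ l := by
    rw [hl]
    exact Nat.le_mul_of_pos_right _ (by positivity)
  have hl0 : 0 < l := by omega
  have hl0' : (0 : ℝ) < l := by exact_mod_cast hl0
  have hN2 : 2 ^ n ≤ N := h2nl.trans (by
    rw [e1]
    exact Nat.le_mul_of_pos_left _ (NeZero.pos nn))
  have gpl : GB (1 / (l : ℝ)) (U (N := N) (30 * lr) lr) :=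
    (U_GB (30 * lr) (by omega : 0 < lr)).mono (one_div_le_one_div_of_le hl0'
      (by exact_mod_cast hlr))
  have hP : ∀ k : V N, k ≠ 0 → |Pin N b (tn n) k - a * EE k| ≤
      2 * η * EE k * (1 + EE k / tn n) := fun k hk => H817.flat_of_FL ht hη0.le hF hk
  obtain ⟨v, B, Λ, A, m0, hv0, hvk, hB0, hB2, hBv, hm0l, hm0u, hΛ0, hΛ, hmΛ, hA, hAB, hAE⟩ :=
    core_num (N := N) hb e2 hh0 hl hN2 ha ha2 hs hx hS hZ hD hkk hsS hq
  obtain ⟨G, hG, hp, hGF⟩ := e4_pair (ηf := 2 * η) (E := 7 * Z + 2 * D * x)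
    (pl := U (30 * lr) lr) (w := w)
    hb ht ha0 (0 : V N) e1 hh0 e2 e3 (Nat.one_le_two_pow (n := n - s)) e4 hw h2nl p q
    (fun z => U_nonneg _ _ _) (fun z => U_le_one _ _ _) gpl gg hg (by linarith)
    (dg_pos n (2 * η)) (dg_num hl hdeg) hP hB0 hv0 hvk hBv hΛ0 hmΛ hAB hAE
  have hNh : (N : ℝ) / h = 2 ^ K := by
    rw [div_eq_iff (by positivity)]
    exact_mod_cast e3
  have hnn1 : (1 : ℝ) ≤ (nn : ℝ) := by exact_mod_cast NeZero.one_le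
  have hT := ar_T (σ := σ) (Ω := Ω) hb hD hx hS hZ hL1 hnn1 hA (Nat.cast_nonneg K) hK
    (Nat.cast_nonneg m0) hm0u hΛ
  refine ⟨G, hG, hp.trans (pr_num (D := D) (x := x) hB2 hv0 hK hnK hm0l hNh hZe),
    fun F hFG j i' hi' v' hd hnv => ?_⟩
  have h1 := (hGF F hFG j i' hi').2 v' hd hnv
  refine h1.trans (mul_le_mul (kap1_le hb ha ha2 hη0 hη1) (Real.sqrt_le_sqrt ?_)
    (Real.sqrt_nonneg _) (by positivity))
  exact mul_le_mul_of_nonneg_right hT (by positivity)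

/-- **e4 at one level** -/
theorem e4_lvl (hb : 0 < b) (hn : 2 ≤ n) (hR : 2 ^ (n + k) ≤ R) (ha : 1 ≤ a) (ha2 : a ≤ 2)
    (hη0 : 0 < η) (hη1 : 2 * η ≤ 1) (hF : H972.FL b (tn n) a η (sd i R)) (hs : s ≤ n)
    {x S Z D : ℝ} (hx : 1 ≤ x) (hS : 1 ≤ S) (hZ : 1 ≤ Z) (hD : 0 ≤ D)
    (hkk : ((i + Nat.clog 2 R - n + s : ℕ) : ℝ) ≤ D * (x * S))
    (hK : ((i + Nat.clog 2 R - (n + k / 16) + 2 : ℕ) : ℝ) ≤ D * x) (hsS : (s : ℝ) ≤ 2 * S)
    (hq : (1 + cB b D) * (x ^ 3 * S ^ 3 * Z) ≤ 2 ^ (n - s)) (hZe : 14 ≤ Real.exp Z)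
    (hdeg : ⌈4 * Real.log (4 / (2 * η))⌉₊ + 3 ≤ 4 * 2 ^ (k / 16))
    {w : V (sd i R) → ℝ} (hw : Wts w (2 ^ n)) (p q : V (sd i R)) {g : V (sd i R) → ℝ}
    {σ Ω : ℝ} (gg : GB (σ / (lC n k : ℝ)) g) (hg : ∀ x y, |g x - g y| ≤ Ω) :
    ∃ G : Set (V (sd i R) → ℝ), MeasurableSet G ∧
      (nuF b (sd i) (tn n) R).real Gᶜ ≤ Real.exp (-(6 * Z)) ∧
      ∀ F ∈ G, ∀ j, ∀ i' < nC i n k R * nC i n k R, ∀ v' : V (sd i R) → ℝ,
        (∀ x, sz (x - nd (sd i R) (nC i n k R) (lC n k) i') < 3 * (2 * lC n k) →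
          dv (gr v') x = 0) → nrm (gr v') ≤ 3528 * Cc ^ 2 →
        |BT (sd i R) b (tn n) (Y1 (sd i R) (nC i n k R) (lC n k) (U (30 * lR n R) (lR n R))
            (muK (sd i R) (lC n k) (kT (lC n k / 4))) w p q (tT (sd i R) (2 ^ (n - s)) (F + g))
            g j i' -
          Y1 (sd i R) (nC i n k R) (lC n k) (U (30 * lR n R) (lR n R))
            (muK (sd i R) (lC n k) (kT (lC n k / 4))) w p q (tT (sd i R) (2 ^ (n - s)) (F + g))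
            g j (i' + 1)) v'| ≤
          2 * η * (5 + b) * √(cT b D σ Ω * (x ^ 4 * S ^ 3 * Z ^ 2 * ((2 : ℝ) ^ (k / 16)) ^ 2) *
            (3528 * Cc ^ 2)) := by
  have hcl := clog_ge hR
  have hk16 : k / 16 ≤ k := Nat.div_le_self _ _
  have e2' : lC n k / 4 = 2 ^ (n + k / 16 - 2) := lC_quarter hn
  refine e4_core (kk := i + Nat.clog 2 R - n + s) (K := i + Nat.clog 2 R - (n + k / 16) + 2)
    hb (sd_nC hR) (lC_four hn) (by rw [e2']; positivity) ?_ ?_ ?_ ?_ (lC_le hR) ha ha2 hη0 hη1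
    hF hs hx hS hZ hD hkk hK hsS hq hZe hdeg hw p q gg hg
  · rw [e2', sd_eq, ← pow_add]
    congr 1
    omega
  · rw [sd_eq, ← pow_add]
    congr 1
    omega
  · unfold H145.Sp.lC
    rw [pow_add]
  · unfold H446.Pr.nC
    exact Nat.pow_le_pow_right (by norm_num) (by omega)

end

end Vale.Agent.P159.H883e
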