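import Vale.Agent.P159.H883.Twr5
import Vale.Agent.P159.H883.Twr4
import Vale.Agent.P159.H883.Brg5
import Vale.Agent.P159.H513.Quart
import Vale.Agent.P159.H264.Gq1

/-!
P159 / module LIN (helper883), part 1: exponential moments of the linear functionals of the pinned
massless heights, `∑ pin h e^{⟨j, dh⟩} ≤ exp (b ∑ (cosh j - 1)) ∑ pin h`.
-/

set_option linter.unusedSectionVars false

namespace Vale.Agent.P159.H883

open Finset Matrix MeasureTheory
open Vale.Agent.P159.H963 (pin)
open Vale.Agent.P159.H37 (Zn re gau)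
open Vale.Agent.P159.H770 (Ed eS eT wTD)
open Vale.Agent.P159.H353 (wI)
open Vale.Agent.P159.TM.SpecC (Tor wT)
open Vale.Agent.P159.H513 (gw' rat)
open Vale.Agent.P159.TM.H129 (ip)

noncomputable section

section heights

variable {N : ℕ} [NeZero N] {b : ℝ}

/-- integer gradient -/
def dhT (N : ℕ) [NeZero N] : (Tor N → ℤ) →+ (Ed N → ℤ) where
  toFun h e := h (eT N e) - h (eS N e)
  map_zero' := by
    funext e
    simp
  map_add' g h := by
    funext e
    simp only [Pi.add_apply]
    ring

lemma dhT_apply (h : Tor N → ℤ) (e : Ed N) : dhT N h e = h (eT N e) - h (eS N e) := rfl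

lemma run_eq {α : Type*} (f : Tor N → α) (hf : ∀ e : Ed N, f (eT N e) = f (eS N e)) (y : Tor N)
    (d : Tor N) (hd : d = (1, 0) ∨ d = (0, 1)) (k : ℕ) : f (y + k • d) = f y := by
  induction k with
  | zero => simp
  | succ k ih =>
    have e1 : y + (k + 1) • d = y + k • d + d := by rw [succ_nsmul, add_assoc]
    rw [e1]
    rcases hd with hd | hd
    · have := hf (y + k • d, false)
      unfold H770.eT H770.eS at this
      simp only [Bool.false_eq_true, if_false] at this
      rw [← ih, ← this, hd]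
    · have := hf (y + k • d, true)
      unfold H770.eT H770.eS at this
      simp only [if_true] at this
      rw [← ih, ← this, hd]

lemma conn_eq {α : Type*} (f : Tor N → α) (hf : ∀ e : Ed N, f (eT N e) = f (eS N e))
    (x y : Tor N) : f x = f y := by
  set a := (x.1 - y.1).val with ha
  set c := (x.2 - y.2).val with hc
  have h1 := run_eq f hf y (1, 0) (Or.inl rfl) a
  have h2 := run_eq f hf (y + a • (1, 0)) (0, 1) (Or.inr rfl) c
  have e : y + a • ((1, 0) : Tor N) + c • ((0, 1) : Tor N) = x := by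
    refine Prod.ext ?_ ?_
    · simp [ha]
    · simp [hc]
  rw [e] at h2
  rw [h2, h1]

/-- gradients of integer heights -/
def GaT (N : ℕ) [NeZero N] : AddSubgroup (Ed N → ℤ) := (dhT N).range

lemma GaT_half (m : Ed N → ℤ) (hm : m + m ∈ GaT N) : m ∈ GaT N := by
  obtain ⟨h, hh⟩ := hm
  have h3 : ∀ e : Ed N, h (eT N e) - h (eS N e) = m e + m e := fun e => by
    have := congrFun hh e
    rwa [dhT_apply] at this
  have h4 : ∀ x : Tor N, ((h x : ℤ) : ZMod 2) = ((h 0 : ℤ) : ZMod 2) := by
    intro x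
    refine conn_eq (fun x => ((h x : ℤ) : ZMod 2)) (fun e => ?_) x 0
    have h5 := h3 e
    have h6 : h (eT N e) = h (eS N e) + 2 * m e := by linarith
    rw [h6]
    push_cast
    have : (2 : ZMod 2) = 0 := rfl
    rw [this, zero_mul, add_zero]
  have h5 : ∀ x : Tor N, ∃ k : ℤ, h x - h 0 = 2 * k := by
    intro x
    have h6 := h4 x
    rw [← sub_eq_zero, ← Int.cast_sub, ZMod.intCast_zmod_eq_zero_iff_dvd] at h6
    exact h6
  choose k hk using h5
  refine ⟨k, ?_⟩
  funext e
  rw [dhT_apply]
  have h6 := hk (eT N e)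
  have h7 := hk (eS N e)
  have h8 := h3 e
  omega

/-- pinned heights and gradients -/
def pinEqv (x₀ : Tor N) : {h : Tor N → ℤ // h x₀ = 0} ≃ GaT N :=
  Equiv.ofBijective (fun h => ⟨dhT N h.1, h.1, rfl⟩) (by
    constructor
    · rintro ⟨g, hg⟩ ⟨h, hh⟩ hgh
      have h3 : dhT N g = dhT N h := congrArg Subtype.val hgh
      refine Subtype.ext (funext fun x => ?_)
      show g x = h x
      have h4 := conn_eq (fun x => g x - h x) (fun e => by
        have h5 := congrFun h3 e
        rw [dhT_apply, dhT_apply] at h5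
        linarith) x x₀
      simp only [hg, hh] at h4
      linarith
    · rintro ⟨m, g, hg⟩
      refine ⟨⟨fun x => g x - g x₀, by simp⟩, Subtype.ext ?_⟩
      funext e
      show dhT N (fun x => g x - g x₀) e = m e
      rw [← hg, dhT_apply, dhT_apply]
      ring)

lemma wT_dhT (h : Tor N → ℤ) : wT b N h = ∏ e : Ed N, wI b (dhT N h e) := by
  rw [← H770.wTD_zero]
  unfold H770.wTD H770.eW
  refine Finset.prod_congr rfl fun e _ => ?_
  rw [dhT_apply, Pi.zero_apply, add_zero]

/-- **the bridge**: sums over the pinned heights are sums over the gradients -/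
lemma tsum_pinT (x₀ : Tor N) (F : (Ed N → ℤ) → ℝ) :
    ∑' h, pin (wT b N) x₀ h * F (dhT N h) = ∑' n, gw' (fun _ => b) (GaT N) 0 n * F n := by
  classical
  rw [H513.tsum_gw', ← (pinEqv x₀).tsum_eq]
  have h1 := tsum_subtype {h : Tor N → ℤ | h x₀ = 0} (fun h => wT b N h * F (dhT N h))
  have e1 : ∀ h : Tor N → ℤ, pin (wT b N) x₀ h * F (dhT N h) =
      Set.indicator {h : Tor N → ℤ | h x₀ = 0} (fun h => wT b N h * F (dhT N h)) h := by
    intro h
    unfold H963.pin Set.indicator
    simp only [Set.mem_ofPred_eq]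
    split_ifs
    · rfl
    · rw [zero_mul]
  rw [tsum_congr e1, ← h1]
  refine tsum_congr fun h => ?_
  have e2 : ((pinEqv x₀ h : GaT N) : Ed N → ℤ) = dhT N h.1 := rfl
  rw [e2]
  congr 1
  rw [wT_dhT]
  unfold T1.H731.wt
  simp

/-- **exponential moments of the pinned massless heights** -/
theorem pin_mgf (hb : 0 ≤ b) (x₀ : Tor N) (j : Ed N → ℝ) :
    ∑' h, pin (wT b N) x₀ h * Real.exp (ip j (dhT N h)) ≤
      Real.exp (b * ∑ e, (Real.cosh (j e) - 1)) * ∑' h, pin (wT b N) x₀ h := by
  have h1 := tsum_pinT (b := b) x₀ (fun n => Real.exp (ip j n))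
  have h2 := tsum_pinT (b := b) x₀ (fun _ => 1)
  simp only [mul_one] at h2
  rw [h1, h2]
  have h3 := H513.rat_bare (J := fun _ : Ed N => b) (fun _ => hb) (Γ := GaT N) GaT_half j
  unfold H513.rat at h3
  rw [div_le_iff₀ (H513.SG_pos (fun _ => hb) _ _), H513.SG_eq, H513.SG_eq] at h3
  rw [Finset.mul_sum]
  refine le_trans (le_of_eq ?_) h3
  exact tsum_congr fun n => (H513.gw'_tilt _ _ _ _).symm

end heights

end

end Vale.Agent.P159.H883
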