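import Mathlib

/-!
P159 (helper883), module PRC (1): prices in rough backgrounds, abstract part.

`G` the group of data (dislocation, real source), `ι : E →+ G` the real data, `g : G → ℝ` the
non-quadratic part of `log Z / Z(0)`. Ginibre is `2 g X + 2 g Y ≤ g (X + Y) + g (X - Y)`.

* `Tp g X Y = g (X+Y) + g (X-Y) - 2 g X - 2 g Y ≥ 0`,
* `Eng.Tp_rough` : **rough backgrounds are free**: the price at `X + P`, `Y + Q` is bounded by the
  numbers at `X`, `Y` and the numbers at `P`, `Q`;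
* `Eng.Td_rough` : `T^D (X + F) ≤ g (4X) / 2 - 8 g X + R (4F) / 2`,
* `Eng.delta_le` : the energy at zero background from one typical background,
* `Eng.amp_le`, `Eng.low`, `Eng.lip_le`, `Eng.lip_ge`.
-/

open Finset

namespace Vale.Agent.P159.H883

variable {G E : Type*} [AddCommGroup G] [AddCommGroup E] [Module ℝ E]

/-- non-quadratic part of the logarithm of a partition function of the duplication class -/
structure Eng (ι : E →+ G) (g : G → ℝ) : Prop where
  gin : ∀ X Y, 2 * g X + 2 * g Y ≤ g (X + Y) + g (X - Y)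
  zero : g 0 = 0
  cvx : ∀ X, ConvexOn ℝ Set.univ fun F => g (X + ι F)

/-- the price -/
def Tp (g : G → ℝ) (X Y : G) : ℝ := g (X + Y) + g (X - Y) - 2 * g X - 2 * g Y

variable {ι : E →+ G} {g : G → ℝ}

theorem Eng.neg (h : Eng ι g) (X : G) : g (-X) = g X := by
  have h1 := h.gin 0 X
  have h2 := h.gin 0 (-X)
  simp only [zero_add, zero_sub, neg_neg, h.zero, mul_zero] at h1 h2
  linarith

theorem Eng.cv (h : Eng ι g) (X : G) (F H : E) {a b : ℝ} (ha : 0 ≤ a) (hb : 0 ≤ b)
    (hab : a + b = 1) : g (X + ι (a • F + b • H)) ≤ a * g (X + ι F) + b * g (X + ι H) :=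
  (h.cvx X).2 (Set.mem_univ F) (Set.mem_univ H) ha hb hab

theorem Eng.R_nonneg (h : Eng ι g) (F : E) : 0 ≤ g (ι F) := by
  have h1 := h.cv 0 F (-F) (a := 1 / 2) (b := 1 / 2) (by norm_num) (by norm_num) (by norm_num)
  have e : (1 / 2 : ℝ) • F + (1 / 2 : ℝ) • -F = 0 := by module
  rw [e] at h1
  simp only [zero_add, map_zero, h.zero, map_neg, h.neg] at h1
  linarith

theorem Eng.Tp_nonneg (h : Eng ι g) (X Y : G) : 0 ≤ Tp g X Y := by
  have := h.gin X Y
  unfold Tp
  linarith

/-- **upper bound of the symmetric pair** -/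
theorem Eng.sym_le (h : Eng ι g) (X Y : G) :
    g (X + Y) + g (X - Y) ≤ g (X + X) / 2 + g (Y + Y) / 2 := by
  have h1 := h.gin (X + Y) (X - Y)
  have e1 : X + Y + (X - Y) = X + X := by abel
  have e2 : X + Y - (X - Y) = Y + Y := by abel
  rw [e1, e2] at h1
  linarith

/-- **rough backgrounds are free** (general form: four arbitrary group elements) -/
theorem Eng.Tp_rough (h : Eng ι g) (X Y P Q : G) :
    Tp g (X + P) (Y + Q) ≤ g (X + Y + (X + Y)) / 2 + g (X - Y + (X - Y)) / 2 - 4 * g X - 4 * g Y +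
      (g (P + Q + (P + Q)) / 2 + g (P - Q + (P - Q)) / 2 - 4 * g P - 4 * g Q) := by
  have h0 := h.Tp_nonneg (X - P) (Y - Q)
  unfold Tp at h0 ⊢
  have s1 := h.sym_le (X + Y) (P + Q)
  have s2 := h.sym_le (X - Y) (P - Q)
  have l1 := h.gin X P
  have l2 := h.gin Y Q
  have e1 : X + P + (Y + Q) = X + Y + (P + Q) := by abel
  have e2 : X + P - (Y + Q) = X - Y + (P - Q) := by abel
  have e3 : X - P + (Y - Q) = X + Y - (P + Q) := by abel
  have e4 : X - P - (Y - Q) = X - Y - (P - Q) := by abel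
  rw [e3, e4] at h0
  rw [e1, e2]
  linarith

/-- rough real backgrounds -/
theorem Eng.Tp_real (h : Eng ι g) (X Y : G) (F F' : E) :
    Tp g (X + ι F) (Y + ι F') ≤
      g (X + Y + (X + Y)) / 2 + g (X - Y + (X - Y)) / 2 - 4 * g X - 4 * g Y +
      (g (ι (F + F' + (F + F'))) / 2 + g (ι (F - F' + (F - F'))) / 2) := by
  have h1 := h.Tp_rough X Y (ι F) (ι F')
  have h2 := h.R_nonneg F
  have h3 := h.R_nonneg F'
  simp only [map_add, map_sub] at h1 ⊢
  linarith

/-- the same rough background for both -/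
theorem Eng.Tp_same (h : Eng ι g) (X Y : G) (F : E) :
    Tp g (X + ι F) (Y + ι F) ≤
      g (X + Y + (X + Y)) / 2 + g (X - Y + (X - Y)) / 2 - 4 * g X - 4 * g Y +
      g (ι ((4 : ℝ) • F)) / 2 := by
  have h1 := h.Tp_real X Y F F
  have e1 : F + F + (F + F) = (4 : ℝ) • F := by module
  have e2 : F - F + (F - F) = 0 := by abel
  rw [e1, e2, map_zero, h.zero] at h1
  linarith

/-- `T^D` at a rough background -/
theorem Eng.Td_rough (h : Eng ι g) (X : G) (F : E) :
    g (X + ι F + (X + ι F)) - 4 * g (X + ι F) ≤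
      g (X + X + (X + X)) / 2 - 8 * g X + g (ι ((4 : ℝ) • F)) / 2 := by
  have h1 := h.Tp_same X X F
  unfold Tp at h1
  simp only [sub_self, h.zero, add_zero, zero_div] at h1
  linarith

/-- lower bound of the symmetric pair (real) -/
theorem Eng.sym_ge (h : Eng ι g) (X : G) (F : E) : 2 * g X ≤ g (X + ι F) + g (X - ι F) := by
  have h1 := h.gin X (ι F)
  have h2 := h.R_nonneg F
  linarith

theorem Eng.sym_le' (h : Eng ι g) (X : G) (F : E) :
    g (X + ι F) + g (X - ι F) ≤ g (X + X) / 2 + g (ι ((2 : ℝ) • F)) / 2 := by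
  have h1 := h.sym_le X (ι F)
  have e : ι F + ι F = ι ((2 : ℝ) • F) := by rw [← map_add, two_smul]
  rw [e] at h1
  exact h1

/-- convexity along a ray, `s ≥ 1` -/
theorem Eng.ray (h : Eng ι g) (X : G) (F : E) {s : ℝ} (hs : 1 ≤ s) :
    s * (g (X + ι F) - g X) ≤ g (X + ι (s • F)) - g X := by
  have hs0 : 0 < s := by linarith
  have h1 := h.cv X 0 (s • F) (a := 1 - 1 / s) (b := 1 / s)
    (by rw [sub_nonneg, div_le_one hs0]; exact hs) (by positivity) (by ring)
  have e : (1 - 1 / s) • (0 : E) + (1 / s) • s • F = F := by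
    rw [smul_zero, zero_add, smul_smul, one_div, inv_mul_cancel₀ hs0.ne', one_smul]
  rw [e] at h1
  simp only [map_zero, add_zero] at h1
  have h2 := mul_le_mul_of_nonneg_left h1 hs0.le
  have e2 : s * ((1 - 1 / s) * g X + 1 / s * g (X + ι (s • F))) =
      s * g X - g X + g (X + ι (s • F)) := by field_simp
  rw [e2] at h2
  linarith

/-- convexity along a ray, general base point -/
theorem Eng.ray' (h : Eng ι g) (X : G) (F H : E) {s : ℝ} (hs : 1 ≤ s) :
    s * (g (X + ι (F + H)) - g (X + ι F)) ≤ g (X + ι (F + s • H)) - g (X + ι F) := by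
  have h1 := h.ray (X + ι F) H hs
  rw [map_add, map_add, ← add_assoc, ← add_assoc]
  exact h1

/-- **the energy at zero background from one typical background**:
`2 (s - 1) Δ ≤ 2 s λ + κ + R(2sF) / 2` -/
theorem Eng.delta_le (h : Eng ι g) (X : G) (F : E) {s lc lam kap : ℝ} (hs : 1 ≤ s)
    (hκ : g (X + X) ≤ 4 * lc + 2 * kap) (h1 : lc - lam ≤ g (X + ι F))
    (h2 : lc - lam ≤ g (X - ι F)) :
    2 * (s - 1) * (lc - g X) ≤ 2 * s * lam + kap + g (ι ((2 * s) • F)) / 2 := by
  have r1 := h.ray X F hs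
  have r2 := h.ray X (-F) hs
  have u := h.sym_le' X (s • F)
  rw [smul_smul] at u
  rw [map_neg, ← sub_eq_add_neg, smul_neg, map_neg, ← sub_eq_add_neg] at r2
  have a1 : s * (lc - lam - g X) ≤ s * (g (X + ι F) - g X) :=
    mul_le_mul_of_nonneg_left (by linarith) (by linarith)
  have a2 : s * (lc - lam - g X) ≤ s * (g (X - ι F) - g X) :=
    mul_le_mul_of_nonneg_left (by linarith) (by linarith)
  nlinarith

/-- lower bound from the upper bound of the opposite background -/
theorem Eng.low (h : Eng ι g) (X : G) (F : E) {u : ℝ} (h2 : g (X - ι F) ≤ u) :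
    2 * g X - u ≤ g (X + ι F) := by
  have := h.sym_ge X F
  linarith

/-- **amplitude**: from the amplitude `1` to the amplitude `s` -/
theorem Eng.amp_le (h : Eng ι g) (X : G) (F : E) {s lc lam kap del : ℝ} (hs : 1 ≤ s)
    (hκ : g (X + X) ≤ 4 * lc + 2 * kap) (hd : lc - del ≤ g X) (h1 : g (X + ι F) ≤ lc + lam) :
    g (X + ι (s • F)) ≤ lc + kap + del + s * (del + lam) + g (ι ((2 * s) • F)) / 2 := by
  have u := h.sym_le' X (s • F)
  rw [smul_smul] at u
  have r2 := h.ray X (-F) hs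
  rw [map_neg, ← sub_eq_add_neg, smul_neg, map_neg, ← sub_eq_add_neg] at r2
  have l := h.sym_ge X F
  have a2 : s * (-del - lam) ≤ s * (g (X - ι F) - g X) :=
    mul_le_mul_of_nonneg_left (by linarith) (by linarith)
  nlinarith

/-- small real changes: upper bound -/
theorem Eng.lip_le (h : Eng ι g) (X : G) (F H : E) {s a u : ℝ} (hs : 1 ≤ s)
    (ha : a ≤ g (X + ι F)) (hu : g (X + ι (F + s • H)) ≤ u) :
    g (X + ι (F + H)) - g (X + ι F) ≤ (u - a) / s := by
  have h1 := h.ray' X F H hs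
  rw [le_div_iff₀ (by linarith), mul_comm]
  linarith

/-- small real changes: lower bound -/
theorem Eng.lip_ge (h : Eng ι g) (X : G) (F H : E) {s a u : ℝ} (hs : 1 ≤ s)
    (ha : a ≤ g (X + ι F)) (hu : g (X + ι (F - s • H)) ≤ u) :
    -((u - a) / s) ≤ g (X + ι (F + H)) - g (X + ι F) := by
  have h0 := h.cv X (F + H) (F - H) (a := 1 / 2) (b := 1 / 2) (by norm_num) (by norm_num)
    (by norm_num)
  have e : (1 / 2 : ℝ) • (F + H) + (1 / 2 : ℝ) • (F - H) = F := by module
  rw [e] at h0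
  have e2 : F - s • H = F + s • (-H) := by rw [smul_neg, sub_eq_add_neg]
  rw [e2] at hu
  have h1 := h.lip_le X F (-H) hs ha hu
  rw [← sub_eq_add_neg] at h1
  linarith

end Vale.Agent.P159.H883
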