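import Vale.Agent.P159.H883.Prc1

/-!
P159 (helper883), module PRC (3): **rough fields are invisible** (INV).

`eN ι g S X ζ = g (2X) / 2 - 2 g X + R (2 S ζ) / 2` is a crude number (only used divided by `S`).

* `Eng.even_S` : the even part of `s ↦ g (X + s ζ)` at `S`,
* `near_aff` : a combination of convex functions with small even parts which is bounded below at
  `-S` does not grow from `0` to `1` (chessboard form),
* **`Eng.inv`** : `Tp (X + ζ₁) (Y + ζ₂) ≤ Tp X Y + (Tp X Y + e + e + 2 e + 2 e) / S`,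
* `Eng.mix_le` : the slope in the direction `ζ` at two base points,
* `Eng.mix_abs` : for base points which differ by a real field,
* `Eng.mid_ge` : from `X ± ζ` to `X`.
-/

open Finset

namespace Vale.Agent.P159.H883

variable {G E : Type*} [AddCommGroup G] [AddCommGroup E] [Module ℝ E] {ι : E →+ G} {g : G → ℝ}

/-- the crude number -/
noncomputable def eN (ι : E →+ G) (g : G → ℝ) (S : ℝ) (X : G) (ζ : E) : ℝ :=
  g (X + X) / 2 - 2 * g X + g (ι ((2 * S) • ζ)) / 2

/-- the even part at `S` -/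
theorem Eng.even_S (h : Eng ι g) (S : ℝ) (X : G) (ζ : E) :
    g (X + ι (S • ζ)) + g (X - ι (S • ζ)) - 2 * g X ≤ eN ι g S X ζ := by
  have h1 := h.sym_le' X (S • ζ)
  rw [smul_smul] at h1
  unfold eN
  linarith

theorem Eng.eN_nonneg (h : Eng ι g) (S : ℝ) (X : G) (ζ : E) : 0 ≤ eN ι g S X ζ := by
  have h1 := h.even_S S X ζ
  have h2 := h.sym_ge X (S • ζ)
  linarith

/-- the even part at `1` -/
theorem Eng.even_one (h : Eng ι g) {S : ℝ} (hS : 1 ≤ S) (X : G) (ζ : E) :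
    g (X + ι ζ) + g (X - ι ζ) - 2 * g X ≤ eN ι g S X ζ / S := by
  have h1 := h.even_S S X ζ
  have r1 := h.ray X ζ hS
  have r2 := h.ray X (-ζ) hS
  rw [map_neg, ← sub_eq_add_neg, smul_neg, map_neg, ← sub_eq_add_neg] at r2
  rw [le_div_iff₀ (by linarith)]
  nlinarith

/-- lower bound along a ray -/
theorem Eng.ray_ge (h : Eng ι g) (X : G) (ζ : E) {S : ℝ} (hS : 1 ≤ S) :
    g X - g (X - ι (S • ζ)) ≤ S * (g (X + ι ζ) - g X) := by
  have r2 := h.ray X (-ζ) hS
  rw [map_neg, ← sub_eq_add_neg, smul_neg, map_neg, ← sub_eq_add_neg] at r2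
  have h2 := h.sym_ge X ζ
  nlinarith

/-- **INV: rough fields are invisible in the price** -/
theorem Eng.inv (h : Eng ι g) (X Y : G) (ζ₁ ζ₂ : E) {S : ℝ} (hS : 1 ≤ S) :
    Tp g (X + ι ζ₁) (Y + ι ζ₂) ≤ Tp g X Y +
      (Tp g X Y + eN ι g S (X + Y) (ζ₁ + ζ₂) + eN ι g S (X - Y) (ζ₁ - ζ₂) +
        2 * eN ι g S X ζ₁ + 2 * eN ι g S Y ζ₂) / S := by
  have hS0 : 0 < S := by linarith
  have a1 := h.ray (X + Y) (ζ₁ + ζ₂) hS
  have a2 := h.ray (X - Y) (ζ₁ - ζ₂) hS
  have c1 := h.ray_ge X ζ₁ hS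
  have c2 := h.ray_ge Y ζ₂ hS
  have e1 := h.even_S S (X + Y) (ζ₁ + ζ₂)
  have e2 := h.even_S S (X - Y) (ζ₁ - ζ₂)
  have e3 := h.even_S S X ζ₁
  have e4 := h.even_S S Y ζ₂
  have l1 := h.sym_ge X (S • ζ₁)
  have l2 := h.sym_ge Y (S • ζ₂)
  have hn := h.Tp_nonneg (X - ι (S • ζ₁)) (Y - ι (S • ζ₂))
  unfold Tp at hn
  have q1 : X - ι (S • ζ₁) + (Y - ι (S • ζ₂)) = X + Y - ι (S • (ζ₁ + ζ₂)) := by
    rw [smul_add, map_add]; abel
  have q2 : X - ι (S • ζ₁) - (Y - ι (S • ζ₂)) = X - Y - ι (S • (ζ₁ - ζ₂)) := by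
    rw [smul_sub, map_sub]; abel
  rw [q1, q2] at hn
  have q3 : X + ι ζ₁ + (Y + ι ζ₂) = X + Y + ι (ζ₁ + ζ₂) := by rw [map_add]; abel
  have q4 : X + ι ζ₁ - (Y + ι ζ₂) = X - Y + ι (ζ₁ - ζ₂) := by rw [map_sub]; abel
  have key : S * (Tp g (X + ι ζ₁) (Y + ι ζ₂) - Tp g X Y) ≤
      Tp g X Y + eN ι g S (X + Y) (ζ₁ + ζ₂) + eN ι g S (X - Y) (ζ₁ - ζ₂) +
        2 * eN ι g S X ζ₁ + 2 * eN ι g S Y ζ₂ := by
    unfold Tp
    rw [q3, q4]
    nlinarith
  have h2 : Tp g (X + ι ζ₁) (Y + ι ζ₂) - Tp g X Y ≤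
      (Tp g X Y + eN ι g S (X + Y) (ζ₁ + ζ₂) + eN ι g S (X - Y) (ζ₁ - ζ₂) +
        2 * eN ι g S X ζ₁ + 2 * eN ι g S Y ζ₂) / S := by
    rw [le_div_iff₀ hS0, mul_comm]
    exact key
  linarith

lemma cvx_le {F : ℝ → ℝ} (h : ConvexOn ℝ Set.univ F) (x y : ℝ) {a b : ℝ} (ha : 0 ≤ a) (hb : 0 ≤ b)
    (hab : a + b = 1) : F (a * x + b * y) ≤ a * F x + b * F y := by
  have := h.2 (Set.mem_univ x) (Set.mem_univ y) ha hb hab
  simpa only [smul_eq_mul] using this

/-- **general form for combinations of convex functions** (chessboard prices) -/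
theorem near_aff {I : Type*} (s : Finset I) (c e : I → ℝ) (F : I → ℝ → ℝ)
    (hF : ∀ i ∈ s, ConvexOn ℝ Set.univ (F i)) {S δ : ℝ} (hS : 1 ≤ S)
    (he : ∀ i ∈ s, F i S + F i (-S) ≤ 2 * F i 0 + e i)
    (hδ : -δ ≤ ∑ i ∈ s, c i * F i (-S)) :
    ∑ i ∈ s, c i * F i 1 ≤ ∑ i ∈ s, c i * F i 0 +
      (∑ i ∈ s, c i * F i 0 + δ + 2 * ∑ i ∈ s, |c i| * e i) / S := by
  have hS0 : 0 < S := by linarith
  -- bounds of each function
  have key : ∀ i ∈ s, c i * F i 1 ≤ c i * F i 0 + (c i * F i S - c i * F i 0 + |c i| * e i) / S ∧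
      c i * F i S + c i * F i (-S) ≤ 2 * (c i * F i 0) + |c i| * e i := by
    intro i hi
    have hc := hF i hi
    have k1 : F i 1 ≤ (1 - 1 / S) * F i 0 + 1 / S * F i S := by
      have := cvx_le hc 0 S (a := 1 - 1 / S) (b := 1 / S)
        (by rw [sub_nonneg, div_le_one hS0]; exact hS) (by positivity) (by ring)
      have e0 : (1 - 1 / S) * 0 + 1 / S * S = 1 := by field_simp; ring
      rwa [e0] at this
    have k2 : F i (-1) ≤ (1 - 1 / S) * F i 0 + 1 / S * F i (-S) := by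
      have := cvx_le hc 0 (-S) (a := 1 - 1 / S) (b := 1 / S)
        (by rw [sub_nonneg, div_le_one hS0]; exact hS) (by positivity) (by ring)
      have e0 : (1 - 1 / S) * 0 + 1 / S * -S = -1 := by field_simp; ring
      rwa [e0] at this
    have k3 : 2 * F i 0 ≤ F i 1 + F i (-1) := by
      have := cvx_le hc 1 (-1) (a := 1 / 2) (b := 1 / 2)
        (by norm_num) (by norm_num) (by norm_num)
      have e0 : (1 : ℝ) / 2 * 1 + 1 / 2 * -1 = 0 := by norm_num
      rw [e0] at this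
      linarith
    have k4 : 2 * F i 0 ≤ F i S + F i (-S) := by
      have := cvx_le hc S (-S) (a := 1 / 2) (b := 1 / 2)
        (by norm_num) (by norm_num) (by norm_num)
      have e0 : 1 / 2 * S + 1 / 2 * -S = 0 := by ring
      rw [e0] at this
      linarith
    have k5 := he i hi
    have ei : 0 ≤ e i := by linarith
    set a := F i 1 - F i 0 - (F i S - F i 0) / S with ha
    have p1 : a ≤ 0 := by
      rw [ha]
      have : (F i S - F i 0) / S = 1 / S * F i S - 1 / S * F i 0 := by ring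
      rw [this]
      linarith
    have p2 : -(e i / S) ≤ a := by
      rw [ha]
      have t1 : (F i S - F i 0) / S = 1 / S * F i S - 1 / S * F i 0 := by ring
      have t2 : e i / S = 1 / S * e i := by ring
      rw [t1, t2]
      have t3 : 1 / S * (F i S + F i (-S)) ≤ 1 / S * (2 * F i 0 + e i) :=
        mul_le_mul_of_nonneg_left k5 (by positivity)
      nlinarith
    have p3 : |a| ≤ e i / S := by
      rw [abs_of_nonpos p1]
      linarith
    constructor
    · have t : c i * F i 1 = c i * F i 0 + (c i * F i S - c i * F i 0) / S + c i * a := by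
        rw [ha]
        ring
      have t2 : c i * a ≤ |c i| * e i / S := by
        calc c i * a ≤ |c i * a| := le_abs_self _
          _ = |c i| * |a| := abs_mul _ _
          _ ≤ |c i| * (e i / S) := mul_le_mul_of_nonneg_left p3 (abs_nonneg _)
          _ = |c i| * e i / S := by ring
      rw [t, add_div]
      linarith
    · have t1 : |F i S + F i (-S) - 2 * F i 0| ≤ e i := by
        rw [abs_of_nonneg (by linarith)]
        linarith
      have t2 : c i * (F i S + F i (-S) - 2 * F i 0) ≤ |c i| * e i :=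
        calc c i * (F i S + F i (-S) - 2 * F i 0) ≤ |c i * (F i S + F i (-S) - 2 * F i 0)| :=
              le_abs_self _
          _ = |c i| * |F i S + F i (-S) - 2 * F i 0| := abs_mul _ _
          _ ≤ |c i| * e i := mul_le_mul_of_nonneg_left t1 (abs_nonneg _)
      linarith
  have s1 := Finset.sum_le_sum fun i hi => (key i hi).1
  have s2 := Finset.sum_le_sum fun i hi => (key i hi).2
  rw [Finset.sum_add_distrib, ← Finset.sum_div, Finset.sum_add_distrib, Finset.sum_sub_distrib]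
    at s1
  rw [Finset.sum_add_distrib, Finset.sum_add_distrib, ← Finset.mul_sum] at s2
  refine s1.trans ?_
  rw [add_le_add_iff_left]
  refine div_le_div_of_nonneg_right ?_ hS0.le
  linarith

/-- **the slope in the direction `ζ` at two base points** -/
theorem Eng.mix_le (h : Eng ι g) (X Y : G) (ζ : E) {S : ℝ} (hS : 1 ≤ S) :
    g (X + ι ζ) - g X - (g (Y + ι ζ) - g Y) ≤
      (g (X + Y) / 2 + g (X - Y + ι ((2 * S) • ζ)) / 2 - g X - g Y) / S := by
  have hS0 : 0 < S := by linarith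
  have r1 := h.ray X ζ hS
  have r2 := h.ray_ge Y ζ hS
  have h1 := h.gin (X + ι (S • ζ)) (Y - ι (S • ζ))
  have e1 : X + ι (S • ζ) + (Y - ι (S • ζ)) = X + Y := by abel
  have e2 : X + ι (S • ζ) - (Y - ι (S • ζ)) = X - Y + ι ((2 * S) • ζ) := by
    have : (2 * S) • ζ = S • ζ + S • ζ := by rw [← add_smul]; congr 1; ring
    rw [this, map_add]
    abel
  rw [e1, e2] at h1
  rw [le_div_iff₀ hS0]
  nlinarith

/-- base points which differ by a real field -/
theorem Eng.mix_abs (h : Eng ι g) (X : G) (f ζ : E) {S : ℝ} (hS : 1 ≤ S) :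
    |g (X + ι (f + ζ)) - g (X + ι f) - (g (X + ι ζ) - g X)| ≤
      (g (X + X + ι f) / 2 + (g (ι (f + (2 * S) • ζ)) + g (ι (f - (2 * S) • ζ))) / 2 -
        g (X + ι f) - g X) / S := by
  have hS0 : 0 < S := by linarith
  have h1 := h.mix_le (X + ι f) X ζ hS
  have h2 := h.mix_le X (X + ι f) ζ hS
  have e1 : X + ι f + ι ζ = X + ι (f + ζ) := by rw [map_add]; abel
  have e2 : X + ι f + X = X + X + ι f := by abel
  have e3 : X + ι f - X + ι ((2 * S) • ζ) = ι (f + (2 * S) • ζ) := by rw [map_add]; abel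
  have e4 : X + (X + ι f) = X + X + ι f := by abel
  have e5 : X - (X + ι f) + ι ((2 * S) • ζ) = -ι (f - (2 * S) • ζ) := by rw [map_sub]; abel
  rw [e1, e2, e3] at h1
  rw [e1, e4, e5, h.neg] at h2
  have r1 := h.R_nonneg (f + (2 * S) • ζ)
  have r2 := h.R_nonneg (f - (2 * S) • ζ)
  rw [abs_le]
  constructor
  · have h3 : (g (X + X + ι f) / 2 + g (ι (f - (2 * S) • ζ)) / 2 - g X - g (X + ι f)) / S ≤
        (g (X + X + ι f) / 2 + (g (ι (f + (2 * S) • ζ)) + g (ι (f - (2 * S) • ζ))) / 2 -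
          g (X + ι f) - g X) / S :=
      div_le_div_of_nonneg_right (by linarith) hS0.le
    linarith
  · have h3 : (g (X + X + ι f) / 2 + g (ι (f + (2 * S) • ζ)) / 2 - g (X + ι f) - g X) / S ≤
        (g (X + X + ι f) / 2 + (g (ι (f + (2 * S) • ζ)) + g (ι (f - (2 * S) • ζ))) / 2 -
          g (X + ι f) - g X) / S :=
      div_le_div_of_nonneg_right (by linarith) hS0.le
    linarith

/-- from `X ± ζ` to `X` -/
theorem Eng.mid_ge (h : Eng ι g) {S a : ℝ} (hS : 1 ≤ S) (X : G) (ζ : E)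
    (h1 : a ≤ g (X + ι ζ)) (h2 : a ≤ g (X - ι ζ)) : a - eN ι g S X ζ / (2 * S) ≤ g X := by
  have h3 := h.even_one hS X ζ
  have hS0 : 0 < S := by linarith
  have e : eN ι g S X ζ / (2 * S) = eN ι g S X ζ / S / 2 := by
    field_simp
  rw [e]
  linarith

/-- from `X` to `X ± ζ`, one of the two signs -/
theorem Eng.near_pair (h : Eng ι g) {S : ℝ} (hS : 1 ≤ S) (X : G) (ζ : E) :
    2 * g X ≤ g (X + ι ζ) + g (X - ι ζ) ∧
      g (X + ι ζ) + g (X - ι ζ) ≤ 2 * g X + eN ι g S X ζ / S :=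
  ⟨h.sym_ge X ζ, by linarith [h.even_one hS X ζ]⟩

/-- the number `Δ` from a background with a rough part:
`a ≤ g (X + f ± ζ)` and the opposite point `2 f - F₁` give the lower bound at `F₁` -/
theorem Eng.low_rough (h : Eng ι g) {S a u : ℝ} (hS : 1 ≤ S) (X : G) (f ζ F₁ : E)
    (h1 : a ≤ g (X + ι f + ι ζ)) (h2 : a ≤ g (X + ι f - ι ζ))
    (hu : g (X + ι ((2 : ℝ) • f - F₁)) ≤ u) :
    2 * a - eN ι g S (X + ι f) ζ / S - u ≤ g (X + ι F₁) := by
  have h3 := h.even_one hS (X + ι f) ζ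
  have h4 := h.sym_ge (X + ι f) (F₁ - f)
  have e1 : X + ι f + ι (F₁ - f) = X + ι F₁ := by rw [map_sub]; abel
  have e2 : X + ι f - ι (F₁ - f) = X + ι ((2 : ℝ) • f - F₁) := by
    rw [map_sub, map_sub, two_smul, map_add]; abel
  rw [e1, e2] at h4
  linarith

end Vale.Agent.P159.H883
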