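import Vale.Agent.P159.H883.Prc3

/-!
P159 (helper883), module PRC (4): **mixed differences of decorated corners** (27's 7205 (3)).

`lN ι g Y ζ = g (Y + ζ) - g Y` (nearly linear in a rough real `ζ`), `T4 g Y = g (4Y) / 2 - 8 g Y`
(a crude number, only used divided by `S`).

* `Eng.mix_real` : `|g (Y + f + ζ) - g (Y + f) - g (Y + ζ) + g Y| ≤ (T4 Y + 2 R(2f) + R(4Sζ)) / (2S)`
  for every real `f` (rough or not),
* **`Eng.deco`** : the mixed difference over four corners `Y a b` with decorations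
  `c a + ζ a` and `d b + ξ b` is the one with the coarse decorations `c a`, `d b` plus eight linear
  terms, up to `4 (K + 2 ρ + ρ') / S`,
* `Eng.lin_tan`, `Eng.lin_diff` : `lN` against a tangent (the mean of the source).
-/

open Finset

namespace Vale.Agent.P159.H883

variable {G E : Type*} [AddCommGroup G] [AddCommGroup E] [Module ℝ E] {ι : E →+ G} {g : G → ℝ}

/-- the increment in a real direction -/
noncomputable def lN (ι : E →+ G) (g : G → ℝ) (Y : G) (ζ : E) : ℝ := g (Y + ι ζ) - g Y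

/-- the crude number of the base -/
noncomputable def T4 (g : G → ℝ) (Y : G) : ℝ := g (Y + Y + (Y + Y)) / 2 - 8 * g Y

/-- mixed difference over two bits -/
def MD (F : Bool → Bool → ℝ) : ℝ := F true true - F true false - F false true + F false false

theorem Eng.R_half (h : Eng ι g) (f k : E) :
    g (ι (f + k)) ≤ (g (ι ((2 : ℝ) • f)) + g (ι ((2 : ℝ) • k))) / 2 := by
  have h1 := h.cv 0 ((2 : ℝ) • f) ((2 : ℝ) • k) (a := 1 / 2) (b := 1 / 2) (by norm_num)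
    (by norm_num) (by norm_num)
  have e : (1 / 2 : ℝ) • (2 : ℝ) • f + (1 / 2 : ℝ) • (2 : ℝ) • k = f + k := by module
  rw [e] at h1
  simp only [zero_add] at h1
  linarith

theorem Eng.R_neg (h : Eng ι g) (f : E) : g (ι (-f)) = g (ι f) := by
  rw [map_neg, h.neg]

/-- **every real background is nearly additive with a rough field** -/
theorem Eng.mix_real (h : Eng ι g) (Y : G) (f ζ : E) {S : ℝ} (hS : 1 ≤ S) :
    |g (Y + ι (f + ζ)) - g (Y + ι f) - (g (Y + ι ζ) - g Y)| ≤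
      (T4 g Y + 2 * g (ι ((2 : ℝ) • f)) + g (ι ((4 * S) • ζ))) / (2 * S) := by
  have hS0 : 0 < S := by linarith
  refine (h.mix_abs Y f ζ hS).trans ?_
  rw [div_le_div_iff₀ hS0 (by linarith)]
  have h1 := h.Tp_real Y Y f 0
  have e1 : Y - Y + (Y - Y) = 0 := by abel
  have e2 : f + 0 + (f + 0) = (2 : ℝ) • f := by module
  have e3 : f - 0 + (f - 0) = (2 : ℝ) • f := by module
  rw [e1, h.zero, e2, e3, map_zero, add_zero] at h1
  unfold Tp at h1
  have e4 : Y + ι f + Y = Y + Y + ι f := by abel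
  have e5 : Y + ι f - Y = ι f := by abel
  rw [e4, e5] at h1
  have h2 := h.R_nonneg f
  have h3 := h.R_half f ((2 * S) • ζ)
  have h4 := h.R_half f (-((2 * S) • ζ))
  have e6 : (2 : ℝ) • (2 * S) • ζ = (4 * S) • ζ := by
    rw [smul_smul]
    congr 1
    ring
  have e7 : (2 : ℝ) • -((2 * S) • ζ) = -((4 * S) • ζ) := by rw [smul_neg, e6]
  rw [e6] at h3
  rw [e7, h.R_neg, ← sub_eq_add_neg] at h4
  unfold T4
  nlinarith

theorem Eng.T4_nonneg (h : Eng ι g) (Y : G) : 0 ≤ T4 g Y := by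
  have h1 := h.gin Y Y
  have h2 := h.gin (Y + Y) (Y + Y)
  have e1 : Y - Y = 0 := sub_self Y
  have e2 : Y + Y - (Y + Y) = 0 := sub_self _
  rw [e1, h.zero] at h1
  rw [e2, h.zero] at h2
  unfold T4
  linarith

/-- one decorated corner -/
theorem Eng.corner (h : Eng ι g) {S K ρ ρ' : ℝ} (hS : 1 ≤ S) (Y : G) (c ζ d ξ : E)
    (hK : T4 g Y ≤ K) (hc : g (ι ((2 : ℝ) • (c + d))) ≤ ρ) (hξ : g (ι ((2 : ℝ) • ξ)) ≤ ρ)
    (hz : g (ι ((4 * S) • (ζ + ξ))) ≤ ρ') (hz1 : g (ι ((4 * S) • ζ)) ≤ ρ') :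
    |g (Y + ι (c + ζ + (d + ξ))) - g (Y + ι (c + d)) - lN ι g Y ζ - lN ι g Y ξ| ≤
      (K + 2 * ρ + ρ') / S := by
  have hS0 : 0 < S := by linarith
  have h1 := h.mix_real Y (c + d) (ζ + ξ) hS
  have h2 := h.mix_real Y ξ ζ hS
  have e1 : c + d + (ζ + ξ) = c + ζ + (d + ξ) := by abel
  have e2 : ξ + ζ = ζ + ξ := add_comm _ _
  rw [e1] at h1
  rw [e2] at h2
  have b1 : (T4 g Y + 2 * g (ι ((2 : ℝ) • (c + d))) + g (ι ((4 * S) • (ζ + ξ)))) / (2 * S) ≤
      (K + 2 * ρ + ρ') / (2 * S) := div_le_div_of_nonneg_right (by linarith) (by linarith)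
  have b2 : (T4 g Y + 2 * g (ι ((2 : ℝ) • ξ)) + g (ι ((4 * S) • ζ))) / (2 * S) ≤
      (K + 2 * ρ + ρ') / (2 * S) := div_le_div_of_nonneg_right (by linarith) (by linarith)
  have h3 := h1.trans b1
  have h4 := h2.trans b2
  have e3 : (K + 2 * ρ + ρ') / S = (K + 2 * ρ + ρ') / (2 * S) + (K + 2 * ρ + ρ') / (2 * S) := by
    field_simp
    ring
  rw [e3]
  unfold lN
  rw [abs_le] at h3 h4 ⊢
  constructor <;> linarith [h3.1, h3.2, h4.1, h4.2]

/-- **mixed difference of decorated corners** -/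
theorem Eng.deco (h : Eng ι g) {S K ρ ρ' : ℝ} (hS : 1 ≤ S) (Y : Bool → Bool → G)
    (c ζ d ξ : Bool → E) (hK : ∀ a b, T4 g (Y a b) ≤ K)
    (hc : ∀ a b, g (ι ((2 : ℝ) • (c a + d b))) ≤ ρ) (hξ : ∀ b, g (ι ((2 : ℝ) • ξ b)) ≤ ρ)
    (hz : ∀ a b, g (ι ((4 * S) • (ζ a + ξ b))) ≤ ρ') (hz1 : ∀ a, g (ι ((4 * S) • ζ a)) ≤ ρ') :
    |MD (fun a b => g (Y a b + ι (c a + ζ a + (d b + ξ b)))) -
        MD (fun a b => g (Y a b + ι (c a + d b))) -
        ((lN ι g (Y true true) (ζ true) - lN ι g (Y true false) (ζ true)) -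
          (lN ι g (Y false true) (ζ false) - lN ι g (Y false false) (ζ false)) +
          ((lN ι g (Y true true) (ξ true) - lN ι g (Y false true) (ξ true)) -
            (lN ι g (Y true false) (ξ false) - lN ι g (Y false false) (ξ false))))| ≤
      4 * (K + 2 * ρ + ρ') / S := by
  have h1 : ∀ a b, |g (Y a b + ι (c a + ζ a + (d b + ξ b))) - g (Y a b + ι (c a + d b)) -
      lN ι g (Y a b) (ζ a) - lN ι g (Y a b) (ξ b)| ≤ (K + 2 * ρ + ρ') / S := fun a b =>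
    h.corner hS (Y a b) (c a) (ζ a) (d b) (ξ b) (hK a b) (hc a b) (hξ b) (hz a b) (hz1 a)
  have a1 := abs_le.1 (h1 true true)
  have a2 := abs_le.1 (h1 true false)
  have a3 := abs_le.1 (h1 false true)
  have a4 := abs_le.1 (h1 false false)
  have e : 4 * (K + 2 * ρ + ρ') / S = 4 * ((K + 2 * ρ + ρ') / S) := by ring
  rw [e]
  unfold MD
  rw [abs_le]
  constructor <;> linarith [a1.1, a1.2, a2.1, a2.2, a3.1, a3.2, a4.1, a4.2]

/-- against a tangent `l` (`g (Y + s ζ) ≥ g Y + s l` at `s = 1, -1`) -/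
theorem Eng.lin_tan (h : Eng ι g) {S l : ℝ} (hS : 1 ≤ S) (Y : G) (ζ : E)
    (h1 : g Y + l ≤ g (Y + ι ζ)) (h2 : g Y - l ≤ g (Y - ι ζ)) :
    l ≤ lN ι g Y ζ ∧ lN ι g Y ζ ≤ l + eN ι g S Y ζ / S := by
  have h3 := h.even_one hS Y ζ
  unfold lN
  constructor <;> linarith

/-- the difference of two tangents -/
theorem Eng.lin_diff (h : Eng ι g) {S l l' K : ℝ} (hS : 1 ≤ S) (Y Y' : G) (ζ : E)
    (h1 : g Y + l ≤ g (Y + ι ζ)) (h2 : g Y - l ≤ g (Y - ι ζ))
    (h1' : g Y' + l' ≤ g (Y' + ι ζ)) (h2' : g Y' - l' ≤ g (Y' - ι ζ))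
    (hK : eN ι g S Y ζ ≤ K) (hK' : eN ι g S Y' ζ ≤ K) :
    |lN ι g Y' ζ - lN ι g Y ζ| ≤ |l' - l| + K / S := by
  have hS0 : 0 < S := by linarith
  have a1 := h.lin_tan hS Y ζ h1 h2
  have a2 := h.lin_tan hS Y' ζ h1' h2'
  have b1 : eN ι g S Y ζ / S ≤ K / S := div_le_div_of_nonneg_right hK hS0.le
  have b2 : eN ι g S Y' ζ / S ≤ K / S := div_le_div_of_nonneg_right hK' hS0.le
  have c1 := le_abs_self (l' - l)
  have c2 := neg_abs_le (l' - l)
  rw [abs_le]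
  constructor <;> linarith [a1.1, a1.2, a2.1, a2.2]

end Vale.Agent.P159.H883
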