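import Vale.Agent.P159.H883.Res

/-!
P159 / P#3 (helper883), part 3: the score of the main function `∑ u_x sin (2π m_x)`, `m = B g`, after
projection on the linear functions, under a law of density `ρ` with respect to the Gaussian law,
`‖ρ - 1‖_{L²} ≤ η`.
-/

namespace Vale.Agent.P159.H883

open MeasureTheory ProbabilityTheory Finset Matrix
open Vale.Agent.P159.H37 (gau qf)
open scoped Real

noncomputable section

variable {I : Type*} [Fintype I] {Λ : Type*} [Fintype Λ]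

/-- the kernel of the residual sine field, in terms of the covariance matrix `Γ` of `m` -/
def RK (Γ : Matrix Λ Λ ℝ) : Matrix Λ Λ ℝ := Matrix.of fun x y => rk (Γ x x) (Γ y y) (Γ x y)

omit [Fintype Λ] in
lemma cov_eq (B : Matrix Λ I ℝ) (x y : Λ) : (B * Bᵀ) x y = ln (B x) (B y) := rfl

/-- `∑ u_x sin (2π m_x)` -/
def sU (B : Matrix Λ I ℝ) (u : Λ → ℝ) (g : I → ℝ) : ℝ := ∑ x, u x * Real.sin (2 * π * (B *ᵥ g) x)

/-- its residual -/
def rU (B : Matrix Λ I ℝ) (u : Λ → ℝ) (g : I → ℝ) : ℝ := ∑ x, u x * res (B x) g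

/-- the coefficients of its linear part -/
def cU (B : Matrix Λ I ℝ) (u : Λ → ℝ) : I → ℝ :=
  ∑ x, (u x * (2 * π * Real.exp (-(2 * π ^ 2 * (B * Bᵀ) x x)))) • B x

lemma sU_eq (B : Matrix Λ I ℝ) (u : Λ → ℝ) (g : I → ℝ) : sU B u g = rU B u g + ln (cU B u) g := by
  unfold sU rU cU
  rw [ln_sum_left, ← Finset.sum_add_distrib]
  refine Finset.sum_congr rfl fun x _ => ?_
  rw [ln_smul_left, cov_eq]
  unfold res
  have : (B *ᵥ g) x = ln (B x) g := rfl
  rw [this]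
  ring

lemma xg_rU (B : Matrix Λ I ℝ) (u : Λ → ℝ) : XG (rU B u) :=
  XG.sum _ fun x _ => (xg_res (B x)).const_mul _

lemma xg_sU (B : Matrix Λ I ℝ) (u : Λ → ℝ) : XG (sU B u) :=
  XG.sum _ fun x _ => (xg_sin2 (B x)).const_mul _

lemma rU_ln (B : Matrix Λ I ℝ) (u : Λ → ℝ) (v : I → ℝ) : ∫ g, rU B u g * ln v g ∂(gau I) = 0 := by
  have e : ∀ g : I → ℝ, rU B u g * ln v g = ∑ x, u x * (res (B x) g * ln v g) := by
    intro g
    unfold rU
    rw [Finset.sum_mul]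
    exact Finset.sum_congr rfl fun x _ => by ring
  simp only [e]
  rw [integral_finsetSum _ fun x _ => (((xg_res (B x)).mul (xg_ln v)).const_mul _).int]
  refine Finset.sum_eq_zero fun x _ => ?_
  rw [integral_const_mul, res_ln, mul_zero]

/-- **variance of the residual** -/
theorem rU_sq (B : Matrix Λ I ℝ) (u : Λ → ℝ) :
    ∫ g, rU B u g ^ 2 ∂(gau I) = qf (RK (B * Bᵀ)) u := by
  have e : ∀ g : I → ℝ, rU B u g ^ 2 = ∑ x, ∑ y, (u x * u y) * (res (B x) g * res (B y) g) := by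
    intro g
    unfold rU
    rw [sq, Finset.sum_mul_sum]
    exact Finset.sum_congr rfl fun x _ => Finset.sum_congr rfl fun y _ => by ring
  simp only [e]
  rw [integral_finsetSum _ fun x _ => (XG.sum _ fun y _ =>
    ((xg_res (B x)).mul (xg_res (B y))).const_mul _).int]
  unfold qf
  refine Finset.sum_congr rfl fun x _ => ?_
  rw [integral_finsetSum _ fun y _ => (((xg_res (B x)).mul (xg_res (B y))).const_mul _).int]
  refine Finset.sum_congr rfl fun y _ => ?_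
  rw [integral_const_mul, res_res]
  simp only [RK, Matrix.of_apply, cov_eq]
  ring

lemma four_sum (u r : Λ → ℝ) : (∑ x, u x * r x) ^ 4 ≤ (∑ x, |u x|) ^ 3 * ∑ x, |u x| * r x ^ 4 := by
  have h1 : (∑ x, u x * r x) ^ 2 ≤ (∑ x, |u x|) * ∑ x, |u x| * r x ^ 2 := by
    refine Finset.sum_sq_le_sum_mul_sum_of_sq_le_mul _ (fun x _ => abs_nonneg _)
      (fun x _ => by positivity) fun x _ => le_of_eq ?_
    rw [mul_pow, ← sq_abs (u x)]
    ring
  have h2 : (∑ x, |u x| * r x ^ 2) ^ 2 ≤ (∑ x, |u x|) * ∑ x, |u x| * r x ^ 4 := by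
    refine Finset.sum_sq_le_sum_mul_sum_of_sq_le_mul _ (fun x _ => abs_nonneg _)
      (fun x _ => by positivity) fun x _ => le_of_eq ?_
    ring
  have hU : 0 ≤ ∑ x, |u x| := Finset.sum_nonneg fun _ _ => abs_nonneg _
  calc (∑ x, u x * r x) ^ 4 = ((∑ x, u x * r x) ^ 2) ^ 2 := by ring
    _ ≤ ((∑ x, |u x|) * ∑ x, |u x| * r x ^ 2) ^ 2 := pow_le_pow_left₀ (sq_nonneg _) h1 2
    _ = (∑ x, |u x|) ^ 2 * (∑ x, |u x| * r x ^ 2) ^ 2 := by ring
    _ ≤ (∑ x, |u x|) ^ 2 * ((∑ x, |u x|) * ∑ x, |u x| * r x ^ 4) :=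
        mul_le_mul_of_nonneg_left h2 (by positivity)
    _ = _ := by ring

lemma rU_four (B : Matrix Λ I ℝ) (u : Λ → ℝ) :
    ∫ g, rU B u g ^ 4 ∂(gau I) ≤ 16 * (∑ x, |u x|) ^ 4 := by
  have hU : 0 ≤ ∑ x, |u x| := Finset.sum_nonneg fun _ _ => abs_nonneg _
  have hx : XG fun g => (∑ x, |u x|) ^ 3 * ∑ x, |u x| * res (B x) g ^ 4 :=
    (XG.sum _ fun x _ => ((xg_res (B x)).pow 4).const_mul _).const_mul _
  have h1 : ∫ g, rU B u g ^ 4 ∂(gau I)
      ≤ ∫ g, (∑ x, |u x|) ^ 3 * ∑ x, |u x| * res (B x) g ^ 4 ∂(gau I) :=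
    integral_mono ((xg_rU B u).pow 4).int hx.int fun g => four_sum u fun x => res (B x) g
  refine h1.trans ?_
  rw [integral_const_mul, integral_finsetSum _ fun x _ => (((xg_res (B x)).pow 4).const_mul _).int]
  simp only [integral_const_mul]
  have h2 : ∑ x, |u x| * ∫ g, res (B x) g ^ 4 ∂(gau I) ≤ ∑ x, |u x| * 16 :=
    Finset.sum_le_sum fun x _ => mul_le_mul_of_nonneg_left (res_four _) (abs_nonneg _)
  rw [← Finset.sum_mul] at h2
  calc (∑ x, |u x|) ^ 3 * ∑ x, |u x| * ∫ g, res (B x) g ^ 4 ∂(gau I)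
      ≤ (∑ x, |u x|) ^ 3 * ((∑ x, |u x|) * 16) := mul_le_mul_of_nonneg_left h2 (by positivity)
    _ = _ := by ring

/-! ### comparison of laws -/

/-- a density close to one in `L²` -/
structure Den (ρ : (I → ℝ) → ℝ) (η : ℝ) : Prop where
  meas : Measurable ρ
  nn : ∀ g, 0 ≤ ρ g
  int2 : Integrable (fun g => (ρ g - 1) ^ 2) (gau I)
  bd : ∫ g, (ρ g - 1) ^ 2 ∂(gau I) ≤ η ^ 2

lemma int_cs {Ω : Type*} [MeasurableSpace Ω] {m : Measure Ω} {u v : Ω → ℝ}
    (hu : Integrable (fun x => u x ^ 2) m) (hv : Integrable (fun x => v x ^ 2) m)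
    (huv : Integrable (fun x => u x * v x) m) :
    (∫ x, u x * v x ∂m) ^ 2 ≤ (∫ x, u x ^ 2 ∂m) * ∫ x, v x ^ 2 ∂m := by
  have h : ∀ s : ℝ, 0 ≤ (∫ x, u x ^ 2 ∂m) * (s * s) + 2 * (∫ x, u x * v x ∂m) * s
      + ∫ x, v x ^ 2 ∂m := by
    intro s
    have h1 : 0 ≤ ∫ x, (s * u x + v x) ^ 2 ∂m := integral_nonneg fun x => sq_nonneg _
    have e : ∀ x, (s * u x + v x) ^ 2 = (s * s) * u x ^ 2 + 2 * s * (u x * v x) + v x ^ 2 :=
      fun x => by ring
    simp only [e] at h1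
    have i1 : Integrable (fun x => s * s * u x ^ 2 + 2 * s * (u x * v x)) m :=
      (hu.const_mul _).add (huv.const_mul _)
    rw [integral_add i1 hv,
      integral_add (hu.const_mul _) (huv.const_mul _), integral_const_mul,
      integral_const_mul] at h1
    linarith
  have h2 := discrim_le_zero h
  unfold discrim at h2
  nlinarith

lemma int_mul_of_sq {Ω : Type*} [MeasurableSpace Ω] {m : Measure Ω} {u v : Ω → ℝ}
    (hum : AEStronglyMeasurable u m) (hvm : AEStronglyMeasurable v m)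
    (hu : Integrable (fun x => u x ^ 2) m) (hv : Integrable (fun x => v x ^ 2) m) :
    Integrable (fun x => u x * v x) m := by
  refine (hu.add hv).mono' (hum.mul hvm) (Filter.Eventually.of_forall fun x => ?_)
  rw [Real.norm_eq_abs, abs_mul, Pi.add_apply, ← sq_abs (u x), ← sq_abs (v x)]
  nlinarith [sq_nonneg (|u x| - |v x|), sq_nonneg (|u x|), sq_nonneg (|v x|)]

variable {ρ : (I → ℝ) → ℝ} {η : ℝ}

lemma Den.int_sub (h : Den ρ η) {f : (I → ℝ) → ℝ} (hf : XG f) :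
    Integrable (fun g => f g * (ρ g - 1)) (gau I) :=
  int_mul_of_sq hf.meas.aestronglyMeasurable (h.meas.sub_const 1).aestronglyMeasurable
    (hf.pow 2).int h.int2

lemma Den.int (h : Den ρ η) {f : (I → ℝ) → ℝ} (hf : XG f) :
    Integrable (fun g => f g * ρ g) (gau I) := by
  have h1 := (h.int_sub hf).add hf.int
  refine h1.congr (Filter.Eventually.of_forall fun g => ?_)
  simp only [Pi.add_apply]
  ring

/-- **change of law** -/
theorem Den.cmp (h : Den ρ η) (hη : 0 ≤ η) {f : (I → ℝ) → ℝ} (hf : XG f) :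
    |∫ g, f g * ρ g ∂(gau I) - ∫ g, f g ∂(gau I)| ≤ η * √(∫ g, f g ^ 2 ∂(gau I)) := by
  have e : ∫ g, f g * ρ g ∂(gau I) - ∫ g, f g ∂(gau I) = ∫ g, f g * (ρ g - 1) ∂(gau I) := by
    rw [← integral_sub (h.int hf) hf.int]
    refine integral_congr_ae (Filter.Eventually.of_forall fun g => ?_)
    simp only
    ring
  rw [e]
  have h1 := int_cs (hf.pow 2).int h.int2 (h.int_sub hf)
  have h0 : 0 ≤ ∫ g, f g ^ 2 ∂(gau I) := integral_nonneg fun g => sq_nonneg _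
  have h2 : (∫ g, f g * (ρ g - 1) ∂(gau I)) ^ 2 ≤ (η * √(∫ g, f g ^ 2 ∂(gau I))) ^ 2 := by
    refine h1.trans ?_
    rw [mul_pow, Real.sq_sqrt h0, mul_comm]
    exact mul_le_mul_of_nonneg_right h.bd h0
  exact abs_le_of_sq_le_sq h2 (mul_nonneg hη (Real.sqrt_nonneg _))

/-- squares, in terms of fourth moments -/
lemma Den.cmp_sq (h : Den ρ η) (hη : 0 ≤ η) {f : (I → ℝ) → ℝ} (hf : XG f) {C : ℝ} (hC : 0 ≤ C)
    (h4 : ∫ g, f g ^ 4 ∂(gau I) ≤ C ^ 2) :
    |∫ g, f g ^ 2 * ρ g ∂(gau I) - ∫ g, f g ^ 2 ∂(gau I)| ≤ η * C := by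
  refine (h.cmp hη (hf.pow 2)).trans (mul_le_mul_of_nonneg_left ?_ hη)
  have e : ∀ g, (f g ^ 2) ^ 2 = f g ^ 4 := fun g => by ring
  simp only [e]
  exact Real.sqrt_le_iff.2 ⟨hC, h4⟩

lemma Den.rsq (h : Den ρ η) (hη : 0 ≤ η) (B : Matrix Λ I ℝ) (u : Λ → ℝ) :
    |∫ g, rU B u g ^ 2 * ρ g ∂(gau I) - qf (RK (B * Bᵀ)) u| ≤ 4 * η * (∑ x, |u x|) ^ 2 := by
  rw [← rU_sq]
  refine (h.cmp_sq hη (xg_rU B u) (C := 4 * (∑ x, |u x|) ^ 2) (by positivity) ?_).trans
    (le_of_eq (by ring))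
  refine (rU_four B u).trans (le_of_eq (by ring))

lemma Den.lin (h : Den ρ η) (hη : 0 ≤ η) (w : I → ℝ) :
    |∫ g, ln w g ^ 2 * ρ g ∂(gau I) - ln w w| ≤ 2 * η * ln w w := by
  have e : ∫ g, ln w g ^ 2 ∂(gau I) = ln w w := by
    rw [← gau_ln_ln w w]
    exact integral_congr_ae (Filter.Eventually.of_forall fun g => by simp only; ring)
  have h1 := h.cmp_sq hη (xg_ln w) (C := 2 * ln w w)
    (mul_nonneg zero_le_two (ln_self_nonneg w)) (by
      refine (gau_four w).trans (le_of_eq (by ring)))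
  rw [e] at h1
  exact h1.trans (le_of_eq (by ring))

/-- cross term -/
lemma Den.cross (h : Den ρ η) (hη : 0 ≤ η) (B : Matrix Λ I ℝ) (u : Λ → ℝ) (w : I → ℝ) :
    |∫ g, rU B u g * ln w g * ρ g ∂(gau I)| ≤ 3 * η * (∑ x, |u x|) * √(ln w w) := by
  have h1 := h.cmp hη ((xg_rU B u).mul (xg_ln w))
  rw [rU_ln, sub_zero] at h1
  refine h1.trans ?_
  have hU : 0 ≤ ∑ x, |u x| := Finset.sum_nonneg fun _ _ => abs_nonneg _
  have hw := ln_self_nonneg w
  have h2 : (∫ g, (rU B u g * ln w g) ^ 2 ∂(gau I)) ≤ (3 * (∑ x, |u x|) * √(ln w w)) ^ 2 := by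
    have h3 := int_cs (u := fun g => rU B u g ^ 2) (v := fun g => ln w g ^ 2) (m := gau I)
      (((xg_rU B u).pow 2).pow 2).int (((xg_ln w).pow 2).pow 2).int
      (((xg_rU B u).pow 2).mul ((xg_ln w).pow 2)).int
    have e1 : ∀ g, rU B u g ^ 2 * ln w g ^ 2 = (rU B u g * ln w g) ^ 2 := fun g => by ring
    have e2 : ∀ g, (rU B u g ^ 2) ^ 2 = rU B u g ^ 4 := fun g => by ring
    have e3 : ∀ g, (ln w g ^ 2) ^ 2 = ln w g ^ 4 := fun g => by ring
    simp only [e1, e2, e3] at h3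
    have h4 : (∫ g, rU B u g ^ 4 ∂(gau I)) * ∫ g, ln w g ^ 4 ∂(gau I)
        ≤ (16 * (∑ x, |u x|) ^ 4) * (4 * ln w w ^ 2) :=
      mul_le_mul (rU_four B u) (gau_four w)
        (integral_nonneg fun g => by positivity) (by positivity)
    have h5 : (∫ g, (rU B u g * ln w g) ^ 2 ∂(gau I)) ^ 2
        ≤ ((3 * (∑ x, |u x|) * √(ln w w)) ^ 2) ^ 2 := by
      refine h3.trans (h4.trans ?_)
      rw [mul_pow, mul_pow, Real.sq_sqrt hw]
      have : 0 ≤ (∑ x, |u x|) ^ 4 * ln w w ^ 2 := by positivity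
      nlinarith
    exact le_of_sq_le_sq h5 (by positivity)
  calc η * √(∫ g, (rU B u g * ln w g) ^ 2 ∂(gau I))
      ≤ η * (3 * (∑ x, |u x|) * √(ln w w)) := by
        refine mul_le_mul_of_nonneg_left ?_ hη
        exact (Real.sqrt_le_sqrt h2).trans (by rw [Real.sqrt_sq (by positivity)])
    _ = _ := by ring

end

end Vale.Agent.P159.H883
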