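import Vale.Agent.P159.H883.Brg5

/-!
P159, helper883, module Trl1: symmetries of the law `nuM` of the field modulo constants.

* `SLA` : the normalisation of the constant (site and window) is irrelevant,
* `SL_perm`, `SL_neg` : slab integrals under permutations of the sites and change of sign,
* `nuM_perm`, `nuM_neg` : invariance of the law (map form),
* `nuM_perm_ci`, `nuM_neg_ci`, `nuM_perm_set`, `nuM_neg_set` : integrals of functions and events
  which do not see constants,
* `Enu_perm`, `Enu_neg`, `IN_perm`, `IN_neg` : the same in `Enu` letters.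
-/

open MeasureTheory Finset Matrix
open scoped ENNReal

set_option linter.unusedSectionVars false

namespace Vale.Agent.P159.H883

open Vale.Agent.P159.H37 Vale.Agent.P159.H963 Vale.Agent.P159.H770 Vale.Agent.P159.H789

noncomputable section

variable {V : Type} [Fintype V] [DecidableEq V] [Nonempty V]

/-! ### slab integrals -/

/-- the set of fields with a value in `A` at the site `x₁` -/
def slA (x₁ : V) (A : Set ℝ) : Set (V → ℝ) := {F | F x₁ ∈ A}

lemma measurableSet_slA (x₁ : V) {A : Set ℝ} (hA : MeasurableSet A) : MeasurableSet (slA x₁ A) :=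
  (measurable_pi_apply x₁) hA

lemma slab_eq (x₀ : V) : slab x₀ = slA x₀ (Set.Ico (0 : ℝ) 1) := rfl

lemma lint_slA {H : (V → ℝ) → ℝ≥0∞} (x₁ : V) {A : Set ℝ} (hA : MeasurableSet A) :
    ∫⁻ F in slA x₁ A, H F = ∫⁻ F : V → ℝ, A.indicator 1 (F x₁) * H F := by
  rw [← lintegral_indicator (measurableSet_slA x₁ hA)]
  refine lintegral_congr fun F => ?_
  by_cases h : F x₁ ∈ A
  · rw [Set.indicator_of_mem (show F ∈ slA x₁ A from h), Set.indicator_of_mem h, Pi.one_apply,
      one_mul]
  · rw [Set.indicator_of_notMem (show F ∉ slA x₁ A from h), Set.indicator_of_notMem h, zero_mul]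

/-- **site and window of the constant are irrelevant** -/
theorem SLA {H : (V → ℝ) → ℝ≥0∞} (hH : CI H) (hm : Measurable H) (x₀ x₁ : V) {A B : Set ℝ}
    (hA : MeasurableSet A) (hB : MeasurableSet B) :
    volume B * ∫⁻ F in slA x₁ A, H F = volume A * ∫⁻ F in slA x₀ B, H F := by
  rw [lint_slA x₁ hA, lint_slA x₀ hB]
  have mA : Measurable (A.indicator (1 : ℝ → ℝ≥0∞)) := measurable_one.indicator hA
  have mB : Measurable (B.indicator (1 : ℝ → ℝ≥0∞)) := measurable_one.indicator hB
  -- both sides are the same double integral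
  have m1 : Measurable fun F : V → ℝ => A.indicator (1 : ℝ → ℝ≥0∞) (F x₁) * H F :=
    (mA.comp (measurable_pi_apply x₁)).mul hm
  have m2 : Measurable fun F : V → ℝ => B.indicator (1 : ℝ → ℝ≥0∞) (F x₀) * H F :=
    (mB.comp (measurable_pi_apply x₀)).mul hm
  have h1 : volume B * ∫⁻ F : V → ℝ, A.indicator 1 (F x₁) * H F =
      ∫⁻ F : V → ℝ, ∫⁻ c : ℝ, A.indicator 1 (F x₁) * H F * B.indicator 1 (F x₀ + c) := by
    rw [← lintegral_const_mul _ m1]
    refine lintegral_congr fun F => ?_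
    have m3 : Measurable fun c : ℝ => B.indicator (1 : ℝ → ℝ≥0∞) (F x₀ + c) :=
      mB.comp (measurable_const.add measurable_id)
    rw [lintegral_const_mul _ m3,
      lintegral_add_left_eq_self (fun c => B.indicator (1 : ℝ → ℝ≥0∞) c) (F x₀),
      lintegral_indicator_one hB, mul_comm]
  have h2 : volume A * ∫⁻ F : V → ℝ, B.indicator 1 (F x₀) * H F =
      ∫⁻ F : V → ℝ, ∫⁻ c : ℝ, B.indicator 1 (F x₀) * H F * A.indicator 1 (F x₁ - c) := by
    rw [← lintegral_const_mul _ m2]
    refine lintegral_congr fun F => ?_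
    have m3 : Measurable fun c : ℝ => A.indicator (1 : ℝ → ℝ≥0∞) (F x₁ - c) :=
      mA.comp (measurable_const.sub measurable_id)
    rw [lintegral_const_mul _ m3,
      lintegral_sub_left_eq_self (fun c => A.indicator (1 : ℝ → ℝ≥0∞) c) (F x₁),
      lintegral_indicator_one hA, mul_comm]
  have m4 : Measurable fun p : (V → ℝ) × ℝ =>
      A.indicator (1 : ℝ → ℝ≥0∞) (p.1 x₁) * H p.1 * B.indicator 1 (p.1 x₀ + p.2) := by
    have e1 : Measurable fun p : (V → ℝ) × ℝ => A.indicator (1 : ℝ → ℝ≥0∞) (p.1 x₁) :=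
      mA.comp ((measurable_pi_apply x₁).comp measurable_fst)
    have e2 : Measurable fun p : (V → ℝ) × ℝ => B.indicator (1 : ℝ → ℝ≥0∞) (p.1 x₀ + p.2) :=
      mB.comp (((measurable_pi_apply x₀).comp measurable_fst).add measurable_snd)
    exact (e1.mul (hm.comp measurable_fst)).mul e2
  have m5 : Measurable fun p : (V → ℝ) × ℝ =>
      B.indicator (1 : ℝ → ℝ≥0∞) (p.1 x₀) * H p.1 * A.indicator 1 (p.1 x₁ - p.2) := by
    have e1 : Measurable fun p : (V → ℝ) × ℝ => B.indicator (1 : ℝ → ℝ≥0∞) (p.1 x₀) :=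
      mB.comp ((measurable_pi_apply x₀).comp measurable_fst)
    have e2 : Measurable fun p : (V → ℝ) × ℝ => A.indicator (1 : ℝ → ℝ≥0∞) (p.1 x₁ - p.2) :=
      mA.comp (((measurable_pi_apply x₁).comp measurable_fst).sub measurable_snd)
    exact (e1.mul (hm.comp measurable_fst)).mul e2
  rw [h1, h2, lintegral_lintegral_swap (f := fun (F : V → ℝ) (c : ℝ) =>
      A.indicator (1 : ℝ → ℝ≥0∞) (F x₁) * H F * B.indicator 1 (F x₀ + c)) m4.aemeasurable,
    lintegral_lintegral_swap (f := fun (F : V → ℝ) (c : ℝ) =>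
      B.indicator (1 : ℝ → ℝ≥0∞) (F x₀) * H F * A.indicator 1 (F x₁ - c)) m5.aemeasurable]
  refine lintegral_congr fun c => ?_
  rw [← lintegral_add_right_eq_self
    (fun F : V → ℝ => B.indicator (1 : ℝ → ℝ≥0∞) (F x₀) * H F * A.indicator 1 (F x₁ - c))
    fun _ => c]
  refine lintegral_congr fun F => ?_
  have e1 : F + (fun _ => c) = fun x => F x + c := rfl
  simp only [e1, hH F c, add_sub_cancel_right]
  ring

/-- independence of the site -/
theorem SL_site {H : (V → ℝ) → ℝ≥0∞} (hH : CI H) (hm : Measurable H) (x₀ x₁ : V) :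
    ∫⁻ F in slab x₁, H F = ∫⁻ F in slab x₀, H F := by
  have h := SLA hH hm x₀ x₁ (A := Set.Ico (0 : ℝ) 1) (B := Set.Ico (0 : ℝ) 1) measurableSet_Ico
    measurableSet_Ico
  have e : (volume : Measure ℝ) (Set.Ico (0 : ℝ) 1) = 1 := by simp
  rw [e, one_mul, one_mul] at h
  exact h

lemma CI.perm {α : Type*} {H : (V → ℝ) → α} (hH : CI H) (σ : V → V) : CI fun F => H (F ∘ σ) :=
  fun F c => hH (F ∘ σ) c

lemma CI.neg {α : Type*} {H : (V → ℝ) → α} (hH : CI H) : CI fun F => H (-F) := fun F c => by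
  have e : (-fun x => F x + c) = fun x => (-F) x + -c := by
    funext x
    simp only [Pi.neg_apply]
    ring
  simp only [e, hH (-F) (-c)]

lemma measurable_perm (σ : V → V) : Measurable fun F : V → ℝ => F ∘ σ :=
  measurable_pi_lambda _ fun x => measurable_pi_apply (σ x)

/-- **permutations of the sites** -/
theorem SL_perm {H : (V → ℝ) → ℝ≥0∞} (hH : CI H) (hm : Measurable H) (σ : V ≃ V) (x₀ x₁ : V) :
    ∫⁻ F in slab x₁, H (F ∘ σ) = ∫⁻ F in slab x₀, H F := by
  have e : (volume : Measure ℝ) (Set.Ico (0 : ℝ) 1) = 1 := by simp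
  have h1 : ∫⁻ F in slab x₁, H (F ∘ σ) = ∫⁻ F in slab (σ x₁), H (F ∘ σ) :=
    SL_site (hH.perm σ) (hm.comp (measurable_perm σ)) _ _
  have h2 : ∫⁻ F in slab (σ x₁), H (F ∘ σ) = ∫⁻ F in slab x₁, H F := by
    rw [slab_eq, slab_eq, lint_slA _ measurableSet_Ico, lint_slA _ measurableSet_Ico]
    have hp : MeasurePreserving (MeasurableEquiv.piCongrLeft (fun _ : V => ℝ) σ.symm) volume
        volume := volume_measurePreserving_piCongrLeft (fun _ : V => ℝ) σ.symm
    have h3 := hp.lintegral_comp_emb (MeasurableEquiv.measurableEmbedding _)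
      fun F : V → ℝ => (Set.Ico (0 : ℝ) 1).indicator (1 : ℝ → ℝ≥0∞) (F x₁) * H F
    rw [← h3]
    refine lintegral_congr fun F => ?_
    have e1 : (MeasurableEquiv.piCongrLeft (fun _ : V => ℝ) σ.symm) F = F ∘ σ := by
      funext x
      have := MeasurableEquiv.piCongrLeft_apply_apply (β := fun _ : V => ℝ) σ.symm F (σ x)
      simpa using this
    rw [e1, Function.comp_apply]
  rw [h1, h2]
  exact SL_site hH hm _ _

/-- **change of sign** -/
theorem SL_neg {H : (V → ℝ) → ℝ≥0∞} (hH : CI H) (hm : Measurable H) (x₀ x₁ : V) :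
    ∫⁻ F in slab x₁, H (-F) = ∫⁻ F in slab x₀, H F := by
  have e : (volume : Measure ℝ) (Set.Ico (0 : ℝ) 1) = 1 := by simp
  have e' : (volume : Measure ℝ) (Set.Ioc (-1 : ℝ) 0) = 1 := by simp
  have h2 : ∫⁻ F in slab x₁, H (-F) = ∫⁻ F in slA x₁ (Set.Ioc (-1 : ℝ) 0), H F := by
    rw [slab_eq, lint_slA _ measurableSet_Ico, lint_slA _ measurableSet_Ioc]
    rw [← lintegral_neg_eq_self]
    refine lintegral_congr fun F => ?_
    have e1 : (Set.Ico (0 : ℝ) 1).indicator (1 : ℝ → ℝ≥0∞) ((-F) x₁) =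
        (Set.Ioc (-1 : ℝ) 0).indicator 1 (F x₁) := by
      by_cases h : F x₁ ∈ Set.Ioc (-1 : ℝ) 0
      · rw [Set.indicator_of_mem h, Set.indicator_of_mem]
        · rfl
        · rw [Pi.neg_apply]
          exact ⟨by linarith [h.2], by linarith [h.1]⟩
      · rw [Set.indicator_of_notMem h, Set.indicator_of_notMem]
        intro h'
        rw [Pi.neg_apply] at h'
        exact h ⟨by linarith [h'.2], by linarith [h'.1]⟩
    rw [e1, neg_neg]
  have h := SLA hH hm x₀ x₁ (A := Set.Ioc (-1 : ℝ) 0) (B := Set.Ico (0 : ℝ) 1) measurableSet_Ioc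
    measurableSet_Ico
  rw [e, e', one_mul, one_mul] at h
  rw [h2, h, slab_eq]

end

end Vale.Agent.P159.H883
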