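import Vale.Agent.P159.H883.Trl1

/-!
P159, helper883, module Trl2: symmetries of the law `nuM`.

`σ` permutation of the sites with `Zn w M (F ∘ σ) = Zn w M F` for every `F`; change of sign for
`Zn w M (-F) = Zn w M F`.

* `nuM_perm`, `nuM_neg` : map form, `nuM_site` : change of the pinned site,
* `nuM_perm_int`, `nuM_neg_int`, `nuM_perm_set`, `nuM_neg_set` : integrals and events that do not
  see the constants,
* `Enu_perm`, `Enu_neg`, `IN_perm`, `IN_neg`, `Enu_site`.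
-/

open MeasureTheory Finset Matrix
open scoped ENNReal

set_option linter.unusedSectionVars false

namespace Vale.Agent.P159.H883

open Vale.Agent.P159.H37 Vale.Agent.P159.H963 Vale.Agent.P159.H770 Vale.Agent.P159.H789

noncomputable section

section law

variable {X Y Ω Ω' : Type*} [MeasurableSpace X] [MeasurableSpace Y] [MeasurableSpace Ω]
  [MeasurableSpace Ω']

lemma law_map {ν : Measure Y} {σ : Y → ℝ} {r : Y → Ω} (z : ℝ) (hr : Measurable r) {T : Ω → Ω'}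
    (hT : Measurable T) : (law ν σ r z).map T = law ν σ (fun y => T (r y)) z := by
  unfold law
  rw [Measure.map_smul, Measure.map_map hT hr]
  rfl

end law

variable {V : Type} [Fintype V] [DecidableEq V] [Nonempty V]
variable {w : (V → ℤ) → ℝ} {M : Matrix V V ℝ} {m : ℝ}

/-- the normalisation -/
lemma SI_lint (hw : GW w) (hb : BW w) (hM : MF M m) (x₀ : V) :
    SI x₀ (Zn w M) = (∫⁻ F in slab x₀, ENNReal.ofReal (Zn w M F)).toReal := by
  unfold SI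
  rw [integral_eq_lintegral_of_nonneg_ae (Filter.Eventually.of_forall fun F => (hw.Zn_pos hM F).le)
    (hb.contZn hM).aestronglyMeasurable]

/-- general invariance -/
theorem nuM_map (hw : GW w) (hb : BW w) (hM : MF M m) (x₀ x₁ : V) {T : (V → ℝ) → (V → ℝ)}
    (hT : Measurable T)
    (h : ∀ H : (V → ℝ) → ℝ≥0∞, CI H → Measurable H → ∫⁻ F in slab x₁, H (T F) =
      ∫⁻ F in slab x₀, H F) (hZ : ∀ F, Zn w M (T F) = Zn w M F)
    (hTc : CI fun F => q0 x₀ (T F)) :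
    (nuM w M x₁).map (fun F => q0 x₀ (T F)) = nuM w M x₀ := by
  have hmT : Measurable fun F => q0 x₀ (T F) := (measurable_q0 x₀).comp hT
  have hmz : Measurable fun F => ENNReal.ofReal (Zn w M F) :=
    (hb.contZn hM).measurable.ennreal_ofReal
  have hcz : CI fun F => ENNReal.ofReal (Zn w M F) := (hb.ci M).comp _
  have h1 : SI x₁ (Zn w M) = SI x₀ (Zn w M) := by
    rw [SI_lint hw hb hM, SI_lint hw hb hM]
    congr 1
    rw [← h (fun F => ENNReal.ofReal (Zn w M F)) hcz hmz]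
    exact lintegral_congr fun F => by rw [hZ]
  unfold nuM
  rw [law_map _ (measurable_q0 x₁) hmT]
  have e1 : (fun y => q0 x₀ (T (q0 x₁ y))) = fun y => q0 x₀ (T y) := by
    funext y
    exact hTc.q0 x₁ y
  rw [e1, h1, ← one_mul (SI x₀ (Zn w M))]
  refine (law_congr hmT (measurable_q0 x₀) one_pos fun Ψ hΨ => ?_).trans (by rw [one_mul])
  rw [ENNReal.ofReal_one, one_mul,
    ← h (fun F => ENNReal.ofReal (Zn w M F) * Ψ (q0 x₀ F)) (fun F c => by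
      simp only [hcz F c, ci_q0 x₀ F c]) (hmz.mul (hΨ.comp (measurable_q0 x₀)))]
  exact lintegral_congr fun F => by simp only [hZ]

/-- **permutations of the sites** -/
theorem nuM_perm (hw : GW w) (hb : BW w) (hM : MF M m) (x₀ x₁ : V) (σ : V ≃ V)
    (hZ : ∀ F, Zn w M (F ∘ σ) = Zn w M F) :
    (nuM w M x₁).map (fun F => q0 x₀ (F ∘ σ)) = nuM w M x₀ :=
  nuM_map hw hb hM x₀ x₁ (measurable_perm σ) (fun _ hH hm => SL_perm hH hm σ x₀ x₁) hZ
    ((ci_q0 x₀).perm σ)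

/-- **change of the pinned site** -/
theorem nuM_site (hw : GW w) (hb : BW w) (hM : MF M m) (x₀ x₁ : V) :
    (nuM w M x₁).map (q0 x₀) = nuM w M x₀ :=
  nuM_map hw hb hM x₀ x₁ measurable_id (fun _ hH hm => SL_site hH hm x₀ x₁) (fun _ => rfl)
    (ci_q0 x₀)

/-- **change of sign** -/
theorem nuM_neg (hw : GW w) (hb : BW w) (hM : MF M m) (x₀ x₁ : V)
    (hZ : ∀ F, Zn w M (-F) = Zn w M F) :
    (nuM w M x₁).map (fun F => q0 x₀ (-F)) = nuM w M x₀ :=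
  nuM_map hw hb hM x₀ x₁ measurable_neg (fun _ hH hm => SL_neg hH hm x₀ x₁) hZ (ci_q0 x₀).neg

section gen

variable {T : (V → ℝ) → (V → ℝ)} {x₀ x₁ : V}

/-- integrals -/
theorem nuM_gen_int (hT : Measurable T)
    (h : (nuM w M x₁).map (fun F => q0 x₀ (T F)) = nuM w M x₀) {E : Type*} [NormedAddCommGroup E]
    [NormedSpace ℝ E] {Φ : (V → ℝ) → E} (hc : CI Φ) (hΦ : StronglyMeasurable Φ) :
    (Integrable (fun F => Φ (T F)) (nuM w M x₁) ↔ Integrable Φ (nuM w M x₀)) ∧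
    ∫ F, Φ (T F) ∂(nuM w M x₁) = ∫ F, Φ F ∂(nuM w M x₀) := by
  have hmT : Measurable fun F => q0 x₀ (T F) := (measurable_q0 x₀).comp hT
  have e1 : ∀ F, Φ (q0 x₀ (T F)) = Φ (T F) := fun F => hc.q0 x₀ (T F)
  constructor
  · rw [← h, integrable_map_measure hΦ.aestronglyMeasurable hmT.aemeasurable]
    exact integrable_congr (Filter.Eventually.of_forall fun F => (e1 F).symm)
  · rw [← h, integral_map hmT.aemeasurable hΦ.aestronglyMeasurable]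
    exact integral_congr_ae (Filter.Eventually.of_forall fun F => (e1 F).symm)

/-- events -/
theorem nuM_gen_set (hT : Measurable T)
    (h : (nuM w M x₁).map (fun F => q0 x₀ (T F)) = nuM w M x₀) {S : Set (V → ℝ)}
    (hc : CI fun F => F ∈ S) (hS : MeasurableSet S) :
    nuM w M x₁ {F | T F ∈ S} = nuM w M x₀ S := by
  have hmT : Measurable fun F => q0 x₀ (T F) := (measurable_q0 x₀).comp hT
  rw [← h, Measure.map_apply hmT hS]
  congr 1
  ext F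
  have e : (q0 x₀ (T F) ∈ S) = (T F ∈ S) := hc.q0 x₀ (T F)
  rw [Set.mem_ofPred_eq, Set.mem_preimage, e]

end gen

theorem nuM_perm_int (hw : GW w) (hb : BW w) (hM : MF M m) (x₀ x₁ : V) (σ : V ≃ V)
    (hZ : ∀ F, Zn w M (F ∘ σ) = Zn w M F) {E : Type*} [NormedAddCommGroup E]
    [NormedSpace ℝ E] {Φ : (V → ℝ) → E} (hc : CI Φ) (hΦ : StronglyMeasurable Φ) :
    (Integrable (fun F => Φ (F ∘ σ)) (nuM w M x₁) ↔ Integrable Φ (nuM w M x₀)) ∧
    ∫ F, Φ (F ∘ σ) ∂(nuM w M x₁) = ∫ F, Φ F ∂(nuM w M x₀) :=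
  nuM_gen_int (measurable_perm σ) (nuM_perm hw hb hM x₀ x₁ σ hZ) hc hΦ

theorem nuM_perm_set (hw : GW w) (hb : BW w) (hM : MF M m) (x₀ x₁ : V) (σ : V ≃ V)
    (hZ : ∀ F, Zn w M (F ∘ σ) = Zn w M F) {S : Set (V → ℝ)}
    (hc : CI fun F => F ∈ S) (hS : MeasurableSet S) :
    nuM w M x₁ {F | F ∘ σ ∈ S} = nuM w M x₀ S :=
  nuM_gen_set (measurable_perm σ) (nuM_perm hw hb hM x₀ x₁ σ hZ) hc hS

theorem nuM_neg_int (hw : GW w) (hb : BW w) (hM : MF M m) (x₀ x₁ : V)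
    (hZ : ∀ F, Zn w M (-F) = Zn w M F) {E : Type*} [NormedAddCommGroup E]
    [NormedSpace ℝ E] {Φ : (V → ℝ) → E} (hc : CI Φ) (hΦ : StronglyMeasurable Φ) :
    (Integrable (fun F => Φ (-F)) (nuM w M x₁) ↔ Integrable Φ (nuM w M x₀)) ∧
    ∫ F, Φ (-F) ∂(nuM w M x₁) = ∫ F, Φ F ∂(nuM w M x₀) :=
  nuM_gen_int measurable_neg (nuM_neg hw hb hM x₀ x₁ hZ) hc hΦ

theorem nuM_neg_set (hw : GW w) (hb : BW w) (hM : MF M m) (x₀ x₁ : V)
    (hZ : ∀ F, Zn w M (-F) = Zn w M F) {S : Set (V → ℝ)}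
    (hc : CI fun F => F ∈ S) (hS : MeasurableSet S) :
    nuM w M x₁ {F | -F ∈ S} = nuM w M x₀ S :=
  nuM_gen_set measurable_neg (nuM_neg hw hb hM x₀ x₁ hZ) hc hS

theorem nuM_site_set (hw : GW w) (hb : BW w) (hM : MF M m) (x₀ x₁ : V) {S : Set (V → ℝ)}
    (hc : CI fun F => F ∈ S) (hS : MeasurableSet S) :
    nuM w M x₁ S = nuM w M x₀ S :=
  nuM_gen_set measurable_id (nuM_site hw hb hM x₀ x₁) hc hS

/-! ### letters of `Enu` -/

theorem IN_perm (hw : GW w) (hb : BW w) (hM : MF M m) (x₀ x₁ : V) (σ : V ≃ V)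
    (hZ : ∀ F, Zn w M (F ∘ σ) = Zn w M F) {Φ : (V → ℝ) → ℝ} (hc : CI Φ) (hΦ : Measurable Φ) :
    (IN w M x₁ fun F => Φ (F ∘ σ)) ↔ IN w M x₀ Φ := by
  rw [← (nuM_ci hw hb hM x₁ (hc.perm σ) (hΦ.comp (measurable_perm σ))).1,
    ← (nuM_ci hw hb hM x₀ hc hΦ).1]
  exact (nuM_perm_int hw hb hM x₀ x₁ σ hZ hc hΦ.stronglyMeasurable).1

theorem Enu_perm (hw : GW w) (hb : BW w) (hM : MF M m) (x₀ x₁ : V) (σ : V ≃ V)
    (hZ : ∀ F, Zn w M (F ∘ σ) = Zn w M F) {Φ : (V → ℝ) → ℝ} (hc : CI Φ) (hΦ : Measurable Φ) :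
    Enu w M x₁ (fun F => Φ (F ∘ σ)) = Enu w M x₀ Φ := by
  rw [← (nuM_ci hw hb hM x₁ (hc.perm σ) (hΦ.comp (measurable_perm σ))).2,
    ← (nuM_ci hw hb hM x₀ hc hΦ).2]
  exact (nuM_perm_int hw hb hM x₀ x₁ σ hZ hc hΦ.stronglyMeasurable).2

theorem IN_neg (hw : GW w) (hb : BW w) (hM : MF M m) (x₀ x₁ : V)
    (hZ : ∀ F, Zn w M (-F) = Zn w M F) {Φ : (V → ℝ) → ℝ} (hc : CI Φ) (hΦ : Measurable Φ) :
    (IN w M x₁ fun F => Φ (-F)) ↔ IN w M x₀ Φ := by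
  rw [← (nuM_ci hw hb hM x₁ hc.neg (hΦ.comp measurable_neg)).1,
    ← (nuM_ci hw hb hM x₀ hc hΦ).1]
  exact (nuM_neg_int hw hb hM x₀ x₁ hZ hc hΦ.stronglyMeasurable).1

theorem Enu_neg (hw : GW w) (hb : BW w) (hM : MF M m) (x₀ x₁ : V)
    (hZ : ∀ F, Zn w M (-F) = Zn w M F) {Φ : (V → ℝ) → ℝ} (hc : CI Φ) (hΦ : Measurable Φ) :
    Enu w M x₁ (fun F => Φ (-F)) = Enu w M x₀ Φ := by
  rw [← (nuM_ci hw hb hM x₁ hc.neg (hΦ.comp measurable_neg)).2,
    ← (nuM_ci hw hb hM x₀ hc hΦ).2]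
  exact (nuM_neg_int hw hb hM x₀ x₁ hZ hc hΦ.stronglyMeasurable).2

theorem Enu_site (hw : GW w) (hb : BW w) (hM : MF M m) (x₀ x₁ : V) {Φ : (V → ℝ) → ℝ}
    (hc : CI Φ) (hΦ : Measurable Φ) : Enu w M x₁ Φ = Enu w M x₀ Φ := by
  rw [← (nuM_ci hw hb hM x₁ hc hΦ).2, ← (nuM_ci hw hb hM x₀ hc hΦ).2]
  exact (nuM_gen_int measurable_id (nuM_site hw hb hM x₀ x₁) hc
    hΦ.stronglyMeasurable).2

end

end Vale.Agent.P159.H883
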