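import Vale.Agent.P159.H896.Flow
import Vale.Agent.P159.H963.NeuD
import Vale.Agent.P159.H145.Loc2

/-!
P159, S list SL1 (helper883), part 0: gradient weights without symmetry (dislocated weights), their
neutral partition functions, the heat flow of `Zn`, and slab integrals
`SI x₀ H = ∫_{F x₀ ∈ [0,1)} H`, i.e. integrals over the real fields modulo constants.
-/

set_option linter.unusedSectionVars false

namespace Vale.Agent.P159.H883

open Finset Matrix MeasureTheory
open Vale.Agent.P159.TM.H104 (EM)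
open Vale.Agent.P159.H37 (wM ZM qf bf Zn Zs re gau)
open Vale.Agent.P159.H963 (GrI pin MF ntr)
open Vale.Agent.P159.H896 (Chn cN)
open Vale.Agent.P159.H145 (cs Per)

noncomputable section

variable {V : Type} [Fintype V] [DecidableEq V]

/-- bounded gradient weights with exponential moments modulo constants; no symmetry -/
structure BW (w : (V → ℤ) → ℝ) : Prop where
  nn : ∀ h, 0 ≤ w h
  bdd : ∃ Wb : ℝ, ∀ h, w h ≤ Wb
  pos : 0 < w 0
  grd : GrI w
  em0 : ∀ x₀, EM (pin w x₀)

variable {w : (V → ℤ) → ℝ} {M M' : Matrix V V ℝ} {m m' : ℝ}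

theorem BW.per (hw : BW w) : Per w := fun h => by
  have := hw.grd h 1
  have e : (h + 1 : V → ℤ) = fun x => h x + 1 := rfl
  rw [e]
  exact this

theorem BW.em (hw : BW w) (hM : MF M m) : EM (wM w M) := by
  obtain ⟨Wb, hb⟩ := hw.bdd
  obtain ⟨m0, hm0, hc⟩ := hM.coer
  exact H37.em_wM hw.nn hb ⟨0, hw.pos⟩ hm0 hc

theorem BW.contZM (hw : BW w) (hM : MF M m) : Continuous (ZM w M) := by
  have e : ZM w M = fun F => Real.exp (-(qf M F / 2)) * Zs (wM w M) (M *ᵥ F) :=
    funext fun F => H37.ZM_eq w hM.symm F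
  rw [e]
  refine (Real.continuous_exp.comp (H896.continuous_qf.div_const 2).neg).mul
    ((H37.continuous_Zs (hw.em hM)).comp ?_)
  exact Continuous.matrix_mulVec continuous_const continuous_id

theorem BW.ZM_pos (hw : BW w) (hM : MF M m) (F : V → ℝ) : 0 < ZM w M F :=
  H37.ZM_pos hM.symm (hw.em hM) F

lemma cont_cs : Continuous fun p : (V → ℝ) × ℝ => cs p.1 p.2 := by
  refine continuous_pi fun x => ?_
  unfold cs
  fun_prop

theorem BW.contZn (hw : BW w) (hM : MF M m) : Continuous (Zn w M) := by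
  have h1 : Continuous (Function.uncurry fun (F : V → ℝ) (c : ℝ) => ZM w M (cs F c)) :=
    (hw.contZM hM).comp cont_cs
  exact intervalIntegral.continuous_parametric_intervalIntegral_of_continuous' h1 0 1

theorem BW.Zn_pos (hw : BW w) (hM : MF M m) (F : V → ℝ) : 0 < Zn w M F := by
  unfold Zn
  refine intervalIntegral.intervalIntegral_pos_of_pos ?_ (fun c => hw.ZM_pos hM _) zero_lt_one
  have h1 : Continuous fun c : ℝ => ZM w M (cs F c) :=
    (hw.contZM hM).comp (cont_cs.comp (continuous_const.prodMk continuous_id))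
  exact h1.intervalIntegrable 0 1

theorem BW.Zn_cs (hw : BW w) (F : V → ℝ) (c : ℝ) : Zn w M (fun x => F x + c) = Zn w M F :=
  H145.Zn_cs hw.per F c

theorem BW.Zn_bdd (hw : BW w) (hM : MF M m) : ∃ K : ℝ, 0 ≤ K ∧ ∀ F, Zn w M F ≤ K :=
  H963.Zn_bdd hw.nn hw.bdd hM.coer

/-! ### the heat flow of the neutral partition function -/

section flow

variable {I : Type} [Fintype I] {B : Matrix V I ℝ} {K : Matrix I V ℝ}

theorem BW.chn_prod_int (h : Chn M M' B K) (hw : BW w) (hM : MF M m) (hM' : MF M' m')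
    (f : V → ℝ) :
    Integrable (fun p : (I → ℝ) × ℝ => ZM w M (cs (f + B *ᵥ p.1) p.2))
      ((gau I).prod (volume.restrict (Set.Ioc (0 : ℝ) 1))) := by
  have e : ∀ (g : I → ℝ) (c : ℝ), cs (f + B *ᵥ g) c = cs f c + B *ᵥ g := by
    intro g c
    funext x
    simp only [cs, Pi.add_apply]
    ring
  have hc : Continuous fun p : (I → ℝ) × ℝ => ZM w M (cs (f + B *ᵥ p.1) p.2) := by
    refine (hw.contZM hM).comp (cont_cs.comp (Continuous.prodMk ?_ continuous_snd))
    exact continuous_const.add (Continuous.matrix_mulVec continuous_const continuous_fst)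
  rw [integrable_prod_iff' hc.aestronglyMeasurable]
  constructor
  · refine Filter.Eventually.of_forall fun c => ?_
    simp only [e]
    exact H896.chn_ZM_int h (hw.em hM') (cs f c)
  · have h1 : (fun c : ℝ => ∫ g : I → ℝ, ‖ZM w M (cs (f + B *ᵥ g) c)‖ ∂(gau I)) =
        fun c : ℝ => cN M B * ZM w M' (cs f c) := by
      funext c
      rw [← H896.chn_ZM h (hw.em hM')]
      refine integral_congr_ae (Filter.Eventually.of_forall fun g => ?_)
      simp only
      rw [← e, Real.norm_eq_abs, abs_of_pos (hw.ZM_pos hM _)]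
    have h2 : Continuous fun c : ℝ => cN M B * ZM w M' (cs f c) :=
      continuous_const.mul ((hw.contZM hM').comp (cont_cs.comp
        (continuous_const.prodMk continuous_id)))
    show Integrable (fun c : ℝ => ∫ g : I → ℝ, ‖ZM w M (cs (f + B *ᵥ g) c)‖ ∂(gau I)) _
    rw [h1]
    exact (h2.integrableOn_Icc (a := 0) (b := 1)).mono_set Set.Ioc_subset_Icc_self

theorem BW.chn_Zn_int (h : Chn M M' B K) (hw : BW w) (hM : MF M m) (hM' : MF M' m')
    (f : V → ℝ) : Integrable (fun g => Zn w M (f + B *ᵥ g)) (gau I) := by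
  have h1 := (hw.chn_prod_int h hM hM' f).integral_prod_left
  refine h1.congr (Filter.Eventually.of_forall fun g => ?_)
  show _ = ∫ c in (0 : ℝ)..1, ZM w M (cs (f + B *ᵥ g) c)
  rw [intervalIntegral.integral_of_le zero_le_one]

/-- **heat flow of the neutral partition function** (any gradient weight) -/
theorem BW.chn_Zn (h : Chn M M' B K) (hw : BW w) (hM : MF M m) (hM' : MF M' m')
    (f : V → ℝ) : ∫ g, Zn w M (f + B *ᵥ g) ∂(gau I) = cN M B * Zn w M' f := by
  have e : ∀ (g : I → ℝ) (c : ℝ), cs (f + B *ᵥ g) c = cs f c + B *ᵥ g := by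
    intro g c
    funext x
    simp only [cs, Pi.add_apply]
    ring
  have h1 := integral_integral_swap (f := fun (g : I → ℝ) (c : ℝ) => ZM w M (cs (f + B *ᵥ g) c))
    (hw.chn_prod_int h hM hM' f)
  have h2 : ∀ g : I → ℝ, Zn w M (f + B *ᵥ g)
      = ∫ c in Set.Ioc (0 : ℝ) 1, ZM w M (cs (f + B *ᵥ g) c) := by
    intro g
    unfold Zn
    rw [intervalIntegral.integral_of_le zero_le_one]
    rfl
  simp only [h2]
  rw [h1]
  have h3 : ∀ c : ℝ, ∫ g, ZM w M (cs (f + B *ᵥ g) c) ∂(gau I) = cN M B * ZM w M' (cs f c) := by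
    intro c
    simp only [e]
    exact H896.chn_ZM h (hw.em hM') (cs f c)
  simp only [h3]
  rw [integral_const_mul]
  unfold Zn
  rw [intervalIntegral.integral_of_le zero_le_one]
  rfl

end flow

/-! ### slab integrals -/

/-- the slab `F x₀ ∈ [0, 1)` -/
def slab (x₀ : V) : Set (V → ℝ) := {F | F x₀ ∈ Set.Ico (0 : ℝ) 1}

lemma measurableSet_slab (x₀ : V) : MeasurableSet (slab x₀) :=
  (measurable_pi_apply x₀) measurableSet_Ico

/-- integral over the real fields modulo constants -/
def SI (x₀ : V) (H : (V → ℝ) → ℝ) : ℝ := ∫ F in slab x₀, H F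

/-- invariance under real constants -/
def CI {α : Type*} (H : (V → ℝ) → α) : Prop := ∀ (F : V → ℝ) (c : ℝ), H (fun x => F x + c) = H F

theorem BW.ci (hw : BW w) (M : Matrix V V ℝ) : CI (Zn w M) := fun F c => hw.Zn_cs F c

lemma CI.mul {H H' : (V → ℝ) → ℝ} (h : CI H) (h' : CI H') : CI fun F => H F * H' F :=
  fun F c => by simp only [h F c, h' F c]

lemma CI.div {H H' : (V → ℝ) → ℝ} (h : CI H) (h' : CI H') : CI fun F => H F / H' F :=
  fun F c => by simp only [h F c, h' F c]

lemma CI.comp {α β : Type*} {H : (V → ℝ) → α} (h : CI H) (φ : α → β) : CI fun F => φ (H F) :=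
  fun F c => by simp only [h F c]

lemma CI.shift {α : Type*} {H : (V → ℝ) → α} (h : CI H) (v : V → ℝ) : CI fun F => H (F + v) := by
  intro F c
  have e : (fun x => F x + c) + v = fun x => (F + v) x + c := by
    funext x
    simp only [Pi.add_apply]
    ring
  simp only [e, h (F + v) c]

/-- the shift with `v x₀ = 0` which acts as `v` -/
def v0 (x₀ : V) (v : V → ℝ) : V → ℝ := fun x => v x - v x₀

lemma CI.v0 {α : Type*} {H : (V → ℝ) → α} (h : CI H) (x₀ : V) (v F : V → ℝ) :
    H (F + v) = H (F + v0 x₀ v) := by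
  have e : F + v = fun x => (F + H883.v0 x₀ v) x + v x₀ := by
    funext x
    simp only [H883.v0, Pi.add_apply]
    ring
  rw [e, h]

lemma slab_shift (x₀ : V) (v : V → ℝ) (F : V → ℝ) : F + v0 x₀ v ∈ slab x₀ ↔ F ∈ slab x₀ := by
  unfold slab v0
  simp

/-- **translation invariance** of the slab integral -/
theorem SI_shift {H : (V → ℝ) → ℝ} (hH : CI H) (x₀ : V) (v : V → ℝ) :
    SI x₀ (fun F => H (F + v)) = SI x₀ H := by
  unfold SI
  rw [← integral_indicator (measurableSet_slab x₀), ← integral_indicator (measurableSet_slab x₀),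
    ← integral_add_right_eq_self ((slab x₀).indicator H) (v0 x₀ v)]
  refine integral_congr_ae (Filter.Eventually.of_forall fun F => ?_)
  simp only
  by_cases hF : F ∈ slab x₀
  · rw [Set.indicator_of_mem hF, Set.indicator_of_mem ((slab_shift x₀ v F).2 hF), hH.v0 x₀]
  · rw [Set.indicator_of_notMem hF, Set.indicator_of_notMem fun h => hF ((slab_shift x₀ v F).1 h)]

theorem SI_shift_int {H : (V → ℝ) → ℝ} (hH : CI H) (x₀ : V) (v : V → ℝ)
    (hi : IntegrableOn H (slab x₀)) : IntegrableOn (fun F => H (F + v)) (slab x₀) := by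
  rw [← integrable_indicator_iff (measurableSet_slab x₀)] at hi ⊢
  refine (hi.comp_add_right (v0 x₀ v)).congr (Filter.Eventually.of_forall fun F => ?_)
  simp only
  by_cases hF : F ∈ slab x₀
  · rw [Set.indicator_of_mem hF, Set.indicator_of_mem ((slab_shift x₀ v F).2 hF), hH.v0 x₀ v]
  · rw [Set.indicator_of_notMem hF, Set.indicator_of_notMem fun h => hF ((slab_shift x₀ v F).1 h)]

/-- same for nonnegative functions -/
theorem SL_shift {H : (V → ℝ) → ENNReal} (hH : CI H) (x₀ : V) (v : V → ℝ) :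
    ∫⁻ F in slab x₀, H (F + v) = ∫⁻ F in slab x₀, H F := by
  rw [← lintegral_indicator (measurableSet_slab x₀), ← lintegral_indicator (measurableSet_slab x₀),
    ← lintegral_add_right_eq_self ((slab x₀).indicator H) (v0 x₀ v)]
  refine lintegral_congr fun F => ?_
  by_cases hF : F ∈ slab x₀
  · rw [Set.indicator_of_mem hF, Set.indicator_of_mem ((slab_shift x₀ v F).2 hF), hH.v0 x₀]
  · rw [Set.indicator_of_notMem hF, Set.indicator_of_notMem fun h => hF ((slab_shift x₀ v F).1 h)]

/-- reflection -/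
theorem SI_neg {H : (V → ℝ) → ℝ} (hH : CI H) (x₀ : V) :
    SI x₀ (fun F => H (-F)) = SI x₀ H := by
  -- the slab `(-1, 0]` shifted by one, up to a null set
  have h1 : SI x₀ (fun F => H (-F)) = SI x₀ fun F => H (-(F + fun _ => -1)) := by
    have := SI_shift (H := fun F => H (-F)) (fun F c => by
      have e : (-fun x => F x + c) = fun x => (-F) x + -c := by
        funext x
        simp only [Pi.neg_apply]
        ring
      simp only [e, hH (-F) (-c)]) x₀ (fun _ => -1)
    exact this.symm
  rw [h1]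
  unfold SI
  rw [← integral_indicator (measurableSet_slab x₀), ← integral_indicator (measurableSet_slab x₀)]
  set T : (V → ℝ) → ℝ := (slab x₀).indicator H with hT
  have h2 : ∫ F : V → ℝ, T F = ∫ F : V → ℝ, T (-(F + fun _ => -1)) := by
    rw [integral_add_right_eq_self (fun F => T (-F)) fun _ => -1, integral_neg_eq_self]
  rw [h2]
  refine integral_congr_ae ?_
  -- the boundary is a null set
  have hnull : ∀ᵐ F : V → ℝ, F x₀ ≠ 0 := by
    have h3 : (volume : Measure (V → ℝ)) {F : V → ℝ | F x₀ = 0} = 0 := by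
      have h4 := Measure.pi_hyperplane (fun _ : V => (volume : Measure ℝ)) x₀ 0
      exact h4
    exact measure_eq_zero_iff_ae_notMem.1 h3
  have hnull1 : ∀ᵐ F : V → ℝ, F x₀ ≠ 1 := by
    have h3 : (volume : Measure (V → ℝ)) {F : V → ℝ | F x₀ = 1} = 0 := by
      have h4 := Measure.pi_hyperplane (fun _ : V => (volume : Measure ℝ)) x₀ 1
      exact h4
    exact measure_eq_zero_iff_ae_notMem.1 h3
  filter_upwards [hnull, hnull1] with F h0 h1'
  have e1 : (-(F + fun _ => (-1 : ℝ)) : V → ℝ) x₀ = 1 - F x₀ := by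
    simp only [Pi.neg_apply, Pi.add_apply]
    ring
  by_cases hF : F ∈ slab x₀
  · have hF' : -(F + fun _ => (-1 : ℝ)) ∈ slab x₀ := by
      unfold slab at hF ⊢
      simp only [Set.mem_ofPred_eq, Set.mem_Ico] at hF ⊢
      rw [e1]
      constructor
      · linarith
      · have : 0 < F x₀ := lt_of_le_of_ne hF.1 (Ne.symm h0)
        linarith
    rw [Set.indicator_of_mem hF, hT, Set.indicator_of_mem hF']
  · have hF' : -(F + fun _ => (-1 : ℝ)) ∉ slab x₀ := by
      intro h
      apply hF
      unfold slab at h ⊢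
      simp only [Set.mem_ofPred_eq, Set.mem_Ico] at h ⊢
      rw [e1] at h
      constructor
      · have : F x₀ ≠ 0 := h0
        linarith
      · have h5 : F x₀ ≤ 1 := by linarith
        exact lt_of_le_of_ne h5 h1'
    rw [Set.indicator_of_notMem hF, hT, Set.indicator_of_notMem hF']

end

end Vale.Agent.P159.H883
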