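import Vale.Agent.P159.H883.Twr1
import Vale.Agent.P159.H883.Res

/-!
P159, S list SL1 (helper883), part 2: the ratio `Psi = Zn wD (φ + ·) / Zn w`, the conditional
expectation `EF` (level `M` given the field of level `M'`), the law `Enu` of the field of level `M`
(real fields modulo constants), the tower property, consistency, Jensen.
-/

set_option linter.unusedSectionVars false

namespace Vale.Agent.P159.H883

open Finset Matrix MeasureTheory
open Vale.Agent.P159.TM.H104 (EM nh Gr li)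
open Vale.Agent.P159.H37 (wM ZM qf bf Zn Zs re gau)
open Vale.Agent.P159.H963 (GrI pin MF ntr)
open Vale.Agent.P159.H896 (Chn cN)
open Vale.Agent.P159.H145 (cs Per)

noncomputable section

variable {V : Type} [Fintype V] [DecidableEq V] [Nonempty V]
variable {w wD : (V → ℤ) → ℝ} {M M' : Matrix V V ℝ} {m m' : ℝ}
variable {I : Type} [Fintype I] {B : Matrix V I ℝ} {K : Matrix I V ℝ}

/-- ratio of the dislocated and the undislocated neutral partition function -/
def Psi (w wD : (V → ℤ) → ℝ) (M : Matrix V V ℝ) (φ F : V → ℝ) : ℝ := Zn wD M (φ + F) / Zn w M F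

/-- conditional expectation of a function of the level `M` field given the level `M'` field `f` -/
def EF (w : (V → ℤ) → ℝ) (M : Matrix V V ℝ) (B : Matrix V I ℝ) (Φ : (V → ℝ) → ℝ) (f : V → ℝ) : ℝ :=
  (∫ g, Φ (f + B *ᵥ g) * Zn w M (f + B *ᵥ g) ∂(gau I)) / ∫ g, Zn w M (f + B *ᵥ g) ∂(gau I)

/-- expectation with respect to the law of the field of level `M` modulo constants -/
def Enu (w : (V → ℤ) → ℝ) (M : Matrix V V ℝ) (x₀ : V) (Φ : (V → ℝ) → ℝ) : ℝ :=
  SI x₀ (fun F => Φ F * Zn w M F) / SI x₀ (Zn w M)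

/-- integrability under the conditional law -/
def IF (w : (V → ℤ) → ℝ) (M : Matrix V V ℝ) (B : Matrix V I ℝ) (Φ : (V → ℝ) → ℝ) (f : V → ℝ) : Prop :=
  Integrable (fun g => Φ (f + B *ᵥ g) * Zn w M (f + B *ᵥ g)) (gau I)

/-- integrability under the law of the field -/
def IN (w : (V → ℤ) → ℝ) (M : Matrix V V ℝ) (x₀ : V) (Φ : (V → ℝ) → ℝ) : Prop :=
  IntegrableOn (fun F => Φ F * Zn w M F) (slab x₀)

/-! ### positivity, linearity -/

lemma den_pos (h : Chn M M' B K) (hw : BW w) (hM : MF M m) (hM' : MF M' m') (f : V → ℝ) :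
    0 < ∫ g, Zn w M (f + B *ᵥ g) ∂(gau I) := by
  rw [hw.chn_Zn h hM hM']
  exact mul_pos (H896.cN_pos (B := B) h.nn) (hw.Zn_pos hM' f)

lemma EF_mono (h : Chn M M' B K) (hw : BW w) (hM : MF M m) (hM' : MF M' m') {f : V → ℝ}
    {Φ Φ' : (V → ℝ) → ℝ} (hi : IF w M B Φ f) (hi' : IF w M B Φ' f) (hle : ∀ F, Φ F ≤ Φ' F) :
    EF w M B Φ f ≤ EF w M B Φ' f := by
  unfold EF
  refine div_le_div_of_nonneg_right ?_ (den_pos h hw hM hM' f).le
  exact integral_mono hi hi' fun g => mul_le_mul_of_nonneg_right (hle _) (hw.Zn_pos hM _).le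

lemma IF.aff (h : Chn M M' B K) (hw : BW w) (hM : MF M m) (hM' : MF M' m') {f : V → ℝ}
    {Φ : (V → ℝ) → ℝ} (hi : IF w M B Φ f) (a s : ℝ) : IF w M B (fun F => a + s * Φ F) f := by
  have h1 := ((hw.chn_Zn_int h hM hM' f).const_mul a).add (Integrable.const_mul hi s)
  refine h1.congr (Filter.Eventually.of_forall fun g => ?_)
  simp only [Pi.add_apply]
  ring

lemma EF_aff (h : Chn M M' B K) (hw : BW w) (hM : MF M m) (hM' : MF M' m') {f : V → ℝ}
    {Φ : (V → ℝ) → ℝ} (hi : IF w M B Φ f) (a s : ℝ) :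
    EF w M B (fun F => a + s * Φ F) f = a + s * EF w M B Φ f := by
  have h1 : ∀ g : I → ℝ, (a + s * Φ (f + B *ᵥ g)) * Zn w M (f + B *ᵥ g) =
      a * Zn w M (f + B *ᵥ g) + s * (Φ (f + B *ᵥ g) * Zn w M (f + B *ᵥ g)) := fun g => by ring
  have hd := (den_pos h hw hM hM' f).ne'
  unfold EF
  simp only [h1]
  rw [integral_add ((hw.chn_Zn_int h hM hM' f).const_mul a) (Integrable.const_mul hi s),
    integral_const_mul, integral_const_mul]
  field_simp

lemma Enu_mono (hw : BW w) (hM : MF M m) {x₀ : V} {Φ Φ' : (V → ℝ) → ℝ} (hi : IN w M x₀ Φ)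
    (hi' : IN w M x₀ Φ') (hle : ∀ F, Φ F ≤ Φ' F) : Enu w M x₀ Φ ≤ Enu w M x₀ Φ' := by
  unfold Enu SI
  refine div_le_div_of_nonneg_right ?_ (hw.SI_Zn_pos hM x₀).le
  exact integral_mono hi hi' fun F => mul_le_mul_of_nonneg_right (hle _) (hw.Zn_pos hM _).le

lemma IN.aff (hw : BW w) (hM : MF M m) {x₀ : V} {Φ : (V → ℝ) → ℝ} (hi : IN w M x₀ Φ) (a s : ℝ) :
    IN w M x₀ fun F => a + s * Φ F := by
  have h1 := ((hw.SI_Zn hM x₀).1.const_mul a).add (Integrable.const_mul hi s)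
  refine h1.congr (Filter.Eventually.of_forall fun g => ?_)
  simp only [Pi.add_apply]
  ring

lemma Enu_aff (hw : BW w) (hM : MF M m) {x₀ : V} {Φ : (V → ℝ) → ℝ} (hi : IN w M x₀ Φ) (a s : ℝ) :
    Enu w M x₀ (fun F => a + s * Φ F) = a + s * Enu w M x₀ Φ := by
  have h1 : ∀ F : V → ℝ, (a + s * Φ F) * Zn w M F = a * Zn w M F + s * (Φ F * Zn w M F) :=
    fun F => by ring
  have hd := (hw.SI_Zn_pos hM x₀).ne'
  unfold Enu SI at *
  simp only [h1]
  rw [integral_add ((hw.SI_Zn hM x₀).1.const_mul a) (Integrable.const_mul hi s),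
    integral_const_mul, integral_const_mul]
  field_simp

/-! ### tower -/

lemma psi_mul (hw : BW w) (hM : MF M m) (φ F : V → ℝ) :
    Psi w wD M φ F * Zn w M F = Zn wD M (φ + F) := by
  unfold Psi
  exact div_mul_cancel₀ _ (hw.Zn_pos hM F).ne'

lemma Psi_pos (hw : BW w) (hD : BW wD) (hM : MF M m) (φ F : V → ℝ) : 0 < Psi w wD M φ F :=
  div_pos (hD.Zn_pos hM _) (hw.Zn_pos hM _)

lemma continuous_Psi (hw : BW w) (hD : BW wD) (hM : MF M m) (φ : V → ℝ) :
    Continuous (Psi w wD M φ) :=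
  ((hD.contZn hM).comp (continuous_const.add continuous_id)).div (hw.contZn hM)
    fun F => (hw.Zn_pos hM F).ne'

lemma ci_Psi (hw : BW w) (hD : BW wD) (φ : V → ℝ) : CI (Psi w wD M φ) := by
  intro F c
  unfold Psi
  have e : (φ + fun x => F x + c) = fun x => (φ + F) x + c := by
    funext x
    simp only [Pi.add_apply]
    ring
  rw [e, hD.Zn_cs, hw.Zn_cs]

lemma if_Psi (h : Chn M M' B K) (hw : BW w) (hD : BW wD) (hM : MF M m) (hM' : MF M' m')
    (φ f : V → ℝ) : IF w M B (Psi w wD M φ) f := by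
  unfold IF
  simp only [psi_mul hw hM]
  refine (hD.chn_Zn_int h hM hM' (φ + f)).congr (Filter.Eventually.of_forall fun g => ?_)
  simp only [add_assoc]

/-- **(T0)** tower property of the ratio -/
theorem Psi_tower (h : Chn M M' B K) (hw : BW w) (hD : BW wD) (hM : MF M m) (hM' : MF M' m')
    (φ f : V → ℝ) : EF w M B (Psi w wD M φ) f = Psi w wD M' φ f := by
  unfold EF
  simp only [psi_mul hw hM, ← add_assoc]
  rw [hD.chn_Zn h hM hM', hw.chn_Zn h hM hM']
  unfold Psi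
  rw [mul_div_mul_left _ _ (H896.cN_pos (B := B) h.nn).ne']

/-- **(T1)** the mean of the ratio is the ratio of the massless partition functions -/
theorem in_Psi (hw : BW w) (hD : BW wD) (hM : MF M m) (x₀ : V) (φ : V → ℝ) :
    IN w M x₀ (Psi w wD M φ) := by
  unfold IN
  simp only [psi_mul hw hM]
  have h1 := SI_shift_int (hD.ci M) x₀ φ (hD.SI_Zn hM x₀).1
  refine h1.congr (Filter.Eventually.of_forall fun F => ?_)
  simp only
  rw [add_comm]

theorem Enu_Psi (hw : BW w) (hD : BW wD) (hM : MF M m) (x₀ : V) (φ : V → ℝ) :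
    Enu w M x₀ (Psi w wD M φ) = Zp wD x₀ / Zp w x₀ := by
  unfold Enu
  simp only [psi_mul hw hM]
  have h1 := SI_shift (hD.ci M) x₀ φ
  have e : (fun F : V → ℝ => Zn wD M (F + φ)) = fun F => Zn wD M (φ + F) :=
    funext fun F => by rw [add_comm]
  rw [e] at h1
  rw [h1, (hD.SI_Zn hM x₀).2, (hw.SI_Zn hM x₀).2, mul_div_mul_left _ _ (cI_pos hM x₀).ne']

/-! ### consistency -/

lemma meas_joint {H : (V → ℝ) → ℝ} (hm : Measurable H) :
    Measurable fun p : (V → ℝ) × (I → ℝ) => H (p.1 + B *ᵥ p.2) :=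
  hm.comp (Continuous.measurable (continuous_fst.add
    (Continuous.matrix_mulVec continuous_const continuous_snd)))

lemma prod_slab {H : (V → ℝ) → ℝ} (hH : CI H) (hm : Measurable H) (x₀ : V)
    (hi : IntegrableOn H (slab x₀)) (B : Matrix V I ℝ) :
    Integrable (fun p : (V → ℝ) × (I → ℝ) => H (p.1 + B *ᵥ p.2))
      ((volume.restrict (slab x₀)).prod (gau I)) := by
  rw [integrable_prod_iff' (meas_joint hm).aestronglyMeasurable]
  constructor
  · exact Filter.Eventually.of_forall fun g => SI_shift_int hH x₀ (B *ᵥ g) hi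
  · have h1 : (fun g : I → ℝ => ∫ F : V → ℝ, ‖H (F + B *ᵥ g)‖ ∂(volume.restrict (slab x₀)))
        = fun _ => SI x₀ fun F => ‖H F‖ := by
      funext g
      exact SI_shift (H := fun F => ‖H F‖) (hH.comp fun r => ‖r‖) x₀ (B *ᵥ g)
    show Integrable (fun g : I → ℝ => ∫ F : V → ℝ, ‖H (F + B *ᵥ g)‖
      ∂(volume.restrict (slab x₀))) _
    rw [h1]
    exact integrable_const _

/-- averaging over the noise does not change the integral modulo constants -/
theorem SI_avg {H : (V → ℝ) → ℝ} (hH : CI H) (hm : Measurable H) (x₀ : V)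
    (hi : IntegrableOn H (slab x₀)) (B : Matrix V I ℝ) :
    (∀ᵐ f ∂(volume.restrict (slab x₀)), Integrable (fun g => H (f + B *ᵥ g)) (gau I)) ∧
    IntegrableOn (fun f => ∫ g, H (f + B *ᵥ g) ∂(gau I)) (slab x₀) ∧
    SI x₀ (fun f => ∫ g, H (f + B *ᵥ g) ∂(gau I)) = SI x₀ H := by
  have hp := prod_slab hH hm x₀ hi B
  refine ⟨hp.prod_right_ae, hp.integral_prod_left, ?_⟩
  unfold SI
  rw [integral_integral_swap (f := fun (F : V → ℝ) (g : I → ℝ) => H (F + B *ᵥ g)) hp]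
  have h1 : ∀ g : I → ℝ, ∫ F in slab x₀, H (F + B *ᵥ g) = SI x₀ H := fun g =>
    SI_shift hH x₀ (B *ᵥ g)
  simp only [h1]
  rw [integral_const]
  simp [SI]

/-- **consistency** of the laws: the field of level `M'` is the field of level `M` seen through the
channel -/
theorem Enu_tower (h : Chn M M' B K) (hw : BW w) (hM : MF M m) (hM' : MF M' m') (x₀ : V)
    {Φ : (V → ℝ) → ℝ} (hΦ : CI Φ) (hm : Measurable Φ) (hi : IN w M x₀ Φ) :
    (∀ᵐ f ∂(volume.restrict (slab x₀)), IF w M B Φ f) ∧ IN w M' x₀ (EF w M B Φ) ∧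
    Enu w M' x₀ (EF w M B Φ) = Enu w M x₀ Φ := by
  have hc := H896.cN_pos (B := B) h.nn
  obtain ⟨h1, h2, h3⟩ := SI_avg (H := fun F => Φ F * Zn w M F) (hΦ.mul (hw.ci M))
    (hm.mul (hw.contZn hM).measurable) x₀ hi B
  obtain ⟨-, -, k3⟩ := SI_avg (hw.ci M) (hw.contZn hM).measurable x₀ (hw.SI_Zn hM x₀).1 B
  have e : ∀ f, EF w M B Φ f * Zn w M' f =
      (cN M B)⁻¹ * ∫ g, Φ (f + B *ᵥ g) * Zn w M (f + B *ᵥ g) ∂(gau I) := by
    intro f
    unfold EF
    rw [hw.chn_Zn h hM hM']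
    have := (hw.Zn_pos hM' f).ne'
    field_simp
  refine ⟨h1, ?_, ?_⟩
  · unfold IN
    simp only [e]
    exact Integrable.const_mul h2 _
  · unfold Enu
    simp only [e]
    have k4 : SI x₀ (Zn w M') = (cN M B)⁻¹ * SI x₀ (Zn w M) := by
      rw [← k3]
      simp only [hw.chn_Zn h hM hM']
      unfold SI
      rw [integral_const_mul, ← mul_assoc, inv_mul_cancel₀ hc.ne', one_mul]
    have k5 : SI x₀ (fun f => (cN M B)⁻¹ * ∫ g, Φ (f + B *ᵥ g) * Zn w M (f + B *ᵥ g) ∂(gau I))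
        = (cN M B)⁻¹ * SI x₀ fun F => Φ F * Zn w M F := by
      rw [← h3]
      unfold SI
      rw [integral_const_mul]
    rw [k4, k5, mul_div_mul_left _ _ (inv_pos.2 hc).ne']

/-! ### growth of the logarithm -/

lemma abs_qf_le (A : Matrix V V ℝ) (F : V → ℝ) :
    |qf A F| ≤ (∑ x, ∑ y, |A x y|) * (∑ x, |F x|) ^ 2 := by
  have h1 : qf A F = ∑ x, ∑ y, F x * A x y * F y := by
    rw [H37.qf_eq]
    simp only [dotProduct, mulVec, Finset.mul_sum]
    exact Finset.sum_congr rfl fun x _ => Finset.sum_congr rfl fun y _ => by ring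
  have hs : ∀ x, |F x| ≤ ∑ y, |F y| := fun x =>
    Finset.single_le_sum (f := fun y => |F y|) (fun _ _ => abs_nonneg _) (Finset.mem_univ x)
  have hS : 0 ≤ ∑ y, |F y| := Finset.sum_nonneg fun _ _ => abs_nonneg _
  rw [h1, Finset.sum_mul]
  refine (Finset.abs_sum_le_sum_abs _ _).trans (Finset.sum_le_sum fun x _ => ?_)
  rw [Finset.sum_mul]
  refine (Finset.abs_sum_le_sum_abs _ _).trans (Finset.sum_le_sum fun y _ => ?_)
  rw [abs_mul, abs_mul]
  calc |F x| * |A x y| * |F y| = |A x y| * (|F x| * |F y|) := by ring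
    _ ≤ |A x y| * ((∑ y, |F y|) * ∑ y, |F y|) :=
        mul_le_mul_of_nonneg_left (mul_le_mul (hs x) (hs y) (abs_nonneg _) hS) (abs_nonneg _)
    _ = _ := by ring

lemma BW.Zn_ge (hw : BW w) (hM : MF M m) (F : V → ℝ) :
    kap V m * w 0 * E0g M m F ≤ Zn w M F := by
  have x₀ : V := Classical.arbitrary V
  rw [hw.Zn_pin hM x₀ F, mul_assoc]
  refine mul_le_mul_of_nonneg_left ?_ (kap_pos hM.pos).le
  have h1 := (hw.term_le hM x₀ F).le_tsum 0 fun h _ =>
    mul_nonneg (H963.pin_nonneg hw.nn x₀ h) (E0g_pos _ _ _).le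
  have h0 : pin w x₀ 0 = w 0 := H963.pin_of_zero (h := (0 : V → ℤ)) rfl
  have h2 : re (0 : V → ℤ) - F = -F := by
    funext x
    simp [re]
  rw [h0, h2, E0g_neg] at h1
  exact h1

/-- `log Zn` has exponential growth -/
theorem BW.xg_log (hw : BW w) (hM : MF M m) : XG fun F : V → ℝ => Real.log (Zn w M F) := by
  obtain ⟨K, hK0, hK⟩ := hw.Zn_bdd hM
  have hm : Measurable fun F : V → ℝ => Real.log (Zn w M F) :=
    ((hw.contZn hM).log fun F => (hw.Zn_pos hM F).ne').measurable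
  have hk := mul_pos (kap_pos (V := V) hM.pos) hw.pos
  set A : ℝ := ∑ x, ∑ y, |ntr M m x y| with hA
  have hA0 : 0 ≤ A := Finset.sum_nonneg fun _ _ => Finset.sum_nonneg fun _ _ => abs_nonneg _
  set C : ℝ := |Real.log K| + |Real.log (kap V m * w 0)| + A + 1 with hC
  have hC1 : 1 ≤ C := by
    have := abs_nonneg (Real.log K)
    have := abs_nonneg (Real.log (kap V m * w 0))
    linarith
  refine ⟨hm, C, by linarith, fun F => ?_⟩
  have hs := sabs_nonneg F
  have hup : Real.log (Zn w M F) ≤ |Real.log K| :=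
    (Real.log_le_log (hw.Zn_pos hM F) (hK F)).trans (le_abs_self _)
  have hlo : -(|Real.log (kap V m * w 0)| + A * (∑ x, |F x|) ^ 2 / 2) ≤ Real.log (Zn w M F) := by
    have h1 := Real.log_le_log (mul_pos hk (E0g_pos M m F)) (hw.Zn_ge hM F)
    rw [Real.log_mul hk.ne' (E0g_pos M m F).ne'] at h1
    have h2 : Real.log (E0g M m F) = -(qf (ntr M m) F / 2) := by
      unfold E0g
      rw [Real.log_exp]
    rw [h2] at h1
    have h3 := (le_abs_self _).trans (abs_qf_le (ntr M m) F)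
    have h4 := neg_abs_le (Real.log (kap V m * w 0))
    linarith
  have hq : (∑ x, |F x|) ^ 2 / 2 ≤ Real.exp (∑ x, |F x|) := by
    have := Real.quadratic_le_exp_of_nonneg hs
    nlinarith
  have he : Real.exp (∑ x, |F x|) ≤ Real.exp (C * ∑ x, |F x|) :=
    Real.exp_le_exp.2 (by nlinarith)
  have h1e : 1 ≤ Real.exp (C * ∑ x, |F x|) := Real.one_le_exp (by positivity)
  have hAe : A * (∑ x, |F x|) ^ 2 / 2 ≤ A * Real.exp (C * ∑ x, |F x|) := by
    rw [mul_div_assoc]
    exact mul_le_mul_of_nonneg_left (hq.trans he) hA0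
  have hKa := abs_nonneg (Real.log K)
  have hka := abs_nonneg (Real.log (kap V m * w 0))
  have e1 : C * Real.exp (C * ∑ x, |F x|) = |Real.log K| * Real.exp (C * ∑ x, |F x|) +
      |Real.log (kap V m * w 0)| * Real.exp (C * ∑ x, |F x|) + A * Real.exp (C * ∑ x, |F x|) +
      Real.exp (C * ∑ x, |F x|) := by rw [hC]; ring
  rw [abs_le]
  constructor
  · have h5 : |Real.log (kap V m * w 0)| ≤
        |Real.log (kap V m * w 0)| * Real.exp (C * ∑ x, |F x|) := by nlinarith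
    have h6 : 0 ≤ |Real.log K| * Real.exp (C * ∑ x, |F x|) := by positivity
    linarith [Real.exp_pos (C * ∑ x, |F x|)]
  · have h5 : |Real.log K| ≤ |Real.log K| * Real.exp (C * ∑ x, |F x|) := by nlinarith
    have h6 : 0 ≤ |Real.log (kap V m * w 0)| * Real.exp (C * ∑ x, |F x|) := by positivity
    have h7 : 0 ≤ A * Real.exp (C * ∑ x, |F x|) := by positivity
    linarith [Real.exp_pos (C * ∑ x, |F x|)]

/-- translates -/
lemma XG.shift {H : (V → ℝ) → ℝ} (h : XG H) (v : V → ℝ) : XG fun F => H (v + F) := by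
  obtain ⟨hm, C, hC, hb⟩ := h
  have hv : 0 ≤ ∑ x, |v x| := Finset.sum_nonneg fun _ _ => abs_nonneg _
  refine ⟨hm.comp (measurable_const.add measurable_id), C + C * Real.exp (C * ∑ x, |v x|),
    by positivity, fun F => (hb _).trans ?_⟩
  have hs := sabs_nonneg F
  have h1 : ∑ x, |(v + F) x| ≤ ∑ x, |v x| + ∑ x, |F x| := by
    rw [← Finset.sum_add_distrib]
    exact Finset.sum_le_sum fun x _ => abs_add_le _ _
  have h2 : C * Real.exp (C * ∑ x, |(v + F) x|)
      ≤ C * Real.exp (C * ∑ x, |v x|) * Real.exp (C * ∑ x, |F x|) := by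
    rw [mul_assoc, ← Real.exp_add, ← mul_add]
    exact mul_le_mul_of_nonneg_left (Real.exp_le_exp.2 (mul_le_mul_of_nonneg_left h1 hC)) hC
  refine h2.trans (mul_le_mul (by linarith) (Real.exp_le_exp.2 ?_) (Real.exp_pos _).le
    (by positivity))
  refine mul_le_mul_of_nonneg_right ?_ hs
  have : 0 ≤ C * Real.exp (C * ∑ x, |v x|) := by positivity
  linarith

/-- observation of a function of exponential growth through the channel -/
lemma XG.chn {H : (V → ℝ) → ℝ} (h : XG H) (f : V → ℝ) (B : Matrix V I ℝ) :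
    XG fun g : I → ℝ => H (f + B *ᵥ g) := by
  obtain ⟨hm, C, hC, hb⟩ := h.shift f
  set A : ℝ := ∑ i, ∑ x, |B x i| with hA
  have hA0 : 0 ≤ A := Finset.sum_nonneg fun _ _ => Finset.sum_nonneg fun _ _ => abs_nonneg _
  refine ⟨h.1.comp (H896.measurable_chn f), C + C * A, by positivity, fun g => ?_⟩
  have hs := sabs_nonneg g
  refine (hb (B *ᵥ g)).trans ?_
  have h1 : ∑ x, |(B *ᵥ g) x| ≤ A * ∑ i, |g i| := by
    have h2 : ∀ x, |(B *ᵥ g) x| ≤ ∑ i, |B x i| * |g i| := by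
      intro x
      simp only [mulVec, dotProduct]
      refine (Finset.abs_sum_le_sum_abs _ _).trans (Finset.sum_le_sum fun i _ => ?_)
      rw [abs_mul]
    refine (Finset.sum_le_sum fun x _ => h2 x).trans ?_
    rw [Finset.sum_comm]
    have h3 : ∀ i, ∑ x, |B x i| * |g i| ≤ (∑ x, |B x i|) * ∑ j, |g j| := by
      intro i
      rw [← Finset.sum_mul]
      refine mul_le_mul_of_nonneg_left ?_ (Finset.sum_nonneg fun _ _ => abs_nonneg _)
      exact Finset.single_le_sum (f := fun j => |g j|) (fun _ _ => abs_nonneg _)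
        (Finset.mem_univ i)
    refine (Finset.sum_le_sum fun i _ => h3 i).trans ?_
    rw [← Finset.sum_mul]
  have h4 : C * ∑ x, |(B *ᵥ g) x| ≤ (C + C * A) * ∑ i, |g i| := by
    calc C * ∑ x, |(B *ᵥ g) x| ≤ C * (A * ∑ i, |g i|) := mul_le_mul_of_nonneg_left h1 hC
      _ ≤ _ := by nlinarith [mul_nonneg hC hs]
  have h5 : 0 ≤ C * A := mul_nonneg hC hA0
  exact mul_le_mul (by linarith) (Real.exp_le_exp.2 h4) (Real.exp_pos _).le (by positivity)

lemma BW.xg_Zn (hw : BW w) (hM : MF M m) : XG (Zn w M) := by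
  obtain ⟨K, hK0, hK⟩ := hw.Zn_bdd hM
  refine XG.of_bdd (hw.contZn hM).measurable (C := K) fun F => ?_
  rw [abs_of_pos (hw.Zn_pos hM F)]
  exact hK F

/-- functions of exponential growth are integrable under all laws -/
lemma XG.if_ {Φ : (V → ℝ) → ℝ} (h : XG Φ) (hw : BW w) (hM : MF M m) (f : V → ℝ)
    (B : Matrix V I ℝ) : IF w M B Φ f :=
  ((h.mul (hw.xg_Zn hM)).chn f B).int

lemma XG.in_ {Φ : (V → ℝ) → ℝ} (h : XG Φ) (hc : CI Φ) (hw : BW w) (hM : MF M m) (x₀ : V) :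
    IN w M x₀ Φ := by
  obtain ⟨hm, C, hC, hb⟩ := h
  exact (hw.SI_Zn_gen hM x₀ hc hm hb).1

theorem xg_logPsi (hw : BW w) (hD : BW wD) (hM : MF M m) (φ : V → ℝ) :
    XG fun F : V → ℝ => Real.log (Psi w wD M φ F) := by
  have h1 := ((hD.xg_log hM).shift φ).sub (hw.xg_log hM)
  have e : (fun F : V → ℝ => Real.log (Psi w wD M φ F)) =
      fun F => Real.log (Zn wD M (φ + F)) - Real.log (Zn w M F) := by
    funext F
    unfold Psi
    rw [Real.log_div (hD.Zn_pos hM _).ne' (hw.Zn_pos hM _).ne']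
  rw [e]
  exact h1

/-! ### (T2) Jensen for the logarithm -/

lemma log_tangent {x y : ℝ} (hx : 0 < x) (hy : 0 < y) : Real.log x ≤ (Real.log y - 1) + y⁻¹ * x := by
  have h1 := Real.log_le_sub_one_of_pos (div_pos hx hy)
  rw [Real.log_div hx.ne' hy.ne'] at h1
  have : x / y = y⁻¹ * x := by rw [div_eq_inv_mul]
  linarith

/-- **(T2a)** `E_f log Ψ ≤ log Ψ'` -/
theorem EF_log_le (h : Chn M M' B K) (hw : BW w) (hD : BW wD) (hM : MF M m) (hM' : MF M' m')
    (φ f : V → ℝ) :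
    EF w M B (fun F => Real.log (Psi w wD M φ F)) f ≤ Real.log (Psi w wD M' φ f) := by
  set y := Psi w wD M' φ f with hy
  have hy0 : 0 < y := Psi_pos hw hD hM' φ f
  have hiP := if_Psi h hw hD hM hM' φ f
  have h1 := EF_mono h hw hM hM' ((xg_logPsi hw hD hM φ).if_ hw hM f B)
    (hiP.aff h hw hM hM' (Real.log y - 1) y⁻¹)
    fun F => log_tangent (Psi_pos hw hD hM φ F) hy0
  rw [EF_aff h hw hM hM' hiP, Psi_tower h hw hD hM hM', ← hy, inv_mul_cancel₀ hy0.ne'] at h1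
  linarith

/-- **(T2b)** `E_ν log Ψ ≤ log C` -/
theorem Enu_log_le (hw : BW w) (hD : BW wD) (hM : MF M m) (x₀ : V) (φ : V → ℝ) :
    Enu w M x₀ (fun F => Real.log (Psi w wD M φ F)) ≤ Real.log (Zp wD x₀ / Zp w x₀) := by
  set y := Zp wD x₀ / Zp w x₀ with hy
  have hy0 : 0 < y := div_pos (hD.Zp_pos x₀) (hw.Zp_pos x₀)
  have hiP := in_Psi hw hD hM x₀ φ
  have hci : CI fun F : V → ℝ => Real.log (Psi w wD M φ F) := (ci_Psi hw hD φ).comp Real.log
  have h1 := Enu_mono hw hM ((xg_logPsi hw hD hM φ).in_ hci hw hM x₀)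
    (hiP.aff hw hM (Real.log y - 1) y⁻¹)
    fun F => log_tangent (Psi_pos hw hD hM φ F) hy0
  rw [Enu_aff hw hM hiP, Enu_Psi hw hD hM x₀ φ, ← hy, inv_mul_cancel₀ hy0.ne'] at h1
  linarith

/-- **(T2c)** `E_ν log Ψ` increases along the flow -/
theorem Enu_log_mono (h : Chn M M' B K) (hw : BW w) (hD : BW wD) (hM : MF M m) (hM' : MF M' m')
    (x₀ : V) (φ : V → ℝ) :
    Enu w M x₀ (fun F => Real.log (Psi w wD M φ F)) ≤
      Enu w M' x₀ (fun F => Real.log (Psi w wD M' φ F)) := by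
  have hci : ∀ M : Matrix V V ℝ, CI fun F : V → ℝ => Real.log (Psi w wD M φ F) := fun M =>
    (ci_Psi hw hD φ).comp Real.log
  obtain ⟨-, h2, h3⟩ := Enu_tower h hw hM hM' x₀ (hci M) (xg_logPsi hw hD hM φ).1
    ((xg_logPsi hw hD hM φ).in_ (hci M) hw hM x₀)
  rw [← h3]
  exact Enu_mono hw hM' h2 ((xg_logPsi hw hD hM' φ).in_ (hci M') hw hM' x₀) fun f =>
    EF_log_le h hw hD hM hM' φ f

end

end Vale.Agent.P159.H883
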